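import Vale.Agent.P237.Defs
import Vale.Agent.P237R.Slicing

/-!
# Definitions for the high-dimensional Petty inequality
-/

namespace Vale.Agent.P237H

open MeasureTheory Set Metric Vale.Agent.P237 Vale.Agent.P237R
open scoped RealInnerProductSpace

/-- Euclidean space. -/
abbrev E (n : ℕ) : Type := EuclideanSpace ℝ (Fin n)

/-- The uniform probability measure on the unit sphere, as a measure on the ambient space. -/
noncomputable def sphM (n : ℕ) : Measure (E n) :=
  ((volume : Measure (E n)).toSphere univ)⁻¹ •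
    ((volume : Measure (E n)).toSphere).map Subtype.val

/-- `n` times the first absolute moment of a coordinate on the sphere. -/
noncomputable def MM (n : ℕ) : ℝ := 2 * kap (n - 1) / kap n

/-- The first absolute moment of a coordinate on the sphere. -/
noncomputable def absMom (n : ℕ) : ℝ := MM n / n

/-- The standard coordinate vectors. -/
noncomputable def bv {n : ℕ} (i : Fin n) : E n := EuclideanSpace.single i 1

/-- Divergence. -/
noncomputable def divg {n : ℕ} (Φ : E n → E n) (x : E n) : ℝ :=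
  ∑ i, ⟪bv i, fderiv ℝ Φ x (bv i)⟫

/-- Laplacian. -/
noncomputable def lap {n : ℕ} (f : E n → ℝ) (x : E n) : ℝ :=
  ∑ i, fderiv ℝ (fun y => fderiv ℝ f y (bv i)) x (bv i)

/-- Squared length of the tangential part of the gradient. -/
noncomputable def tangSq {n : ℕ} (f : E n → ℝ) (x : E n) : ℝ :=
  ‖fderiv ℝ f x‖ ^ 2 - (fderiv ℝ f x x) ^ 2

/-- Radial projection to the sphere, cut off near the origin. -/
noncomputable def rproj {n : ℕ} (x : E n) : E n := (max (1 / 2) ‖x‖)⁻¹ • x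

/-- Homogeneous polynomial functions of degree `l`. -/
noncomputable def polyHom (n : ℕ) : ℕ → Submodule ℝ (E n → ℝ)
  | 0 => Submodule.span ℝ {fun _ => (1 : ℝ)}
  | l + 1 => Submodule.span ℝ
      {g | ∃ (i : Fin n) (p : E n → ℝ), p ∈ polyHom n l ∧ g = fun x => x i * p x}

/-- `P` is a harmonic homogeneous polynomial of degree `l`. -/
def IsHarm {n : ℕ} (l : ℕ) (P : E n → ℝ) : Prop := P ∈ polyHom n l ∧ ∀ x, lap P x = 0

/-- A finite orthonormal family spanning the harmonic polynomials of each degree. -/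
structure HBasis (n : ℕ) where
  dim : ℕ → ℕ
  Y : (l : ℕ) → Fin (dim l) → E n → ℝ
  harm : ∀ l i, IsHarm l (Y l i)
  orth : ∀ l i j, ∫ x, Y l i x * Y l j x ∂sphM n = if i = j then 1 else 0
  expand : ∀ l P, IsHarm l P → ∀ x, P x = ∑ i, (∫ y, P y * Y l i y ∂sphM n) * Y l i x

/-- Indices of odd degrees `3, 5, …, 2 N + 1`. -/
abbrev Idx {n : ℕ} (B : HBasis n) (N : ℕ) : Type := Σ m : Fin N, Fin (B.dim (2 * (m : ℕ) + 3))

/-- The basis function of an index. -/
noncomputable def HBasis.fn {n : ℕ} (B : HBasis n) {N : ℕ} (ι : Idx B N) : E n → ℝ :=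
  B.Y (2 * (ι.1 : ℕ) + 3) ι.2

/-- A vector field with harmonic components of odd degree at least three. -/
noncomputable def fieldOf {n : ℕ} (B : HBasis n) {N : ℕ} (b : Idx B N → E n) (x : E n) : E n :=
  ∑ ι, B.fn ι x • b ι

/-- Weights: `rr n m` belongs to the degree `2 m + 1`, with the linear degree removed. -/
noncomputable def rr (n : ℕ) : ℕ → ℝ
  | 0 => 0
  | 1 => 1 / (n + 1)
  | m + 2 => (2 * m + 3) / (n + 2 * m + 3) * rr n (m + 1)

/-- The weighted norm of a coefficient family. -/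
noncomputable def qNorm {n : ℕ} (B : HBasis n) {N : ℕ} (b : Idx B N → E n) : ℝ :=
  ∑ ι : Idx B N, ‖b ι‖ ^ 2 / rr n ((ι.1 : ℕ) + 1)

/-- The form constant on the even degree `2 (m + 1)`. -/
noncomputable def tauJ (n m : ℕ) : ℝ :=
  (rr n m * (2 * m + 2) * ((n + 2 * m) + 1) ^ 2 + rr n (m + 1) * (n + 2 * m) * (2 * m + 1) ^ 2)
    / (n + 4 * m + 2)

/-- The Laplace eigenvalue on the even degree `2 (m + 1)`. -/
noncomputable def lamJ (n m : ℕ) : ℝ := (2 * m + 2) * (n + 2 * m)

/-- `v ↦ v + ((1 + v) ^ (-n) - 1) / n`. -/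
noncomputable def phiN (n : ℕ) (v : ℝ) : ℝ := v + (((1 + v) ^ n)⁻¹ - 1) / n

/-- A split of the gauge and the constants used to bound the pairing, without the pointwise
inequality. -/
structure PreCert (n : ℕ) where
  η : ℝ
  T : ℝ
  β : ℝ
  S : Finset ℝ
  H : ℝ → ℝ
  a : ℝ → ℝ
  K : ℝ → ℝ
  k : ℝ → ℝ
  η_pos : 0 < η
  T_nonneg : 0 ≤ T
  β_nonneg : 0 ≤ β
  tau_le : ∀ m, tauJ n m ≤ T
  tau_le_lam : ∀ m, tauJ n m ≤ β * lamJ n m
  H_lip : ∃ C, LipschitzWith C H
  K_lip : ∃ C, LipschitzWith C K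
  a_meas : Measurable a
  k_meas : Measurable k
  a_bdd : ∃ C, ∀ v, |a v| ≤ C
  k_bdd : ∃ C, ∀ v, |k v| ≤ C
  H_deriv : ∀ v, v ∉ S → HasDerivAt H (a v) v
  K_deriv : ∀ v, v ∉ S → HasDerivAt K (k v) v
  K_nonneg : ∀ v, 0 ≤ K v

/-- A certificate for the scalar inequality in dimension `n`, for gauges at most `M`. -/
structure CertB (n : ℕ) (M : ℝ) extends PreCert n where
  ineq : ∀ v, -1 < v → v ≤ M - 1 →
    (1 + η) * T / 2 * H v ^ 2 + (1 + η⁻¹) * β / 2 *
      (((n : ℝ) - 1) * (1 + v) * K v + max 0 ((1 - a v) ^ 2 - k v) * (M ^ 2 - (1 + v) ^ 2))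
      ≤ phiN n v

/-- A certificate with the gauge bound valid for every body. -/
abbrev Cert (n : ℕ) : Type := CertB n (MM n)

/-- Normalised mixed-volume functionals. -/
structure Lam (n : ℕ) where
  L : (E n → ℝ) → ℝ
  add : ∀ f g, Continuous f → Continuous g → L (f + g) = L f + L g
  smul : ∀ (c : ℝ) f, Continuous f → L (c • f) = c * L f
  mono : ∀ f g, Continuous f → Continuous g → (∀ x, f x ≤ g x) → L f ≤ L g
  mink : ∀ (S : Set (E n)) f, IsCompact S → S.Nonempty → Continuous f →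
    (∀ x ∈ S, ∀ y, ⟪y, x⟫ ≤ f y) → (volume S).toReal ≤ kap n * (L f) ^ n

/-- The normalised projection body of a functional. -/
def Lam.body {n : ℕ} (Λ : Lam n) : Set (E n) :=
  {z | ∀ v, absMom n * ⟪v, z⟫ ≤ Λ.L (fun y => |⟪v, y⟫|)}

/-- Support function. -/
noncomputable def hSupp {n : ℕ} (K : Set (E n)) (y : E n) : ℝ := sSup ((fun x => ⟪y, x⟫) '' K)

end Vale.Agent.P237H
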