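import Vale.Agent.P237H.Basic
import Vale.Agent.P237N.Equality

/-!
# A body whose functional is small on an ellipsoid norm is an ellipsoid
-/

namespace Vale.Agent.P237H

open MeasureTheory Set Metric Vale.Agent.P237 Vale.Agent.P237R Vale.Agent.P237U
open scoped RealInnerProductSpace NNReal Pointwise

variable {n j : ℕ}

lemma continuous_hSupp {K : Set (E n)} (hK : IsCompact K) : Continuous (hSupp K) :=
  hK.continuous_sSup (by fun_prop)

lemma le_hSupp {K : Set (E n)} (hK : IsCompact K) {x : E n} (hx : x ∈ K) (y : E n) :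
    ⟪y, x⟫ ≤ hSupp K y :=
  le_csSup (hK.image (by fun_prop)).bddAbove ⟨x, hx, rfl⟩

lemma abs_det_adjoint (A : E n →ₗ[ℝ] E n) :
    |LinearMap.det (LinearMap.adjoint A)| = |LinearMap.det A| := by
  set b := EuclideanSpace.basisFun (Fin n) ℝ
  rw [← LinearMap.det_toMatrix b.toBasis (LinearMap.adjoint A), LinearMap.toMatrix_adjoint b b,
    Matrix.det_conjTranspose, LinearMap.det_toMatrix, star_trivial]

/-- A body whose functional is small on an ellipsoid norm is that ellipsoid. -/
theorem ellipsoid_of_lam {K : Set (E (j + 1 + 1))} (hK : IsCompact K) (hc : Convex ℝ K)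
    (h0 : (0 : E (j + 1 + 1)) ∈ interior K) (Λ : Lam (j + 1 + 1))
    (hΛ : Λ.L (hSupp K) ≤ ((volume K).toReal / kap (j + 1 + 1)) ^ ((((j + 1 + 1 : ℕ) : ℝ))⁻¹))
    (A : E (j + 1 + 1) ≃ₗ[ℝ] E (j + 1 + 1))
    (hA : |LinearMap.det (A : E (j + 1 + 1) →ₗ[ℝ] E (j + 1 + 1))| = 1)
    (hA1 : Λ.L (fun y => ‖A y‖) ≤ 1) :
    ∃ (a : E (j + 1 + 1)) (T : E (j + 1 + 1) ≃ₗ[ℝ] E (j + 1 + 1)),
      K = (fun x => a + T x) '' closedBall 0 1 := by
  set V := (volume K).toReal with hV
  have hVp : 0 < V := toReal_pos_of_interior (n := j + 1) hK ⟨0, h0⟩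
  have hkp := kap_pos (j + 1 + 1)
  set s := (V / kap (j + 1 + 1)) ^ ((((j + 1 + 1 : ℕ) : ℝ))⁻¹) with hs
  have hs0 : 0 < s := by positivity
  have hsN : s ^ (j + 1 + 1) = V / kap (j + 1 + 1) :=
    Real.rpow_inv_natCast_pow (by positivity) (by omega)
  set D := LinearMap.adjoint (A : E (j + 1 + 1) →ₗ[ℝ] E (j + 1 + 1)) with hD
  have hdet : |LinearMap.det D| = 1 := by rw [hD, abs_det_adjoint]; exact hA
  have hne : LinearMap.det D ≠ 0 := fun h => by simp [h] at hdet
  set T0 := LinearMap.equivOfDetNeZero D hne with hT0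
  set M0 := T0.symm.toLinearMap with hM0
  have hDM : ∀ x, D (M0 x) = x := fun x => T0.apply_symm_apply x
  have hMD : ∀ x, M0 (D x) = x := fun x => T0.symm_apply_apply x
  have hvolD : ∀ S : Set (E (j + 1 + 1)), volume (M0 '' S) = volume S := fun S => by
    have h := Measure.addHaar_image_linearMap volume D (M0 '' S)
    rw [hdet, ENNReal.ofReal_one, one_mul, Set.image_image] at h
    simp only [hDM, image_id'] at h
    exact h.symm
  set B := closedBall (0 : E (j + 1 + 1)) 1 with hB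
  have hKs : (volume (s⁻¹ • K)).toReal = kap (j + 1 + 1) := by
    rw [Measure.addHaar_smul_of_nonneg _ (by positivity), finrank_euclideanSpace_fin,
      ENNReal.toReal_mul, ENNReal.toReal_ofReal (by positivity), inv_pow, hsN, ← hV]
    field_simp
  -- the functional on the average of the two support functions
  have hcA : Continuous fun y => ‖A y‖ :=
    (A : E (j + 1 + 1) →ₗ[ℝ] E (j + 1 + 1)).continuous_of_finiteDimensional.norm
  have hch := continuous_hSupp hK
  set f : E (j + 1 + 1) → ℝ := (2⁻¹ : ℝ) • (s⁻¹ • hSupp K + fun y => ‖A y‖) with hf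
  have hcf : Continuous f := ((hch.const_smul s⁻¹).add hcA).const_smul (2⁻¹ : ℝ)
  have hf0 : ∀ y, 0 ≤ f y := fun y => by
    have h := le_hSupp hK (interior_subset h0) y
    rw [inner_zero_right] at h
    simp only [hf, Pi.smul_apply, Pi.add_apply, smul_eq_mul]
    positivity
  have hLf : Λ.L f ≤ 1 := by
    rw [hf, Λ.smul _ _ ((hch.const_smul s⁻¹).add hcA), Λ.add _ _ (hch.const_smul s⁻¹) hcA,
      Λ.smul _ _ hch]
    have h := mul_le_mul_of_nonneg_left hΛ (inv_pos.2 hs0).le
    rw [inv_mul_cancel₀ hs0.ne'] at h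
    linarith
  have hLf0 : 0 ≤ Λ.L f := by
    have h := Λ.smul 0 f hcf
    rw [zero_smul, zero_mul] at h
    rw [← h]
    exact Λ.mono 0 f continuous_zero hcf hf0
  set M := midSet (s⁻¹ • K) (D '' B) with hM
  have hMvol : (volume M).toReal ≤ kap (j + 1 + 1) := by
    refine (Λ.mink M f ?_ ?_ hcf ?_).trans (mul_le_of_le_one_right hkp.le (pow_le_one₀ hLf0 hLf))
    · exact (((hK.smul s⁻¹).add
        ((isCompact_closedBall 0 1).image D.continuous_of_finiteDimensional)).smul (1 / 2 : ℝ))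
    · exact Set.Nonempty.smul_set (Set.Nonempty.add
        (Set.Nonempty.smul_set (show K.Nonempty from ⟨0, interior_subset h0⟩))
        (Set.Nonempty.image D (show B.Nonempty from ⟨0, mem_closedBall_self zero_le_one⟩)))
    · intro x hx y
      obtain ⟨_, ⟨_, ⟨k, hk, rfl⟩, _, ⟨b, hb, rfl⟩, rfl⟩, rfl⟩ := hx
      rw [hB, mem_closedBall_zero_iff] at hb
      have h1 := mul_le_mul_of_nonneg_left (le_hSupp hK hk y) (inv_pos.2 hs0).le
      have h2 : ⟪A y, b⟫ ≤ ‖A y‖ := (real_inner_le_norm _ _).trans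
        (mul_le_of_le_one_right (norm_nonneg _) hb)
      simp only [hf, Pi.smul_apply, Pi.add_apply, smul_eq_mul, inner_smul_right, inner_add_right, hD,
        LinearMap.adjoint_inner_right, LinearEquiv.coe_coe]
      linarith
  -- move to the ball
  set K' := M0 '' (s⁻¹ • K) with hK'
  have hMB : M0 '' (D '' B) = B := by
    rw [Set.image_image]
    simp only [hMD, image_id']
  have hi' : (interior K').Nonempty := by
    refine ⟨0, ?_⟩
    rw [hK', show interior (M0 '' (s⁻¹ • K)) = M0 '' interior (s⁻¹ • K) from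
      (T0.symm.toContinuousLinearEquiv.toHomeomorph.image_interior _).symm,
      interior_smul₀ (inv_ne_zero hs0.ne')]
    exact ⟨0, ⟨0, h0, smul_zero _⟩, map_zero M0⟩
  obtain ⟨g, hg⟩ := P237N.eq_ball_of_mid ((hK.smul s⁻¹).image M0.continuous_of_finiteDimensional)
    ((hc.smul s⁻¹).linear_image M0) hi' (by rw [hvolD, hKs]; rfl) (by
      rw [hvolD, hKs]
      refine le_of_eq_of_le ?_ hMvol
      rw [← hB]
      conv_lhs => rw [← hMB]
      rw [show midSet (M0 '' (s⁻¹ • K)) (M0 '' (D '' B)) = M0 '' midSet (s⁻¹ • K) (D '' B) by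
        simp only [midSet, image_smul_set, Set.image_add], hvolD])
  set T := T0.trans (LinearEquiv.smulOfNeZero ℝ _ s hs0.ne') with hT
  have hTa : ∀ x, T x = s • D x := fun x => rfl
  refine ⟨T g, T, ?_⟩
  ext x
  constructor
  · intro hx
    have h : M0 (s⁻¹ • x) ∈ closedBall g 1 := by
      rw [← hg]; exact mem_image_of_mem M0 (smul_mem_smul_set hx)
    rw [mem_closedBall_iff_norm] at h
    refine ⟨M0 (s⁻¹ • x) - g, by rwa [mem_closedBall_zero_iff], ?_⟩
    simp only [hTa, map_sub, hDM, smul_sub, smul_smul, mul_inv_cancel₀ hs0.ne', one_smul]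
    abel
  · rintro ⟨y, hy, rfl⟩
    have h : g + y ∈ closedBall g 1 := by
      rw [mem_closedBall_iff_norm, add_sub_cancel_left]; simpa [hB] using hy
    rw [← hg] at h
    obtain ⟨_, ⟨z, hz, rfl⟩, hze⟩ := h
    have hz' : T g + T y = z := by
      rw [← map_add, ← hze, hTa, hDM, smul_smul, mul_inv_cancel₀ hs0.ne', one_smul]
    change T g + T y ∈ K
    rwa [hz']

end Vale.Agent.P237H
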