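import Vale.Agent.P237H.Basic
import Vale.Agent.P237U.Ellipsoid

/-!
# Ellipsoids attain equality in every dimension
-/

namespace Vale.Agent.P237H

open MeasureTheory Set Metric Vale.Agent.P237 Vale.Agent.P237R Vale.Agent.P237U
open scoped RealInnerProductSpace NNReal Pointwise

variable {j : ℕ}

/-- The projection body of a ball is a ball. -/
lemma projBody_ball_eq {r : ℝ} (hr : 0 ≤ r) :
    projBody (closedBall (0 : E (j + 1 + 1)) r) = closedBall 0 (kap (j + 1) * r ^ (j + 1)) := by
  have hk := kap_pos (j + 1)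
  have hv : ∀ u : E (j + 1 + 1), ‖u‖ = 1 →
      projVolume (closedBall 0 r) u = ENNReal.ofReal (kap (j + 1) * r ^ (j + 1)) := by
    intro u hu
    obtain ⟨R, hR⟩ := exists_align u
    rw [hu, one_smul] at hR
    rw [projVolume_eq hu R hR (isCompact_closedBall _ _), LinearIsometryEquiv.image_closedBall,
      map_zero, show etail (j + 1) '' closedBall (0 : E (j + 1 + 1)) r = closedBall 0 r from ?_,
      volume_closedBall_eq _ hr]
    ext y
    simp only [mem_image, mem_closedBall_zero_iff]
    constructor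
    · rintro ⟨x, hx, rfl⟩
      refine le_trans ((pow_le_pow_iff_left₀ (norm_nonneg _) (norm_nonneg x) two_ne_zero).1 ?_) hx
      conv_rhs => rw [← econs_etail x, norm_econs_sq]
      exact le_add_of_nonneg_left (sq_nonneg _)
    · intro hy
      refine ⟨econs 0 y, ?_, etail_econs 0 y⟩
      refine le_trans ((pow_le_pow_iff_left₀ (norm_nonneg _) (norm_nonneg y) two_ne_zero).1 ?_) hy
      rw [norm_econs_sq]; simp
  ext y
  rw [mem_closedBall_zero_iff]
  constructor
  · intro hy
    rcases eq_or_ne y 0 with h0 | h0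
    · rw [h0, norm_zero]; positivity
    set u := ‖y‖⁻¹ • y with hu
    have hu1 : ‖u‖ = 1 := by simp [hu, norm_smul, h0]
    have h := hy u hu1
    rw [hv u hu1, ENNReal.ofReal_le_ofReal_iff (by positivity), hu, real_inner_smul_left,
      real_inner_self_eq_norm_sq] at h
    refine le_of_eq_of_le ?_ h
    field_simp
  · intro hy u hu
    rw [hv u hu]
    exact ENNReal.ofReal_le_ofReal ((real_inner_le_norm u y).trans (by rw [hu, one_mul]; exact hy))

/-- Ellipsoids attain equality. -/
theorem equality_of_ellipsoid_gen (a : E (j + 1 + 1)) (T : E (j + 1 + 1) ≃ₗ[ℝ] E (j + 1 + 1)) :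
    volume (projBody ((fun x => a + T x) '' closedBall 0 1))
      = ENNReal.ofReal (unitBallVol (j + 1) ^ (j + 1 + 1) * (unitBallVol (j + 1 + 1) ^ j)⁻¹
          * (volume ((fun x => a + T x) '' closedBall 0 1)).toReal ^ (j + 1)) := by
  set B := closedBall (0 : E (j + 1 + 1)) 1 with hB
  have hshift : (fun x => a + T x) '' B = (fun x => x + (-a)) ⁻¹' (T.toLinearMap '' B) := by
    rw [show (fun x => x + (-a)) ⁻¹' (T.toLinearMap '' B) = (fun x => x + a) '' (T.toLinearMap '' B) by
      rw [image_add_right], Set.image_image]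
    exact image_congr fun x _ => add_comm _ _
  rw [hshift, projBody_shift, measure_preimage_add_right]
  set d := |LinearMap.det T.toLinearMap| with hd
  have hd0 : 0 < d := abs_pos.2 T.isUnit_det'.ne_zero
  set s := d ^ ((j + 1 + 1 : ℕ) : ℝ)⁻¹ with hs
  have hs0 : 0 < s := by positivity
  have hsn : s ^ (j + 1 + 1) = d := Real.rpow_inv_natCast_pow hd0.le (by omega)
  set T1 := s⁻¹ • T.toLinearMap with hT1
  have hdet : |LinearMap.det T1| = 1 := by
    rw [hT1, LinearMap.det_smul, finrank_euclideanSpace_fin, abs_mul, abs_pow, abs_inv,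
      abs_of_pos hs0, ← hd, ← hsn, inv_pow, inv_mul_cancel₀ (by positivity)]
  have himg : T.toLinearMap '' B = T1 '' closedBall 0 s := by
    have hb : closedBall (0 : E (j + 1 + 1)) s = s • B := by
      rw [hB, smul_unitClosedBall, Real.norm_of_nonneg hs0.le]
    rw [hb, ← Set.image_smul, Set.image_image]
    refine image_congr fun x _ => ?_
    rw [hT1, LinearMap.smul_apply, map_smul, smul_smul, inv_mul_cancel₀ hs0.ne', one_smul]
  have hne : LinearMap.det T1 ≠ 0 := fun h => by simp [h] at hdet
  set T1e := LinearMap.equivOfDetNeZero T1 hne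
  have hT1e : ∀ x, T1e x = T1 x := fun x => rfl
  have hTi : |LinearMap.det T1e.symm.toLinearMap| = 1 := by
    have hc : (LinearMap.det T1e.symm.toLinearMap) * LinearMap.det T1 = 1 := by
      rw [← LinearMap.det_comp, ← LinearMap.det_id (A := ℝ) (M := E (j + 1 + 1))]
      congr 1
      ext1 x
      exact T1e.symm_apply_apply x
    have := congrArg abs hc
    rwa [abs_mul, hdet, mul_one, abs_one] at this
  have h0 : (0 : E (j + 1 + 1)) ∈ interior (closedBall 0 s) :=
    ball_subset_interior_closedBall (mem_ball_self hs0)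
  have h1 : (0 : E (j + 1 + 1)) ∈ interior (T1 '' closedBall 0 s) := by
    rw [show interior (T1 '' closedBall 0 s) = T1 '' interior (closedBall 0 s) from
      (T1e.toContinuousLinearEquiv.toHomeomorph.image_interior _).symm]
    exact ⟨0, h0, map_zero _⟩
  have heq : volume (projBody (T1 '' closedBall 0 s)) = volume (projBody (closedBall (0 : E (j + 1 + 1)) s)) := by
    refine le_antisymm (volume_projBody_map_le (isCompact_closedBall _ _) (convex_closedBall _ _)
      h0 T1 hdet) ?_
    have h := volume_projBody_map_le ((isCompact_closedBall _ _).image T1.continuous_of_finiteDimensional)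
      ((convex_closedBall _ _).linear_image T1) h1 T1e.symm.toLinearMap hTi
    rwa [Set.image_image, image_congr (f := fun x => T1e.symm.toLinearMap (T1 x)) (g := fun x => x)
      (fun x _ => T1e.symm_apply_apply x),
      image_id'] at h
  rw [himg, heq, Measure.addHaar_image_linearMap, hdet, ENNReal.ofReal_one, one_mul,
    projBody_ball_eq hs0.le, volume_closedBall_eq _ (by have := kap_pos (j + 1); positivity),
    volume_closedBall_eq _ hs0.le, ← kap_eq_unitBallVol (Nat.succ_pos j),
    ← kap_eq_unitBallVol (Nat.succ_pos (j + 1))]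
  have hk1 := kap_pos (j + 1)
  have hk2 := kap_pos (j + 1 + 1)
  rw [ENNReal.toReal_ofReal (by positivity)]
  congr 1
  have hp : kap (j + 1 + 1) ^ j ≠ 0 := (pow_pos hk2 j).ne'
  calc kap (j + 1 + 1) * (kap (j + 1) * s ^ (j + 1)) ^ (j + 1 + 1)
      = kap (j + 1) ^ (j + 1 + 1) * ((kap (j + 1 + 1) ^ j)⁻¹ * kap (j + 1 + 1) ^ j)
          * kap (j + 1 + 1) * (s ^ (j + 1 + 1)) ^ (j + 1) := by
        rw [inv_mul_cancel₀ hp, mul_pow, ← pow_mul, ← pow_mul, mul_comm (j + 1) (j + 1 + 1)]; ring
    _ = kap (j + 1) ^ (j + 1 + 1) * (kap (j + 1 + 1) ^ j)⁻¹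
          * (kap (j + 1 + 1) * s ^ (j + 1 + 1)) ^ (j + 1) := by
        rw [mul_pow, pow_succ (kap (j + 1 + 1)) j]; ring

end Vale.Agent.P237H
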