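import Vale.Agent.P237H.Basic
import Vale.Agent.P237U.Main
import Vale.Agent.P237U.Mid

/-!
# The normalised mixed-volume functional of a convex body
-/

namespace Vale.Agent.P237H

open MeasureTheory Set Metric Filter Topology Vale.Agent.P237 Vale.Agent.P237R Vale.Agent.P237U
open scoped RealInnerProductSpace Pointwise

lemma continuous_hSupp_lam {n : ℕ} {K : Set (E n)} (hK : IsCompact K) (hne : K.Nonempty) :
    Continuous (hSupp K) := by
  obtain ⟨C, hC⟩ := hK.exists_bound_of_continuousOn (f := fun x : E n => x) continuousOn_id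
  have hC0 : 0 ≤ C := by
    obtain ⟨x, hx⟩ := hne
    exact (norm_nonneg x).trans (hC x hx)
  refine (LipschitzWith.of_le_add_mul C.toNNReal fun x y => ?_).continuous
  refine csSup_le (hne.image _) ?_
  rintro _ ⟨z, hz, rfl⟩
  rw [Real.coe_toNNReal C hC0, dist_eq_norm]
  have h1 : ⟪y, z⟫ ≤ hSupp K y :=
    le_csSup (hK.image (continuous_const.inner continuous_id)).bddAbove ⟨z, hz, rfl⟩
  have h2 : ⟪x - y, z⟫ ≤ C * ‖x - y‖ := by
    refine (real_inner_le_norm _ _).trans ?_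
    rw [mul_comm]
    exact mul_le_mul_of_nonneg_right (hC z hz) (norm_nonneg _)
  rw [inner_sub_left] at h2
  linarith

/-- Polytope approximations with their bounds. -/
lemma exists_lam_seq {j : ℕ} {K : Set (E (j + 1 + 1))} (hK : IsCompact K) (hc : Convex ℝ K)
    (h0 : (0 : E (j + 1 + 1)) ∈ interior K) :
    ∃ (Φ : ℕ → (E (j + 1 + 1) → ℝ) → ℝ) (t : ℕ → ℝ),
      Tendsto t atTop (𝓝 (((volume K).toReal / kap (j + 1 + 1)) ^ ((((j + 1 + 1 : ℕ) : ℝ))⁻¹))) ∧
      (∀ k f g, Φ k (f + g) = Φ k f + Φ k g) ∧ (∀ k (c : ℝ) f, Φ k (c • f) = c * Φ k f) ∧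
      (∀ k f g, (∀ x, f x ≤ g x) → Φ k f ≤ Φ k g) ∧
      (∀ f, Continuous f → ∃ C, ∀ k, |Φ k f| ≤ C) ∧
      (∀ k (S : Set (E (j + 1 + 1))) f, IsCompact S → S.Nonempty → (∀ x ∈ S, ∀ y, ⟪y, x⟫ ≤ f y) →
        (volume S).toReal ≤ kap (j + 1 + 1) * (Φ k f) ^ (j + 1 + 1)) ∧
      (∀ k v, ‖v‖ = 1 → ((j + 1 + 1 : ℕ) : ℝ) / 2 * kap (j + 1 + 1) * t k ^ (j + 1)
        * Φ k (fun y => |⟪v, y⟫|) ≤ (projVolume K v).toReal) ∧
      (∀ k, Φ k (hSupp K) ≤ t k / (1 - 1 / ((k : ℝ) + 2))) := by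
  set V := (volume K).toReal with hVdef
  have hV : 0 < V := toReal_pos_of_interior (n := j + 1) hK ⟨0, h0⟩
  have hk := kap_pos (j + 1 + 1)
  obtain ⟨r, hr, hball⟩ := Metric.mem_nhds_iff.1 (mem_interior_iff_mem_nhds.1 h0)
  set l : ℕ → ℝ := fun k => 1 - 1 / ((k : ℝ) + 2) with hl
  have hl0 : ∀ k, 1 / 2 ≤ l k := fun k => by
    have : 1 / ((k : ℝ) + 2) ≤ 1 / 2 :=
      one_div_le_one_div_of_le two_pos (by linarith [(Nat.cast_nonneg k : (0 : ℝ) ≤ k)])
    simp only [hl]; linarith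
  have hl1 : ∀ k, l k < 1 := fun k => by simp only [hl]; linarith [show 0 < 1 / ((k : ℝ) + 2) by positivity]
  have hl' : ∀ k, 0 < l k := fun k => lt_of_lt_of_le (by norm_num) (hl0 k)
  choose N hN u b hb hP hsub1 hsub2 using fun k => exists_polyH hK hc h0 (hl' k).le (hl1 k)
  set V' : ℕ → ℝ := fun k => (volume (polyH (u k) (b k))).toReal with hV'
  have hV'1 : ∀ k, l k ^ (j + 1 + 1) * V ≤ V' k := fun k => by
    have h := ENNReal.toReal_mono (hP k).measure_lt_top.ne (measure_mono (hsub1 k) (μ := volume))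
    rwa [Measure.addHaar_smul_of_nonneg _ (hl' k).le, finrank_euclideanSpace_fin, ENNReal.toReal_mul,
      ENNReal.toReal_ofReal (pow_nonneg (hl' k).le _)] at h
  have hV'2 : ∀ k, V' k ≤ V := fun k =>
    ENNReal.toReal_mono hK.measure_lt_top.ne (measure_mono (hsub2 k) (μ := volume))
  have hV'0 : ∀ k, 0 < V' k := fun k => lt_of_lt_of_le (mul_pos (pow_pos (hl' k) _) hV) (hV'1 k)
  set t : ℕ → ℝ := fun k => (V' k / kap (j + 1 + 1)) ^ ((((j + 1 + 1 : ℕ)) : ℝ))⁻¹ with ht
  have ht0 : ∀ k, 0 < t k := fun k => Real.rpow_pos_of_pos (div_pos (hV'0 k) hk) _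
  have htm : ∀ k, t k ^ (j + 1) * t k = V' k / kap (j + 1 + 1) := fun k => by
    rw [← pow_succ]
    exact Real.rpow_inv_natCast_pow (div_pos (hV'0 k) hk).le (Nat.succ_ne_zero _)
  set Φ : ℕ → (E (j + 1 + 1) → ℝ) → ℝ := fun k f =>
    (∑ i, coneVol (u k) (b k) i * f ((b k i)⁻¹ • u k i)) / (kap (j + 1 + 1) * t k ^ (j + 1)) with hΦ
  have hden : ∀ k, 0 < kap (j + 1 + 1) * t k ^ (j + 1) := fun k => mul_pos hk (pow_pos (ht0 k) _)
  have hcone : ∀ k i, 0 ≤ coneVol (u k) (b k) i := fun k i => ENNReal.toReal_nonneg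
  have hsum : ∀ k, ∑ i, coneVol (u k) (b k) i = V' k := fun k => by
    have := hN k
    exact sum_coneVol _ _ (hP k)
  have hratio : ∀ k, V' k / (kap (j + 1 + 1) * t k ^ (j + 1)) = t k := fun k => by
    rw [← div_div, ← htm k, mul_div_cancel_left₀ _ (pow_pos (ht0 k) _).ne']
  have hbdd : ∀ k i, ‖(b k i)⁻¹ • u k i‖ ≤ 4 / r := fun k i => by
    rcases eq_or_ne (u k i) 0 with h | h
    · simp [h, (div_pos (by norm_num : (0 : ℝ) < 4) hr).le]
    have hp := norm_pos_iff.2 h
    have hx : (r / 2 / ‖u k i‖) • u k i ∈ K := hball (by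
      rw [mem_ball_zero_iff, norm_smul, Real.norm_of_nonneg (by positivity), div_mul_cancel₀ _ hp.ne']
      linarith)
    have h1 := hsub1 k ⟨_, hx, rfl⟩ i
    rw [real_inner_smul_right, real_inner_smul_right, real_inner_self_eq_norm_sq] at h1
    have h2 : l k * (r / 2) * ‖u k i‖ ≤ b k i := by
      refine le_of_eq_of_le ?_ h1
      field_simp
    have h3 : r / 4 * ‖u k i‖ ≤ l k * (r / 2) * ‖u k i‖ :=
      mul_le_mul_of_nonneg_right (by nlinarith [hl0 k]) hp.le
    rw [norm_smul, Real.norm_of_nonneg (inv_nonneg.2 (hb k i).le), inv_mul_le_iff₀ (hb k i),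
      mul_div_assoc', le_div_iff₀ hr]
    linarith
  refine ⟨Φ, t, ?_, ?_, ?_, ?_, ?_, ?_, ?_, ?_⟩
  · have hlim : Tendsto l atTop (𝓝 1) := by
      have h : Tendsto (fun k : ℕ => 1 / ((k : ℝ) + 2)) atTop (𝓝 0) :=
        Tendsto.div_atTop tendsto_const_nhds (tendsto_atTop_add_const_right _ _ tendsto_natCast_atTop_atTop)
      simpa [hl] using tendsto_const_nhds.sub h
    have hVlim : Tendsto V' atTop (𝓝 V) :=
      tendsto_of_tendsto_of_tendsto_of_le_of_le (by simpa using (hlim.pow (j + 1 + 1)).mul_const V)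
        tendsto_const_nhds hV'1 hV'2
    exact (hVlim.div_const _).rpow_const (Or.inr (by positivity))
  · intro k f g
    simp only [hΦ, Pi.add_apply, mul_add, Finset.sum_add_distrib, add_div]
  · intro k c f
    simp only [hΦ, Pi.smul_apply, smul_eq_mul, mul_left_comm _ c, ← Finset.mul_sum, mul_div_assoc]
  · intro k f g h
    exact div_le_div_of_nonneg_right
      (Finset.sum_le_sum fun i _ => mul_le_mul_of_nonneg_left (h _) (hcone k i)) (hden k).le
  · intro f hf
    obtain ⟨C, hC⟩ := (isCompact_closedBall (0 : E (j + 1 + 1)) (4 / r)).exists_bound_of_continuousOn hf.continuousOn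
    have hC0 : 0 ≤ C := (norm_nonneg _).trans (hC 0 (mem_closedBall_self (by positivity)))
    refine ⟨C * (V / kap (j + 1 + 1)) ^ ((((j + 1 + 1 : ℕ)) : ℝ))⁻¹, fun k => ?_⟩
    simp only [hΦ, abs_div, abs_of_pos (hden k)]
    calc |∑ i, coneVol (u k) (b k) i * f ((b k i)⁻¹ • u k i)| / (kap (j + 1 + 1) * t k ^ (j + 1))
        ≤ (∑ i, coneVol (u k) (b k) i * C) / (kap (j + 1 + 1) * t k ^ (j + 1)) := by
          refine div_le_div_of_nonneg_right ((Finset.abs_sum_le_sum_abs _ _).trans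
            (Finset.sum_le_sum fun i _ => ?_)) (hden k).le
          rw [abs_mul, abs_of_nonneg (hcone k i)]
          exact mul_le_mul_of_nonneg_left (hC _ (mem_closedBall_zero_iff.2 (hbdd k i))) (hcone k i)
      _ = C * t k := by rw [← Finset.sum_mul, hsum, mul_comm _ C, mul_div_assoc, hratio]
      _ ≤ _ := mul_le_mul_of_nonneg_left (Real.rpow_le_rpow (div_pos (hV'0 k) hk).le
          (div_le_div_of_nonneg_right (hV'2 k) hk.le) (by positivity)) hC0
  · intro k S f hS hne hf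
    have h := minkowski_pow (u k) (b k) (hb k) (hP k) (hV'0 k) S
      (fun i => b k i * f ((b k i)⁻¹ • u k i)) (fun x hx i => by
        have h1 := hf x hx ((b k i)⁻¹ • u k i)
        rw [real_inner_smul_left, inv_mul_le_iff₀ (hb k i)] at h1
        exact h1)
    set X := ∑ i, coneVol (u k) (b k) i * f ((b k i)⁻¹ • u k i) with hX
    have hX' : ∑ i, coneVol (u k) (b k) i * (b k i * f ((b k i)⁻¹ • u k i) / b k i) = X :=
      Finset.sum_congr rfl fun i _ => by rw [mul_div_cancel_left₀ _ (hb k i).ne']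
    rw [hX', ← ENNReal.ofReal_toReal hS.measure_lt_top.ne,
      ← ENNReal.ofReal_mul (pow_nonneg (hV'0 k).le _)] at h
    have hden' : kap (j + 1 + 1) * (Φ k f) ^ (j + 1 + 1) = X ^ (j + 1 + 1) / V' k ^ (j + 1) := by
      have e : kap (j + 1 + 1) ^ (j + 1 + 1) * (t k ^ (j + 1)) ^ (j + 1 + 1) = kap (j + 1 + 1) * V' k ^ (j + 1) := by
        rw [← pow_mul, mul_comm (j + 1) (j + 1 + 1), pow_mul,
          show t k ^ (j + 1 + 1) = V' k / kap (j + 1 + 1) by rw [← htm k, ← pow_succ], div_pow,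
          show kap (j + 1 + 1) ^ (j + 1 + 1) = kap (j + 1 + 1) ^ (j + 1) * kap (j + 1 + 1) from pow_succ _ _]
        field_simp
      simp only [hΦ, ← hX, div_pow, mul_pow, e]
      rw [mul_div_assoc', mul_div_mul_left _ _ hk.ne']
    rw [hden', le_div_iff₀ (pow_pos (hV'0 k) _), mul_comm]
    rcases le_or_gt 0 (X ^ (j + 1 + 1)) with hXm | hXm
    · exact (ENNReal.ofReal_le_ofReal_iff hXm).1 h
    · exfalso
      have hodd : Odd (j + 1 + 1) := (Nat.even_or_odd (j + 1 + 1)).resolve_left fun he => absurd hXm (not_lt.2 (he.pow_nonneg X))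
      have hX0 : X < 0 := hodd.pow_neg_iff.1 hXm
      obtain ⟨x, hx⟩ := hne
      set Y := ∑ i, coneVol (u k) (b k) i * ‖(b k i)⁻¹ • u k i‖ with hY
      have hY0 : 0 ≤ Y := Finset.sum_nonneg fun i _ => mul_nonneg (hcone k i) (norm_nonneg _)
      set ρ := -X / (Y + 1) with hρ
      have hρ0 : 0 < ρ := div_pos (neg_pos.2 hX0) (by linarith)
      have hneg : X + ρ * Y < 0 := by
        have h2 : ρ * (Y + 1) = -X := div_mul_cancel₀ _ (by linarith : (0 : ℝ) < Y + 1).ne'
        linarith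
      have h3 := minkowski_pow (u k) (b k) (hb k) (hP k) (hV'0 k) (closedBall x ρ)
        (fun i => b k i * (f ((b k i)⁻¹ • u k i) + ρ * ‖(b k i)⁻¹ • u k i‖)) (fun y hy i => by
          have h1 := hf x hx ((b k i)⁻¹ • u k i)
          rw [mem_closedBall_iff_norm] at hy
          have h2 : ⟪(b k i)⁻¹ • u k i, y - x⟫ ≤ ρ * ‖(b k i)⁻¹ • u k i‖ := by
            refine (real_inner_le_norm _ _).trans ?_
            rw [mul_comm]
            exact mul_le_mul_of_nonneg_right hy (norm_nonneg _)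
          rw [inner_sub_right] at h2
          have h4 : ⟪(b k i)⁻¹ • u k i, y⟫ ≤ f ((b k i)⁻¹ • u k i) + ρ * ‖(b k i)⁻¹ • u k i‖ := by
            linarith
          rw [real_inner_smul_left, inv_mul_le_iff₀ (hb k i)] at h4
          exact h4)
      have he : ∑ i, coneVol (u k) (b k) i
          * (b k i * (f ((b k i)⁻¹ • u k i) + ρ * ‖(b k i)⁻¹ • u k i‖) / b k i) = X + ρ * Y := by
        rw [hX, hY, Finset.mul_sum, ← Finset.sum_add_distrib]
        exact Finset.sum_congr rfl fun i _ => by rw [mul_div_cancel_left₀ _ (hb k i).ne']; ring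
      rw [he, ENNReal.ofReal_eq_zero.2 (hodd.pow_neg hneg).le, nonpos_iff_eq_zero, mul_eq_zero,
        ENNReal.ofReal_eq_zero] at h3
      rcases h3 with h3 | h3
      · exact absurd h3 (not_le.2 (pow_pos (hV'0 k) _))
      · exact (measure_closedBall_pos volume x hρ0).ne' h3
  · intro k v hv
    set g : Fin (N k) → E (j + 1 + 1) := fun i =>
      (((j + 1 + 1 : ℕ) : ℝ) * coneVol (u k) (b k) i / (2 * b k i)) • u k i with hg
    set s : Fin (N k) → ℝ := fun i => if 0 ≤ ⟪v, g i⟫ then 1 else -1 with hs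
    have := hN k
    have hz : ∑ i, s i • g i ∈ projBody (polyH (u k) (b k)) :=
      zono_subset_projBody (n := j + 1) (u k) (b k) (hb k) (hP k)
        ⟨s, fun i _ => by simp only [hs]; split_ifs <;> norm_num, rfl⟩
    have h1 := projBody_mono (hsub2 k) hz v hv
    have hfin : projVolume K v ≠ ⊤ := by
      obtain ⟨R, hR⟩ := exists_align v
      rw [hv, one_smul] at hR
      rw [projVolume_eq hv R hR hK]
      exact (((hK.image R.continuous).image (etail _).continuous_of_finiteDimensional).measure_lt_top).ne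
    refine le_trans (le_of_eq ?_) ((ENNReal.ofReal_le_iff_le_toReal hfin).1 h1)
    simp only [hΦ, inner_sum, real_inner_smul_right]
    rw [mul_assoc _ (kap (j + 1 + 1)), mul_assoc, mul_div_cancel₀ _ (hden k).ne', Finset.mul_sum]
    refine Finset.sum_congr rfl fun i _ => ?_
    have hsg : s i * ⟪v, g i⟫ = |⟪v, g i⟫| := by
      simp only [hs]
      split_ifs with h
      · rw [one_mul, abs_of_nonneg h]
      · rw [abs_of_nonpos (not_le.1 h).le]; ring
    have hbi := hb k i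
    rw [hsg, hg]
    simp only [real_inner_smul_right, abs_mul, abs_div, Nat.abs_cast, abs_of_nonneg (hcone k i),
      abs_of_pos hbi, abs_two, abs_inv]
    field_simp
  · intro k
    rw [← hratio k, ← hsum k, hΦ, div_right_comm]
    refine div_le_div_of_nonneg_right ?_ (hden k).le
    rw [Finset.sum_div]
    refine Finset.sum_le_sum fun i _ => ?_
    rw [div_eq_mul_one_div (coneVol _ _ _)]
    refine mul_le_mul_of_nonneg_left ?_ (hcone k i)
    refine csSup_le (Set.Nonempty.image _ (⟨0, interior_subset h0⟩ : K.Nonempty)) ?_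
    rintro _ ⟨x, hx, rfl⟩
    have h1 := hsub1 k ⟨x, hx, rfl⟩ i
    rw [real_inner_smul_right] at h1
    show ⟪(b k i)⁻¹ • u k i, x⟫ ≤ 1 / l k
    rw [real_inner_smul_left, le_div_iff₀ (hl' k), inv_mul_eq_div, div_mul_eq_mul_div,
      div_le_one (hb k i)]
    linarith

theorem exists_lam {j : ℕ} {K : Set (E (j + 1 + 1))} (hK : IsCompact K) (hc : Convex ℝ K)
    (h0 : (0 : E (j + 1 + 1)) ∈ interior K) :
    ∃ Λ : Lam (j + 1 + 1),
      (kap (j + 1) * (((volume K).toReal / kap (j + 1 + 1)) ^ ((((j + 1 + 1 : ℕ) : ℝ))⁻¹)) ^ (j + 1))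
          • Λ.body ⊆ projBody K ∧
      Λ.L (hSupp K) ≤ ((volume K).toReal / kap (j + 1 + 1)) ^ ((((j + 1 + 1 : ℕ) : ℝ))⁻¹) := by
  classical
  obtain ⟨Φ, t, ht, hadd, hsmul, hmono, hbdd, hmink, hproj, hsupp⟩ := exists_lam_seq hK hc h0
  set U := Ultrafilter.of (atTop : Filter ℕ) with hU
  have hUle : (U : Filter ℕ) ≤ atTop := Ultrafilter.of_le _
  set L : (E (j + 1 + 1) → ℝ) → ℝ := fun f => limUnder (U : Filter ℕ) fun k => Φ k f with hL
  have hlim : ∀ f, Continuous f → Tendsto (fun k => Φ k f) U (𝓝 (L f)) := fun f hf => by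
    obtain ⟨C, hC⟩ := hbdd f hf
    obtain ⟨x, -, hx⟩ := (isCompact_Icc (a := -C) (b := C)).ultrafilter_le_nhds (U.map fun k => Φ k f)
      (le_principal_iff.2 (mem_map.2 (Eventually.of_forall fun k => abs_le.1 (hC k))))
    exact tendsto_nhds_limUnder ⟨x, hx⟩
  refine ⟨⟨L, fun f g hf hg => ?_, fun c f hf => ?_, fun f g hf hg hfg => ?_,
    fun S f hS hne hf hsf => ?_⟩, ?_, ?_⟩
  · exact tendsto_nhds_unique (hlim _ (hf.add hg))
      (((hlim f hf).add (hlim g hg)).congr fun k => (hadd k f g).symm)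
  · exact tendsto_nhds_unique (hlim _ (hf.const_smul c))
      (((hlim f hf).const_mul c).congr fun k => (hsmul k c f).symm)
  · exact le_of_tendsto_of_tendsto' (hlim f hf) (hlim g hg) fun k => hmono k f g hfg
  · exact ge_of_tendsto' (((hlim f hf).pow _).const_mul _) fun k => hmink k S f hS hne hsf
  · rintro _ ⟨z, hz, rfl⟩ v hv
    have hfin : projVolume K v ≠ ⊤ := by
      obtain ⟨R', hR'⟩ := exists_align v
      rw [hv, one_smul] at hR'
      rw [projVolume_eq hv R' hR' hK]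
      exact (((hK.image R'.continuous).image (etail _).continuous_of_finiteDimensional).measure_lt_top).ne
    rw [ENNReal.ofReal_le_iff_le_toReal hfin, real_inner_smul_right]
    have h1 : ((j + 1 + 1 : ℕ) : ℝ) / 2 * kap (j + 1 + 1)
        * (((volume K).toReal / kap (j + 1 + 1)) ^ ((((j + 1 + 1 : ℕ) : ℝ))⁻¹)) ^ (j + 1)
        * L (fun y => |⟪v, y⟫|) ≤ (projVolume K v).toReal := by
      refine le_of_tendsto' ((((ht.mono_left hUle).pow _).const_mul _).mul (hlim _ (by fun_prop)))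
        fun k => ?_
      exact hproj k v hv
    refine le_trans ?_ h1
    set s := (((volume K).toReal / kap (j + 1 + 1)) ^ ((((j + 1 + 1 : ℕ) : ℝ))⁻¹))
    have hs : 0 ≤ s := Real.rpow_nonneg (div_nonneg ENNReal.toReal_nonneg (kap_pos _).le) _
    have hk := kap_pos (j + 1 + 1)
    have habs : absMom (j + 1 + 1) = 2 * kap (j + 1) / kap (j + 1 + 1) / ((j + 1 + 1 : ℕ) : ℝ) := rfl
    calc kap (j + 1) * s ^ (j + 1) * ⟪v, z⟫
        = ((j + 1 + 1 : ℕ) : ℝ) / 2 * kap (j + 1 + 1) * s ^ (j + 1)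
            * (absMom (j + 1 + 1) * ⟪v, z⟫) := by
          rw [habs]; field_simp
      _ ≤ _ := mul_le_mul_of_nonneg_left (hz v) (by positivity)
  · have hlK := hlim (hSupp K) (continuous_hSupp_lam hK ⟨0, interior_subset h0⟩)
    refine le_of_tendsto_of_tendsto' hlK ?_ hsupp
    have h1 : Tendsto (fun k : ℕ => 1 - 1 / ((k : ℝ) + 2)) atTop (𝓝 1) := by
      have h : Tendsto (fun k : ℕ => 1 / ((k : ℝ) + 2)) atTop (𝓝 0) :=
        Tendsto.div_atTop tendsto_const_nhds (tendsto_atTop_add_const_right _ _ tendsto_natCast_atTop_atTop)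
      simpa using tendsto_const_nhds.sub h
    have h2 : Tendsto (fun k : ℕ => t k / (1 - 1 / ((k : ℝ) + 2))) (U : Filter ℕ)
        (𝓝 ((((volume K).toReal / kap (j + 1 + 1)) ^ ((((j + 1 + 1 : ℕ) : ℝ))⁻¹)) / 1)) :=
      (ht.div h1 one_ne_zero).mono_left hUle
    rwa [div_one] at h2

end Vale.Agent.P237H
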