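import Vale.Agent.P237H.ClaimAux

/-!
# Convex sets containing a perturbed sphere are large
-/

namespace Vale.Agent.P237H

open MeasureTheory Set Metric Filter Topology Vale.Agent.P237 Vale.Agent.P237R
open scoped RealInnerProductSpace NNReal

variable {n : ℕ}

/-- The tangential Dirichlet integral of the part of `q - 1` outside the certificate. -/
lemma tangSq_bound (hn : 2 ≤ n) {M : ℝ} (cert : PreCert n) {q : E n → ℝ} {C : ℝ≥0} (hq : LipschitzWith C q)
    (hCM : (C : ℝ) = M) (hqc : ConvexOn ℝ univ q)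
    (hqh : ∀ (r : ℝ) (x : E n), 0 ≤ r → q (r • x) = r * q x)
    (hq0 : ∀ θ : E n, ‖θ‖ = 1 → 0 < q θ) (hqM : ∀ θ : E n, ‖θ‖ = 1 → q θ ≤ M) :
    Integrable (fun θ => max 0 ((1 - cert.a (q θ - 1)) ^ 2 - cert.k (q θ - 1))
        * (M ^ 2 - q θ ^ 2)) (sphM n) ∧
    ∫ θ, tangSq (fun x => (q (rproj x) - 1) - cert.H (q (rproj x) - 1)) θ ∂sphM n
      ≤ ∫ θ, (((n : ℝ) - 1) * (q θ * cert.K (q θ - 1))
          + max 0 ((1 - cert.a (q θ - 1)) ^ 2 - cert.k (q θ - 1)) * (M ^ 2 - q θ ^ 2))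
          ∂sphM n := by
  obtain ⟨CH, hH⟩ := cert.H_lip
  obtain ⟨CK, hK⟩ := cert.K_lip
  obtain ⟨Ma, hMa⟩ := cert.a_bdd
  obtain ⟨Mk, hMk⟩ := cert.k_bdd
  have hMa0 : 0 ≤ Ma := (abs_nonneg _).trans (hMa 0)
  have hMk0 : 0 ≤ Mk := (abs_nonneg _).trans (hMk 0)
  set V : E n → ℝ := fun x => q (rproj x) - 1 with hV
  have hrp : ∀ θ : E n, ‖θ‖ = 1 → rproj θ = θ := fun θ hθ => by
    simpa using rproj_smul (r := 1) (by norm_num) hθ
  have hVθ : ∀ θ : E n, ‖θ‖ = 1 → V θ = q θ - 1 := fun θ hθ => by simp only [hV, hrp θ hθ]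
  have hVl : LipschitzWith (C * 4 + 0) V := by
    simpa only [hV, sub_eq_add_neg, Function.comp_def] using
      (hq.comp lipschitz_rproj).add (LipschitzWith.const (-1 : ℝ))
  have hVh : ∀ (r : ℝ) (θ : E n), 1 / 2 ≤ r → ‖θ‖ = 1 → V (r • θ) = V θ := fun r θ hr hθ => by
    simp only [hV, rproj_smul hr hθ, hrp θ hθ]
  have hdV := fderiv_rproj_ae hn hq hqh
  have hdw := fderiv_comp_ae hn hVl hVh (LipschitzWith.id.sub hH) cert.S
    (b := fun v => 1 - cert.a v) fun v hv => (hasDerivAt_id v).sub (cert.H_deriv v hv)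
  have hdK := fderiv_comp_ae hn hVl hVh hK cert.S fun v hv => cert.K_deriv v hv
  have hdq := sph_ae_diff (b := 1) hn hq (fun r θ hr _ => by rw [hqh r θ (by linarith), pow_one])
  -- the gradient identities
  set G : E n → ℝ := fun θ => ‖fderiv ℝ q θ‖ ^ 2 - q θ ^ 2 with hG
  have key : ∀ᵐ θ ∂sphM n, 0 ≤ G θ ∧ G θ ≤ M ^ 2 - q θ ^ 2 ∧
      tangSq (fun x => V x - cert.H (V x)) θ = (1 - cert.a (q θ - 1)) ^ 2 * G θ ∧
      ∑ i : Fin n, fderiv ℝ q θ (bv i) * fderiv ℝ (fun x => cert.K (V x)) θ (bv i)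
        = cert.k (q θ - 1) * G θ := by
    filter_upwards [sphM_ae_norm hn, hdV, hdw, hdK, hdq] with θ hθ h1 h2 h3 ⟨_, hE⟩
    simp only [Nat.cast_one, one_mul] at hE
    set D := fderiv ℝ q θ with hD
    set g := (InnerProductSpace.toDual ℝ (E n)).symm D with hg
    have hDg : ∀ u, D u = ⟪g, u⟫ := fun u => by rw [hg, InnerProductSpace.toDual_symm_apply]
    have hnorm : ‖D‖ = ‖g‖ := by rw [hg, LinearIsometryEquiv.norm_map]
    have hgθ : ⟪g, θ⟫ = q θ := by rw [← hDg, hE]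
    have hDV : fderiv ℝ V θ = InnerProductSpace.toDual ℝ (E n) (g - q θ • θ) := by
      ext u
      rw [h1 u, InnerProductSpace.toDual_apply_apply, inner_sub_left, real_inner_smul_left, hDg]
    have hVn : ‖g - q θ • θ‖ ^ 2 = G θ := by
      rw [norm_sub_sq_real, real_inner_smul_right, hgθ, norm_smul, mul_pow, hθ]
      simp only [hG, Real.norm_eq_abs, sq_abs, ← hD, hnorm]
      ring
    have hVθ0 : fderiv ℝ V θ θ = 0 := by
      rw [h1 θ, hE, real_inner_self_eq_norm_sq, hθ]; ring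
    refine ⟨hVn ▸ sq_nonneg _, ?_, ?_, ?_⟩
    · have hb : ‖D‖ ≤ M := hCM ▸ norm_fderiv_le_of_lipschitz ℝ hq
      have := pow_le_pow_left₀ (norm_nonneg D) hb 2
      simp only [hG, ← hD]
      linarith
    · simp only [id] at h2
      rw [tangSq, h2, hVθ θ hθ, smul_apply, hVθ0, smul_zero, norm_smul, mul_pow, hDV,
        LinearIsometryEquiv.norm_map, hVn, Real.norm_eq_abs, sq_abs]
      ring
    · rw [h3, hVθ θ hθ]
      simp only [smul_apply, smul_eq_mul, hDV, InnerProductSpace.toDual_apply_apply,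
        hDg]
      have : ∑ i, ⟪g, bv i⟫ * ⟪bv i, g - q θ • θ⟫ = ⟪g, g - q θ • θ⟫ := by
        simpa [bv] using (EuclideanSpace.basisFun (Fin n) ℝ).sum_inner_mul_inner g (g - q θ • θ)
      calc ∑ i, ⟪g, bv i⟫ * (cert.k (q θ - 1) * ⟪g - q θ • θ, bv i⟫)
          = cert.k (q θ - 1) * ∑ i, ⟪g, bv i⟫ * ⟪bv i, g - q θ • θ⟫ := by
            rw [Finset.mul_sum]
            refine Finset.sum_congr rfl fun i _ => ?_
            rw [real_inner_comm (g - q θ • θ) (bv i)]; ring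
        _ = _ := by
            rw [this, inner_sub_right, real_inner_smul_right, hgθ, real_inner_self_eq_norm_sq]
            simp only [hG, ← hD, hnorm]
            ring
  have hqm : Measurable q := hq.continuous.measurable
  have hGm : Measurable G := by
    have := (measurable_fderiv ℝ q).norm
    simp only [hG]; fun_prop
  have ham : Measurable fun θ => cert.a (q θ - 1) := cert.a_meas.comp (hqm.sub_const 1)
  have hkm : Measurable fun θ => cert.k (q θ - 1) := cert.k_meas.comp (hqm.sub_const 1)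
  set m : E n → ℝ := fun θ => max 0 ((1 - cert.a (q θ - 1)) ^ 2 - cert.k (q θ - 1)) with hm
  have hmm : Measurable m := measurable_const.max (((measurable_const.sub ham).pow_const 2).sub hkm)
  have hA : ∀ θ, (1 - cert.a (q θ - 1)) ^ 2 ≤ (1 + Ma) ^ 2 := fun θ => by
    refine sq_le_sq' ?_ ?_ <;>
      linarith [(abs_le.1 (hMa (q θ - 1))).1, (abs_le.1 (hMa (q θ - 1))).2]
  have hm_le : ∀ θ, |m θ| ≤ (1 + Ma) ^ 2 + Mk := fun θ => by
    rw [hm, abs_of_nonneg (le_max_left _ _)]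
    refine max_le (add_nonneg (sq_nonneg _) hMk0) ?_
    linarith [hA θ, (abs_le.1 (hMk (q θ - 1))).1]
  have hsq : ∀ᵐ θ ∂sphM n, |M ^ 2 - q θ ^ 2| ≤ M ^ 2 := by
    filter_upwards [sphM_ae_norm hn] with θ hθ
    have := pow_le_pow_left₀ (hq0 θ hθ).le (hqM θ hθ) 2
    rw [abs_le]; constructor <;> linarith [sq_nonneg (q θ), sq_nonneg (M)]
  have hI1 : Integrable (fun θ => m θ * (M ^ 2 - q θ ^ 2)) (sphM n) :=
    integrable_sphM_of_bound hn (hmm.mul (by fun_prop)) (((1 + Ma) ^ 2 + Mk) * M ^ 2) (by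
      filter_upwards [hsq] with θ h
      rw [abs_mul]; exact mul_le_mul (hm_le θ) h (abs_nonneg _) (by positivity))
  refine ⟨hI1, ?_⟩
  have hGb : ∀ᵐ θ ∂sphM n, |G θ| ≤ M ^ 2 := by
    filter_upwards [key] with θ ⟨h0, h1, _⟩
    rw [abs_of_nonneg h0]; linarith [sq_nonneg (q θ)]
  have hI2 : Integrable (fun θ => cert.k (q θ - 1) * G θ) (sphM n) :=
    integrable_sphM_of_bound hn (hkm.mul hGm) (Mk * M ^ 2) (by
      filter_upwards [hGb] with θ h
      rw [abs_mul]; exact mul_le_mul (hMk _) h (abs_nonneg _) hMk0)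
  have hI3 : Integrable (fun θ => (1 - cert.a (q θ - 1)) ^ 2 * G θ) (sphM n) :=
    integrable_sphM_of_bound hn (((measurable_const.sub ham).pow_const 2).mul hGm)
      ((1 + Ma) ^ 2 * M ^ 2) (by
      filter_upwards [hGb] with θ h
      rw [abs_mul, abs_of_nonneg (sq_nonneg _)]
      exact mul_le_mul (hA θ) h (abs_nonneg _) (sq_nonneg _))
  have hIK : Integrable (fun θ => q θ * cert.K (q θ - 1)) (sphM n) := by
    have := hK.continuous
    have := hq.continuous
    exact integrable_sphM hn (by fun_prop)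
  -- the convexity step
  have hkG : ∫ θ, cert.k (q θ - 1) * G θ ∂sphM n
      ≤ ((n : ℝ) - 1) * ∫ θ, q θ * cert.K (q θ - 1) ∂sphM n := by
    have hint : ∀ i : Fin n, Integrable
        (fun θ => fderiv ℝ q θ (bv i) * fderiv ℝ (fun x => cert.K (V x)) θ (bv i)) (sphM n) :=
      fun i => integrable_sphM_of_bound hn
        ((measurable_fderiv_apply_const ℝ q (bv i)).mul (measurable_fderiv_apply_const ℝ _ (bv i)))
        (C * (CK * (C * 4 + 0) : ℝ≥0)) (Eventually.of_forall fun θ => by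
          have hb : ‖(bv i : E n)‖ = 1 := by simp [bv]
          have h1 := (fderiv ℝ q θ).le_opNorm (bv i)
          have h2 := (fderiv ℝ (fun x => cert.K (V x)) θ).le_opNorm (bv i)
          rw [hb, mul_one, Real.norm_eq_abs] at h1 h2
          rw [abs_mul]
          exact mul_le_mul (h1.trans (norm_fderiv_le_of_lipschitz ℝ hq))
            (h2.trans (norm_fderiv_le_of_lipschitz ℝ (hK.comp hVl))) (abs_nonneg _) (by positivity))
    have h := sph_convex_grad hn hq hqc hqh (g := fun x => cert.K (V x)) (hK.comp hVl)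
      (fun r θ hr hθ => by rw [hVh r θ hr hθ]) fun x => cert.K_nonneg _
    rw [← integral_finsetSum _ fun i _ => hint i] at h
    calc ∫ θ, cert.k (q θ - 1) * G θ ∂sphM n
        = ∫ θ, ∑ i : Fin n,
            fderiv ℝ q θ (bv i) * fderiv ℝ (fun x => cert.K (V x)) θ (bv i) ∂sphM n :=
          integral_congr_ae (by filter_upwards [key] with θ hk using hk.2.2.2.symm)
      _ ≤ ((n : ℝ) - 1) * ∫ θ, cert.K (V θ) * q θ ∂sphM n := h
      _ = _ := by
          congr 1
          refine integral_congr_ae ?_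
          filter_upwards [sphM_ae_norm hn] with θ hθ
          rw [hVθ θ hθ]; ring
  calc ∫ θ, tangSq (fun x => V x - cert.H (V x)) θ ∂sphM n
      = ∫ θ, (1 - cert.a (q θ - 1)) ^ 2 * G θ ∂sphM n :=
        integral_congr_ae (by filter_upwards [key] with θ hk using hk.2.2.1)
    _ ≤ ∫ θ, (cert.k (q θ - 1) * G θ + m θ * (M ^ 2 - q θ ^ 2)) ∂sphM n := by
        refine integral_mono_ae hI3 (hI2.add hI1) ?_
        filter_upwards [key] with θ ⟨h0, h1, _⟩
        have ha : (1 - cert.a (q θ - 1)) ^ 2 - cert.k (q θ - 1) ≤ m θ := le_max_right _ _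
        have := mul_le_mul_of_nonneg_right ha h0
        have := mul_le_mul_of_nonneg_left h1 (le_max_left _ _ : 0 ≤ m θ)
        linarith
    _ ≤ _ := by
        rw [integral_add hI2 hI1, integral_add (hIK.const_mul _) hI1, integral_const_mul]
        linarith

/-- The pairing against the field, bounded through any pointwise bound `Ψ` for the certificate
form: with `E = ∫ q - 1`, one has `1 + E + P ≤ x` and `P ^ 2 ≤ 2 Q ∫ Ψ`. -/
lemma claim_pair (hn : 4 ≤ n) {M : ℝ} (cert : PreCert n) (B : HBasis n) {N : ℕ}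
    (b : Idx B N → E n) {q : E n → ℝ} {C : ℝ≥0} (hq : LipschitzWith C q) (hCM : (C : ℝ) = M)
    (hqc : ConvexOn ℝ univ q) (hqh : ∀ (r : ℝ) (x : E n), 0 ≤ r → q (r • x) = r * q x)
    (hq0 : ∀ θ : E n, ‖θ‖ = 1 → 0 < q θ) (hqM : ∀ θ : E n, ‖θ‖ = 1 → q θ ≤ M) {x : ℝ}
    (hx : ∀ θ : E n, ‖θ‖ = 1 → q (θ + fieldOf B b θ) ≤ x) (Ψ : ℝ → ℝ)
    (hΨ : Integrable (fun θ => Ψ (q θ - 1)) (sphM n))
    (hineq : ∀ v, -1 < v → v ≤ M - 1 →
      (1 + cert.η) * cert.T / 2 * cert.H v ^ 2 + (1 + cert.η⁻¹) * cert.β / 2 *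
        (((n : ℝ) - 1) * (1 + v) * cert.K v
          + max 0 ((1 - cert.a v) ^ 2 - cert.k v) * (M ^ 2 - (1 + v) ^ 2)) ≤ Ψ v) :
    0 ≤ ∫ θ, Ψ (q θ - 1) ∂sphM n ∧ ∃ P : ℝ, ∫ θ, q θ ∂sphM n + P ≤ x ∧
      P ^ 2 ≤ qNorm B b * (2 * ∫ θ, Ψ (q θ - 1) ∂sphM n) := by
  have hn2 : 2 ≤ n := by omega
  have hP : IsProbabilityMeasure (sphM n) := isProb_sphM hn2
  obtain ⟨CH, hH⟩ := cert.H_lip
  obtain ⟨CK, hK⟩ := cert.K_lip
  obtain ⟨Y, Qp, hY, hQp, hQs, hYQ, hpair⟩ := harm_pair hn B b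
  have hdq := sph_ae_diff (b := 1) hn2 hq (fun r θ hr _ => by rw [hqh r θ (by linarith), pow_one])
  have hqC := hq.continuous
  have hφ : Continuous (fieldOf B b) := by
    unfold fieldOf
    exact continuous_finsetSum _ fun ι _ =>
      (polyHom_smooth (B.harm _ _).1).continuous.smul continuous_const
  -- convexity at a point
  have hpt : ∀ᵐ θ ∂sphM n, q θ + fderiv ℝ q θ (fieldOf B b θ) ≤ x := by
    filter_upwards [sphM_ae_norm hn2, hdq] with θ hθ ⟨hd, _⟩
    refine le_trans ?_ (hx θ hθ)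
    set u := fieldOf B b θ
    have hder : HasDerivAt (fun s : ℝ => q (θ + s • u)) (fderiv ℝ q θ u) 0 := by
      have h1 : HasDerivAt (fun s : ℝ => θ + s • u) u 0 := by
        simpa using ((hasDerivAt_id (0 : ℝ)).smul_const u).const_add θ
      have h2 : HasFDerivAt q (fderiv ℝ q θ) (θ + (0 : ℝ) • u) := by simpa using hd.hasFDerivAt
      exact h2.comp_hasDerivAt 0 h1
    have hcv : ConvexOn ℝ univ (fun s : ℝ => q (θ + s • u)) := by
      refine ⟨convex_univ, fun s _ t _ a b ha hb hab => ?_⟩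
      have h := hqc.2 (mem_univ (θ + s • u)) (mem_univ (θ + t • u)) ha hb hab
      have e : θ + (a • s + b • t) • u = a • (θ + s • u) + b • (θ + t • u) := by
        rw [smul_add, smul_add, smul_smul, smul_smul, smul_eq_mul, smul_eq_mul, add_smul]
        nth_rewrite 1 [← one_smul ℝ θ]
        rw [← hab, add_smul]
        abel
      simpa only [e] using h
    have := hcv.le_slope_of_hasDerivAt (mem_univ 0) (mem_univ 1) zero_lt_one hder
    rw [slope_def_field] at this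
    simp at this
    linarith
  have hId : Integrable (fun θ => fderiv ℝ q θ (fieldOf B b θ)) (sphM n) := by
    obtain ⟨Mφ, hMφ⟩ := exists_bound_sphere hφ.norm
    refine integrable_sphM_of_bound hn2 ?_ (C * Mφ) ?_
    · have h1 : ∀ θ, fderiv ℝ q θ (fieldOf B b θ)
          = ∑ ι, B.fn ι θ * fderiv ℝ q θ (b ι) := fun θ => by
        simp [fieldOf, map_sum]
      simp only [h1]
      exact Finset.measurable_sum _ fun ι _ => (polyHom_smooth (B.harm _ _).1).continuous.measurable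
        |>.mul (measurable_fderiv_apply_const ℝ q (b ι))
    · filter_upwards [sphM_ae_norm hn2] with θ hθ
      have h := (fderiv ℝ q θ).le_opNorm (fieldOf B b θ)
      rw [Real.norm_eq_abs] at h
      refine h.trans (mul_le_mul (norm_fderiv_le_of_lipschitz ℝ hq) ?_ (norm_nonneg _) C.2)
      simpa [abs_of_nonneg (norm_nonneg _)] using hMφ θ hθ
  have hIq : Integrable q (sphM n) := integrable_sphM hn2 hqC
  have h1 : ∫ θ, q θ ∂sphM n + ∫ θ, fderiv ℝ q θ (fieldOf B b θ) ∂sphM n ≤ x := by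
    rw [← integral_add hIq hId]
    exact (integral_mono_ae (hIq.add hId) (integrable_const x) hpt).trans_eq (by simp)
  have hpair' := hpair q C hq (fun r θ hr _ => hqh r θ (by linarith))
  -- the split of `q - 1`
  set s := Finset.range (N + 2) with hs
  set w : E n → ℝ := fun x => (q (rproj x) - 1) - cert.H (q (rproj x) - 1) with hw
  have hVl : LipschitzWith (C * 4 + 0) fun x : E n => q (rproj x) - 1 := by
    simpa only [sub_eq_add_neg, Function.comp_def] using
      (hq.comp lipschitz_rproj).add (LipschitzWith.const (-1 : ℝ))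
  have hwl := (LipschitzWith.id.sub hH).comp hVl
  have hwh : ∀ (r : ℝ) (θ : E n), 1 / 2 ≤ r → ‖θ‖ = 1 → w (r • θ) = w θ := fun r θ hr hθ => by
    simp only [hw, rproj_smul hr hθ]
    have := rproj_smul (r := 1) (by norm_num) hθ
    rw [one_smul] at this
    rw [this]
  have hHc := hH.continuous
  have hYc : ∀ m, Continuous (Y m) := fun m => (polyHom_smooth (hY m).1).continuous
  have hwc : Continuous w := hwl.continuous
  have hv1 : Continuous fun θ : E n => cert.H (q θ - 1) := by fun_prop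
  have hsplit : ∑ m ∈ s, ∫ θ, q θ * Y m θ ∂sphM n
      = ∫ θ, cert.H (q θ - 1) * (∑ m ∈ s, Y m θ) ∂sphM n + ∑ m ∈ s, ∫ θ, w θ * Y m θ ∂sphM n := by
    simp only [Finset.mul_sum]
    rw [integral_finsetSum (f := fun m θ => cert.H (q θ - 1) * Y m θ) _ fun m _ =>
        integrable_sphM hn2 (hv1.mul (hYc m)),
      ← Finset.sum_add_distrib]
    refine Finset.sum_congr rfl fun m _ => ?_
    have i1 : Integrable (fun θ => cert.H (q θ - 1) * Y m θ) (sphM n) :=
      integrable_sphM hn2 (hv1.mul (hYc m))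
    have i2 : Integrable (fun θ => w θ * Y m θ) (sphM n) := integrable_sphM hn2 (hwc.mul (hYc m))
    have i3 : Integrable (Y m) (sphM n) := integrable_sphM hn2 (hYc m)
    have e : (fun θ => q θ * Y m θ)
        =ᵐ[sphM n] fun θ => Y m θ + (cert.H (q θ - 1) * Y m θ + w θ * Y m θ) := by
      filter_upwards [sphM_ae_norm hn2] with θ hθ
      have := rproj_smul (r := 1) (by norm_num) hθ
      rw [one_smul] at this
      simp only [hw, this]; ring
    rw [integral_congr_ae e, integral_add (f := Y m) (g := fun θ => _ + _) i3 (i1.add i2),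
      integral_add i1 i2,
      harm_mean hn2 (by omega) (hY m), zero_add]
  set A := ∫ θ, cert.H (q θ - 1) ^ 2 ∂sphM n with hA
  set Bt := ∫ θ, tangSq w θ ∂sphM n with hBt
  set Q := qNorm B b with hQ
  have hQ0 : 0 ≤ Q := (Finset.sum_nonneg fun m _ => hQp m).trans hQs
  have hY2 : ∫ θ, (∑ m ∈ s, Y m θ) ^ 2 ∂sphM n = ∑ m ∈ s, ∫ θ, Y m θ ^ 2 ∂sphM n := by
    simp only [sq, Finset.sum_mul_sum]
    rw [integral_finsetSum (f := fun i θ => ∑ j ∈ s, Y i θ * Y j θ) _ fun i _ =>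
      integrable_finsetSum (f := fun j θ => Y i θ * Y j θ) _ fun j _ =>
      integrable_sphM hn2 ((hYc i).mul (hYc j))]
    refine Finset.sum_congr rfl fun i hi => ?_
    rw [integral_finsetSum (f := fun j θ => Y i θ * Y j θ) _ fun j _ =>
      integrable_sphM hn2 ((hYc i).mul (hYc j)), Finset.sum_eq_single i]
    · exact fun j _ hj => harm_orth hn2 (by omega) (hY i) (hY j)
    · exact fun h => absurd hi h
  have hb1 : (∫ θ, cert.H (q θ - 1) * (∑ m ∈ s, Y m θ) ∂sphM n) ^ 2 ≤ A * (cert.T * Q) := by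
    refine (sq_integral_mul_le hn2 hv1 (continuous_finsetSum _ fun m _ => hYc m)).trans ?_
    refine mul_le_mul_of_nonneg_left ?_ (integral_nonneg fun θ => sq_nonneg _)
    rw [hY2]
    calc ∑ m ∈ s, ∫ θ, Y m θ ^ 2 ∂sphM n ≤ ∑ m ∈ s, cert.T * Qp m :=
          Finset.sum_le_sum fun m _ => (hYQ m).trans
            (mul_le_mul_of_nonneg_right (cert.tau_le m) (hQp m))
      _ ≤ cert.T * Q := by
          rw [← Finset.mul_sum]; exact mul_le_mul_of_nonneg_left hQs cert.T_nonneg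
  have hBt0 : 0 ≤ Bt := by
    refine integral_nonneg_of_ae ?_
    filter_upwards [sphM_ae_norm hn2] with θ hθ
    have h := (fderiv ℝ w θ).le_opNorm θ
    rw [hθ, mul_one, Real.norm_eq_abs] at h
    have := pow_le_pow_left₀ (abs_nonneg _) h 2
    rw [sq_abs] at this
    simp only [tangSq, Pi.zero_apply]; linarith
  have hb2 : (∑ m ∈ s, ∫ θ, w θ * Y m θ ∂sphM n) ^ 2 ≤ Bt * (cert.β * Q) := by
    refine (harm_pair_grad hn2 hwl hwh s Y hY).trans (mul_le_mul_of_nonneg_left ?_ hBt0)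
    calc ∑ m ∈ s, (∫ θ, Y m θ ^ 2 ∂sphM n) / lamJ n m ≤ ∑ m ∈ s, cert.β * Qp m := by
          refine Finset.sum_le_sum fun m _ => ?_
          have hl : 0 < lamJ n m := by
            have : (0 : ℝ) < n := by exact_mod_cast (show 0 < n by omega)
            unfold lamJ; positivity
          rw [div_le_iff₀ hl]
          refine (hYQ m).trans ((mul_le_mul_of_nonneg_right (cert.tau_le_lam m) (hQp m)).trans_eq ?_)
          ring
      _ ≤ cert.β * Q := by
          rw [← Finset.mul_sum]; exact mul_le_mul_of_nonneg_left hQs cert.β_nonneg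
  have hη := cert.η_pos
  have hAT : 0 ≤ A * cert.T := mul_nonneg (integral_nonneg fun θ => sq_nonneg _) cert.T_nonneg
  set R := (1 + cert.η) * cert.T * A + (1 + cert.η⁻¹) * cert.β * Bt with hR
  have hsq : (∑ m ∈ s, ∫ θ, q θ * Y m θ ∂sphM n) ^ 2 ≤ Q * R := by
    rw [hsplit]
    generalize (∫ θ, cert.H (q θ - 1) * (∑ m ∈ s, Y m θ) ∂sphM n) = u at hb1
    generalize (∑ m ∈ s, ∫ θ, w θ * Y m θ ∂sphM n) = t at hb2
    have h := sq_nonneg (cert.η * u - t)
    have hineq : cert.η * (u + t) ^ 2 ≤ cert.η * ((1 + cert.η) * u ^ 2 + (1 + cert.η⁻¹) * t ^ 2) := by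
      rw [mul_add, ← mul_assoc cert.η (1 + cert.η⁻¹), mul_add cert.η 1, mul_one,
        mul_inv_cancel₀ hη.ne']
      linarith
    have h2 := le_of_mul_le_mul_left hineq hη
    have h3 := mul_le_mul_of_nonneg_left hb1 (show 0 ≤ 1 + cert.η by linarith)
    have h4 := mul_le_mul_of_nonneg_left hb2 (show 0 ≤ 1 + cert.η⁻¹ by
      have := inv_pos.2 hη; linarith)
    rw [hR]; linarith
  have hR0 : 0 ≤ R := by
    rw [hR]
    have h3 := mul_nonneg (show 0 ≤ 1 + cert.η by linarith) hAT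
    have h4 := mul_nonneg (show 0 ≤ 1 + cert.η⁻¹ by have := inv_pos.2 hη; linarith)
      (mul_nonneg hBt0 cert.β_nonneg)
    linarith
  -- the certificate
  obtain ⟨hI1, hBle⟩ := tangSq_bound hn2 cert hq hCM hqc hqh hq0 hqM
  have hIq2 : Integrable (fun θ => cert.H (q θ - 1) ^ 2) (sphM n) :=
    integrable_sphM hn2 (hv1.pow 2)
  have hIK : Integrable (fun θ => q θ * cert.K (q θ - 1)) (sphM n) := by
    have := hK.continuous
    exact integrable_sphM hn2 (by fun_prop)
  have hI4 : Integrable (fun θ => ((n : ℝ) - 1) * (q θ * cert.K (q θ - 1))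
      + max 0 ((1 - cert.a (q θ - 1)) ^ 2 - cert.k (q θ - 1)) * (M ^ 2 - q θ ^ 2)) (sphM n) :=
    (hIK.const_mul _).add hI1
  have hcert : (1 + cert.η) * cert.T / 2 * A + (1 + cert.η⁻¹) * cert.β / 2 * Bt
      ≤ ∫ θ, Ψ (q θ - 1) ∂sphM n := by
    have hc : 0 ≤ (1 + cert.η⁻¹) * cert.β / 2 :=
      div_nonneg (mul_nonneg (by have := inv_pos.2 hη; linarith) cert.β_nonneg) (by norm_num)
    refine (add_le_add_right (mul_le_mul_of_nonneg_left hBle hc) _).trans ?_
    rw [hA, ← integral_const_mul, ← integral_const_mul,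
      ← integral_add (hIq2.const_mul _) (hI4.const_mul _)]
    refine integral_mono_ae ((hIq2.const_mul _).add (hI4.const_mul _)) hΨ ?_
    filter_upwards [sphM_ae_norm hn2] with θ hθ
    have h := hineq (q θ - 1) (by linarith [hq0 θ hθ]) (by linarith [hqM θ hθ])
    rw [add_sub_cancel] at h
    linarith
  refine ⟨by rw [hR] at hR0; linarith, ∑ m ∈ s, ∫ θ, q θ * Y m θ ∂sphM n, ?_, ?_⟩
  · rw [← hpair']; exact h1
  · refine hsq.trans (mul_le_mul_of_nonneg_left ?_ hQ0)
    rw [hR]; linarith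

/-- The scalar core: a gauge with `q (θ + φ θ) ≤ x` and normalised volume has `1 - x ≤ Q / 2`. -/
lemma claim_core (hn : 4 ≤ n) {M : ℝ} (cert : CertB n M) (B : HBasis n) {N : ℕ} (b : Idx B N → E n)
    {q : E n → ℝ} {C : ℝ≥0} (hq : LipschitzWith C q) (hCM : (C : ℝ) = M)
    (hqc : ConvexOn ℝ univ q) (hqh : ∀ (r : ℝ) (x : E n), 0 ≤ r → q (r • x) = r * q x)
    (hq0 : ∀ θ : E n, ‖θ‖ = 1 → 0 < q θ) (hqM : ∀ θ : E n, ‖θ‖ = 1 → q θ ≤ M)
    (hnorm : ∫ θ, (q θ ^ n)⁻¹ ∂sphM n = 1) {x : ℝ}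
    (hx : ∀ θ : E n, ‖θ‖ = 1 → q (θ + fieldOf B b θ) ≤ x) : 1 - qNorm B b / 2 ≤ x := by
  have hn2 : 2 ≤ n := by omega
  have hP : IsProbabilityMeasure (sphM n) := isProb_sphM hn2
  have hIq : Integrable q (sphM n) := integrable_sphM hn2 hq.continuous
  have hIinv : Integrable (fun θ => (q θ ^ n)⁻¹) (sphM n) := by
    by_contra hni
    rw [integral_undef hni] at hnorm
    exact zero_ne_one hnorm
  have hIphi : Integrable (fun θ => phiN n (q θ - 1)) (sphM n) := by
    simp only [phiN, add_sub_cancel]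
    exact (hIq.sub (integrable_const 1)).add ((hIinv.sub (integrable_const 1)).div_const _)
  have hphi : ∫ θ, phiN n (q θ - 1) ∂sphM n = ∫ θ, q θ ∂sphM n - 1 := by
    simp only [phiN, add_sub_cancel]
    rw [integral_add (f := fun θ => q θ - 1) (g := fun θ => ((q θ ^ n)⁻¹ - 1) / (n : ℝ))
        (hIq.sub (integrable_const 1)) ((hIinv.sub (integrable_const 1)).div_const _),
      integral_div, integral_sub hIinv (integrable_const 1), integral_sub hIq (integrable_const 1),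
      hnorm]
    simp
  obtain ⟨h0, P, hP1, hP2⟩ := claim_pair hn cert.toPreCert B b hq hCM hqc hqh hq0 hqM hx _ hIphi
    cert.ineq
  rw [hphi] at h0 hP2
  by_contra hcon
  push Not at hcon
  have hQ0 : 0 ≤ qNorm B b := by
    obtain ⟨Y, Qp, -, hQp, hQs, -⟩ := harm_pair hn B b
    exact (Finset.sum_nonneg fun m _ => hQp m).trans hQs
  set e := ∫ θ, q θ ∂sphM n - 1
  have hneg : qNorm B b / 2 + e < -P := by linarith
  have := pow_lt_pow_left₀ hneg (by linarith) two_ne_zero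
  nlinarith [sq_nonneg (qNorm B b / 2 - e)]

lemma continuous_fieldOf (B : HBasis n) {N : ℕ} (b : Idx B N → E n) :
    Continuous (fieldOf B b) := by
  unfold fieldOf
  exact continuous_finsetSum _ fun ι _ =>
    (polyHom_smooth (B.harm _ _).1).continuous.smul continuous_const

lemma fieldOf_orth (hn : 2 ≤ n) (B : HBasis n) {N : ℕ} (b : Idx B N → E n) (w : E n) :
    ∫ θ, ⟪w, fieldOf B b θ⟫ * ⟪w, θ⟫ ∂sphM n = 0 := by
  have hfn : ∀ ι : Idx B N, Continuous (B.fn ι) := fun ι =>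
    (polyHom_smooth (B.harm _ _).1).continuous
  simp only [fieldOf, inner_sum, real_inner_smul_right, Finset.sum_mul]
  rw [integral_finsetSum _ fun ι _ => integrable_sphM hn (by have := hfn ι; fun_prop)]
  refine Finset.sum_eq_zero fun ι _ => ?_
  have : (fun θ => B.fn ι θ * ⟪w, b ι⟫ * ⟪w, θ⟫)
      = fun θ => ⟪w, b ι⟫ * (B.fn ι θ * ⟪w, θ⟫) := by funext θ; ring
  rw [this, integral_const_mul, HBasis.fn,
    harm_linear_orth hn (by omega) (B.harm _ _) w, mul_zero]

lemma qNorm_nonneg (hn : 4 ≤ n) (B : HBasis n) {N : ℕ} (b : Idx B N → E n) :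
    0 ≤ qNorm B b := by
  obtain ⟨Y, Qp, -, hQp, hQs, -⟩ := harm_pair hn B b
  exact (Finset.sum_nonneg fun m _ => hQp m).trans hQs

/-- `claim`, reduced to the scalar core for one gauge bound at each small volume radius `x`. -/
theorem claim_split (hn : 4 ≤ n) (B : HBasis n) {N : ℕ} (b : Idx B N → E n)
    (U : Set (E n)) (hU : IsCompact U) (hUc : Convex ℝ U) (hUs : ∀ x ∈ U, -x ∈ U)
    (hmem : ∀ θ : E n, ‖θ‖ = 1 → θ + fieldOf B b θ ∈ U) (hQ : qNorm B b ≤ 2)
    (hcase : ∀ x : ℝ, 0 < x → qNorm B b / 2 < 1 - x → ∃ M : ℝ, 0 < M ∧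
      ball (0 : E n) (x / M) ⊆ U ∧
      ∀ {q : E n → ℝ} {C : ℝ≥0}, LipschitzWith C q → (C : ℝ) = M → ConvexOn ℝ univ q →
        (∀ (r : ℝ) (y : E n), 0 ≤ r → q (r • y) = r * q y) →
        (∀ θ : E n, ‖θ‖ = 1 → 0 < q θ) → (∀ θ : E n, ‖θ‖ = 1 → q θ ≤ M) →
        ∫ θ, (q θ ^ n)⁻¹ ∂sphM n = 1 →
        (∀ θ : E n, ‖θ‖ = 1 → q (θ + fieldOf B b θ) ≤ x) → 1 - qNorm B b / 2 ≤ x) :
    kap n * (1 - qNorm B b / 2) ^ n ≤ (volume U).toReal := by
  have hn2 : 2 ≤ n := by omega
  have hP : IsProbabilityMeasure (sphM n) := isProb_sphM hn2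
  have hφ := continuous_fieldOf B b
  have horth := fieldOf_orth hn2 B b
  have hball := ball_subset_of_mem hn2 hU hUc hUs hφ horth hmem
  have hM := MM_pos hn2
  have hU0 : U ∈ 𝓝 (0 : E n) := mem_of_superset (ball_mem_nhds 0 (inv_pos.2 hM)) hball
  have habs : Absorbent ℝ U := absorbent_nhds_zero hU0
  set q0 : E n → ℝ := gauge U with hq0d
  have hq0h : ∀ (r : ℝ) (x : E n), 0 ≤ r → q0 (r • x) = r * q0 x := fun r x hr => by
    rw [hq0d, gauge_smul_of_nonneg hr, smul_eq_mul]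
  have hq0M : ∀ x, q0 x ≤ MM n * ‖x‖ := fun x => by
    refine (gauge_mono (absorbent_nhds_zero (ball_mem_nhds 0 (inv_pos.2 hM))) hball x).trans_eq ?_
    rw [gauge_ball (inv_pos.2 hM).le, div_inv_eq_mul, mul_comm]
  have hq0p : ∀ x, x ≠ 0 → 0 < q0 x := fun x hx =>
    (gauge_pos habs (NormedSpace.isVonNBounded_of_isBounded ℝ hU.isBounded)).2 hx
  have hq0c : Continuous q0 := continuous_gauge hUc hU0
  have hset : {x | q0 x ≤ 1} = U := by
    ext x
    rw [Set.mem_ofPred_eq, hq0d, gauge_le_one_iff_mem_closure hUc hU0, hU.isClosed.closure_eq]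
  set I := ∫ θ, (q0 θ ^ n)⁻¹ ∂sphM n with hI
  have hvol : (volume U).toReal = kap n * I := by
    rw [← hset]; exact volume_gauge hn2 hq0c hq0h hq0p
  have hIpos : 0 < I := by
    have hae : ∀ᵐ θ ∂sphM n, (MM n ^ n)⁻¹ ≤ (q0 θ ^ n)⁻¹ ∧ θ ≠ 0 := by
      filter_upwards [sphM_ae_norm hn2] with θ hθ
      have h0 : θ ≠ 0 := fun h => by simp [h] at hθ
      refine ⟨inv_anti₀ (pow_pos (hq0p θ h0) n) ?_, h0⟩
      refine pow_le_pow_left₀ (gauge_nonneg θ) ?_ n
      simpa [hθ] using hq0M θ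
    by_contra hle
    push Not at hle
    by_cases hint : Integrable (fun θ => (q0 θ ^ n)⁻¹) (sphM n)
    · have := integral_mono_ae (integrable_const _) hint
        (hae.mono fun θ h => h.1)
      simp at this
      have : 0 < (MM n ^ n)⁻¹ := by positivity
      linarith
    · have hc : ContinuousOn (fun θ => (q0 θ ^ n)⁻¹) (sphere (0 : E n) 1) :=
        (hq0c.pow n).continuousOn.inv₀ fun θ hθ =>
          (pow_pos (hq0p θ fun h => by simp [h] at hθ) n).ne'
      obtain ⟨M', hM'⟩ := (isCompact_sphere (0 : E n) 1).exists_bound_of_continuousOn hc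
      exact hint (integrable_sphM_of_bound hn2 (by fun_prop) M' (by
        filter_upwards [sphM_ae_norm hn2] with θ hθ using hM' θ (by simp [hθ])))
  have hkap : 0 ≤ kap n := ENNReal.toReal_nonneg
  rw [hvol]
  refine mul_le_mul_of_nonneg_left ?_ hkap
  obtain ⟨x, hx0, hxn⟩ : ∃ x : ℝ, 0 < x ∧ x ^ n = I :=
    ⟨I ^ ((n : ℝ)⁻¹), Real.rpow_pos_of_pos hIpos _, Real.rpow_inv_natCast_pow hIpos.le (by omega)⟩
  have hQn : 0 ≤ 1 - qNorm B b / 2 := by linarith
  rw [← hxn]
  refine pow_le_pow_left₀ hQn ?_ n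
  rcases le_or_gt (1 - qNorm B b / 2) x with h1 | h1
  · exact h1
  obtain ⟨M, hM0, hrad, hcore⟩ := hcase x hx0 (by linarith)
  have hqx : ∀ y, q0 y ≤ M / x * ‖y‖ := fun y => by
    refine (gauge_mono (absorbent_nhds_zero (ball_mem_nhds 0 (div_pos hx0 hM0)))
      hrad y).trans_eq ?_
    rw [gauge_ball (div_pos hx0 hM0).le, div_div_eq_mul_div]
    ring
  -- rescale
  set q : E n → ℝ := fun y => x * q0 y with hq
  have hqh : ∀ (r : ℝ) (y : E n), 0 ≤ r → q (r • y) = r * q y := fun r y hr => by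
    simp only [hq, hq0h r y hr]; ring
  have hqM : ∀ y, q y ≤ M * ‖y‖ := fun y => by
    refine (mul_le_mul_of_nonneg_left (hqx y) hx0.le).trans_eq ?_
    field_simp
  have hadd : ∀ y z, q (y + z) ≤ q y + q z := fun y z => by
    simp only [hq, ← mul_add]
    exact mul_le_mul_of_nonneg_left (gauge_add_le hUc habs y z) hx0.le
  have hlip : LipschitzWith M.toNNReal q := LipschitzWith.of_dist_le' fun y z => by
    rw [Real.dist_eq, dist_eq_norm, abs_le]
    have h2 := hadd (y - z) z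
    have h3 := hadd (z - y) y
    rw [sub_add_cancel] at h2 h3
    have := hqM (y - z)
    have h4 := hqM (z - y)
    rw [norm_sub_rev] at h4
    constructor <;> linarith
  have hqc : ConvexOn ℝ univ q := ⟨convex_univ, fun y _ z _ a c ha hc _ => by
    refine (hadd _ _).trans ?_
    rw [hqh a y ha, hqh c z hc, smul_eq_mul, smul_eq_mul]⟩
  refine hcore hlip (Real.coe_toNNReal _ hM0.le) hqc hqh
    (fun θ hθ => mul_pos hx0 (hq0p θ fun h => by simp [h] at hθ))
    (fun θ hθ => by simpa [hθ] using hqM θ) ?_ fun θ hθ => ?_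
  · simp only [hq, mul_pow, mul_inv]
    rw [integral_const_mul, ← hI, ← hxn, inv_mul_cancel₀ (pow_pos hx0 n).ne']
  · simpa [hq] using mul_le_mul_of_nonneg_left
      (gauge_le_one_of_mem (hmem θ hθ)) hx0.le

/-- `claim` for a gauge bound `M` valid for the rescaled bodies of small volume radius `x`. -/
theorem claim_bound (hn : 4 ≤ n) {M : ℝ} (hM0 : 0 < M) (cert : CertB n M) (B : HBasis n) {N : ℕ}
    (b : Idx B N → E n)
    (U : Set (E n)) (hU : IsCompact U) (hUc : Convex ℝ U) (hUs : ∀ x ∈ U, -x ∈ U)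
    (hmem : ∀ θ : E n, ‖θ‖ = 1 → θ + fieldOf B b θ ∈ U) (hQ : qNorm B b ≤ 2)
    (hrad : ∀ x : ℝ, 0 < x → qNorm B b / 2 < 1 - x → ball (0 : E n) (x / M) ⊆ U) :
    kap n * (1 - qNorm B b / 2) ^ n ≤ (volume U).toReal :=
  claim_split hn B b U hU hUc hUs hmem hQ fun x hx0 hx => ⟨M, hM0, hrad x hx0 hx,
    fun hq hC hc hh h0 hM hI hle => claim_core hn cert B b hq hC hc hh h0 hM hI hle⟩

/-- A symmetric convex set containing `θ + φ θ` on the sphere has volume radius at least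
`1 - Q / 2`. -/
theorem claim (hn : 4 ≤ n) (cert : Cert n) (B : HBasis n) {N : ℕ} (b : Idx B N → E n)
    (U : Set (E n)) (hU : IsCompact U) (hUc : Convex ℝ U) (hUs : ∀ x ∈ U, -x ∈ U)
    (hmem : ∀ θ : E n, ‖θ‖ = 1 → θ + fieldOf B b θ ∈ U) (hQ : qNorm B b ≤ 2) :
    kap n * (1 - qNorm B b / 2) ^ n ≤ (volume U).toReal := by
  have hn2 : 2 ≤ n := by omega
  refine claim_bound hn (MM_pos hn2) cert B b U hU hUc hUs hmem hQ fun x hx hlt => ?_
  refine (ball_subset_ball ?_).trans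
    (ball_subset_of_mem hn2 hU hUc hUs (continuous_fieldOf B b) (fieldOf_orth hn2 B b) hmem)
  rw [inv_eq_one_div]
  refine div_le_div_of_nonneg_right ?_ (MM_pos hn2).le
  linarith [qNorm_nonneg hn B b]

/-- The conclusion of `claim` in dimension `n`, for every field. -/
def ClaimProp (n : ℕ) : Prop :=
  ∀ (B : HBasis n) {N : ℕ} (b : Idx B N → E n) (U : Set (E n)), IsCompact U → Convex ℝ U →
    (∀ x ∈ U, -x ∈ U) → (∀ θ : E n, ‖θ‖ = 1 → θ + fieldOf B b θ ∈ U) → qNorm B b ≤ 2 →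
    kap n * (1 - qNorm B b / 2) ^ n ≤ (volume U).toReal

lemma claimProp_of_cert (hn : 4 ≤ n) (cert : Cert n) : ClaimProp n :=
  fun B _ b U h1 h2 h3 h4 h5 => claim hn cert B b U h1 h2 h3 h4 h5

end Vale.Agent.P237H
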