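import Vale.Agent.P237H.Radius
import Vale.Agent.P237H.ScalarData6

/-!
# The claim in dimension six

Four ranges of the volume radius, each with its own inradius bound and certificate.
-/

namespace Vale.Agent.P237H

open MeasureTheory Set Metric Vale.Agent.P237 Vale.Agent.P237R ScalarAux
open scoped RealInnerProductSpace NNReal

lemma moments_six {w : E 6} (hw : ‖w‖ = 1) :
    ∫ θ, ⟪w, θ⟫ ^ 4 ∂sphM 6 = 1 / 16 ∧ ∫ θ, ⟪w, θ⟫ ^ 6 ∂sphM 6 = 1 / 32 ∧
      ∫ θ, ⟪w, θ⟫ ^ 10 ∂sphM 6 = 3 / 256 := by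
  have hn : 2 ≤ 6 := by norm_num
  have := isProb_sphM (n := 6) hn
  have m0 := moment_step hn w 0
  have m2 := moment_step hn w 2
  have m4 := moment_step hn w 4
  have m6 := moment_step hn w 6
  have m8 := moment_step hn w 8
  norm_num [hw] at m0 m2 m4 m6 m8
  refine ⟨by linarith, by linarith, by linarith⟩

lemma MM_six : MM 6 = 32 / (5 * Real.pi) := by
  have h := MM_mul_succ (n := 6) (by norm_num)
  rw [MM_seven] at h
  push_cast at h
  have := Real.pi_pos
  field_simp at h ⊢
  linarith

lemma abs_moments_six {w : E 6} (hw : ‖w‖ = 1) :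
    ∫ θ, |⟪w, θ⟫| * ⟪w, θ⟫ ^ 2 ∂sphM 6 = 32 / (105 * Real.pi) ∧
      ∫ θ, |⟪w, θ⟫| * ⟪w, θ⟫ ^ 4 ∂sphM 6 = 128 / (945 * Real.pi) := by
  have hn : 2 ≤ 6 := by norm_num
  have a0 := sph_abs_inner (n := 6) hn w
  have a1 := abs_moment_step hn hw 0
  have a2 := abs_moment_step hn hw 1
  norm_num [hw, absMom, MM_six] at a0 a1 a2
  have e1 : ∫ θ, |⟪w, θ⟫| * ⟪w, θ⟫ ^ 2 ∂sphM 6 = 32 / (105 * Real.pi) := by
    rw [a0] at a1
    rw [eq_div_iff (by positivity)]
    field_simp at a1 ⊢
    linarith
  refine ⟨e1, ?_⟩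
  rw [e1] at a2
  rw [eq_div_iff (by positivity)]
  field_simp at a2 ⊢
  linarith

lemma tau_six_le (m : ℕ) : tauJ 6 m ≤ (tau1 6 : ℝ) :=
  (tau_bounds le_rfl m).1

lemma tau_six_le_lam (m : ℕ) : tauJ 6 m ≤ ((tau1 6 / 32 : ℚ) : ℝ) * lamJ 6 m := by
  refine (tau_bounds le_rfl m).2.trans (le_of_eq ?_)
  push_cast
  norm_num

lemma data62_ok : data62.ok = true := by decide +kernel

lemma data63_ok : data63.ok = true := by decide +kernel

lemma data64_ok : data64.ok = true := by decide +kernel

theorem exists_cert6 : Nonempty (CertB 6 (1563 / 1000)) := by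
  refine cert_of_data data61 (by decide +kernel) (le_refl 6) ?_ ?_ (R := 1563 / 1000) ?_ ?_ ?_
  · norm_num [tau1, data61]
  · norm_num [tau1, data61]
  · norm_num [tau1, data61]
  · norm_num [tau1, data61]
  · intro M hM
    simp only [data61, Option.some.injEq] at hM
    subst hM
    norm_num

/-- A symmetric convex set containing `θ + φ θ` on the sphere has volume radius at least
`1 - Q / 2`, in dimension six. -/
theorem claim6 (B : HBasis 6) {N : ℕ} (b : Idx B N → E 6) (U : Set (E 6)) (hU : IsCompact U)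
    (hUc : Convex ℝ U) (hUs : ∀ x ∈ U, -x ∈ U)
    (hmem : ∀ θ : E 6, ‖θ‖ = 1 → θ + fieldOf B b θ ∈ U) (hQ : qNorm B b ≤ 2) :
    kap 6 * (1 - qNorm B b / 2) ^ 6 ≤ (volume U).toReal := by
  obtain ⟨cert⟩ := exists_cert6
  have hn : 4 ≤ 6 := by norm_num
  have hp := Real.pi_gt_d6
  have hpu := Real.pi_lt_d6
  have ht : ∀ m, tauJ 6 m ≤ ((tau1 6 : ℚ) : ℝ) := tau_six_le
  have hl := tau_six_le_lam
  have eT2 : tau1 6 = data62.T := by decide +kernel
  have eT3 : tau1 6 = data63.T := by decide +kernel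
  have eT4 : tau1 6 = data64.T := by decide +kernel
  have eb2 : tau1 6 / 32 = data62.β := by decide +kernel
  have eb3 : tau1 6 / 32 = data63.β := by decide +kernel
  have eb4 : tau1 6 / 32 = data64.β := by decide +kernel
  refine claim_split hn B b U hU hUc hUs hmem hQ fun x hx0 hx => ?_
  have hQ0 := qNorm_nonneg hn B b
  rcases lt_or_ge (1 - x) (8 / 1000) with h1 | h1
  · refine ⟨1563 / 1000, by norm_num, ?_, fun hq hC hc hh h0 hM hI hle =>
      claim_core hn cert B b hq hC hc hh h0 hM hI hle⟩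
    refine ball_subset_pow hn B b hU hUc hUs hmem 2 (m1 := 1 / 32) (m2 := 3 / 256)
      (a := 128 / (945 * Real.pi)) (s := 366 / 100000) (by norm_num)
      (fun w hw => (moments_six hw).2.1) (fun w hw => (moments_six hw).2.2)
      (fun w hw => (abs_moments_six hw).2) (by norm_num; linarith) (by positivity) ?_
    rw [div_mul_div_comm, div_le_iff₀ (by positivity)]
    nlinarith
  rcases lt_or_ge (1 - x) (20 / 1000) with h2 | h2
  · refine ⟨(data62.M : ℝ), by norm_num [data62], ?_, fun hq hC hc hh h0 hM hI hle =>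
      data62.core data62_ok hn (fun m => (ht m).trans_eq (congrArg _ eT2)) (fun m =>
        (hl m).trans_eq (by rw [← eb2]; rfl)) B b hq hC hc hh h0 hM hI
        (by norm_num [data62]; linarith) hx hle⟩
    refine ball_subset_pow hn B b hU hUc hUs hmem 1 (m1 := 1 / 16) (m2 := 1 / 32)
      (a := 32 / (105 * Real.pi)) (s := 6682 / 1000000) (by norm_num)
      (fun w hw => (moments_six hw).1) (fun w hw => (moments_six hw).2.1)
      (fun w hw => (abs_moments_six hw).1) (by norm_num; linarith) (by positivity) ?_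
    norm_num [data62]
    rw [div_mul_div_comm, div_le_iff₀ (by positivity)]
    nlinarith
  rcases lt_or_ge (1 - x) (45 / 1000) with h3 | h3
  · refine ⟨(data63.M : ℝ), by norm_num [data63], ?_, fun hq hC hc hh h0 hM hI hle =>
      data63.core data63_ok hn (fun m => (ht m).trans_eq (congrArg _ eT3)) (fun m =>
        (hl m).trans_eq (by rw [← eb3]; rfl)) B b hq hC hc hh h0 hM hI
        (by norm_num [data63]; linarith) hx hle⟩
    refine ball_subset_pow hn B b hU hUc hUs hmem 1 (m1 := 1 / 16) (m2 := 1 / 32)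
      (a := 32 / (105 * Real.pi)) (s := 10023 / 1000000) (by norm_num)
      (fun w hw => (moments_six hw).1) (fun w hw => (moments_six hw).2.1)
      (fun w hw => (abs_moments_six hw).1) (by norm_num; linarith) (by positivity) ?_
    norm_num [data63]
    rw [div_mul_div_comm, div_le_iff₀ (by positivity)]
    nlinarith
  refine ⟨(data64.M : ℝ), by norm_num [data64], ?_, fun hq hC hc hh h0 hM hI hle =>
    data64.core data64_ok hn (fun m => (ht m).trans_eq (congrArg _ eT4)) (fun m =>
        (hl m).trans_eq (by rw [← eb4]; rfl)) B b hq hC hc hh h0 hM hI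
      (by norm_num [data64]; linarith) hx hle⟩
  refine (ball_subset_ball ?_).trans (ball_subset_of_mem (by norm_num) hU hUc hUs
    (continuous_fieldOf B b) (fieldOf_orth (by norm_num) B b) hmem)
  rw [MM_six, inv_div]
  norm_num [data64]
  rw [div_le_iff₀ (by positivity)]
  nlinarith

end Vale.Agent.P237H
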