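import Vale.Agent.P237H.Harm

/-!
# A sharper inradius bound in dimension seven

The test function is the cube of a coordinate.
-/

namespace Vale.Agent.P237H

open MeasureTheory Set Metric Vale.Agent.P237 Vale.Agent.P237R
open scoped RealInnerProductSpace NNReal

variable {n : ℕ}

lemma inner_pow_mem (v : E n) : ∀ k, (fun x : E n => ⟪v, x⟫ ^ k) ∈ polyHom n k
  | 0 => by simpa using polyHom_const (n := n) 1
  | k + 1 => by simpa [pow_succ'] using polyHom_inner_mul (inner_pow_mem v k) v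

/-- The moment recursion of a coordinate. -/
lemma moment_step (hn : 2 ≤ n) (v : E n) (k : ℕ) :
    ((n : ℝ) + k) * ∫ θ, ⟪v, θ⟫ ^ (k + 2) ∂sphM n
      = ((k : ℝ) + 1) * ‖v‖ ^ 2 * ∫ θ, ⟪v, θ⟫ ^ k ∂sphM n := by
  have h := poly_ibp hn (inner_pow_mem v (k + 1)) (a := 0) (Φ := fun _ => v) contDiff_const
    fun r x _ => by simp
  have hd : ∀ θ : E n, fderiv ℝ (fun x : E n => ⟪v, x⟫ ^ (k + 1)) θ v
      = ((k : ℝ) + 1) * ‖v‖ ^ 2 * ⟪v, θ⟫ ^ k := fun θ => by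
    have hf : HasFDerivAt (fun x : E n => ⟪v, x⟫ ^ (k + 1)) _ θ :=
      ((innerSL ℝ v).hasFDerivAt (x := θ)).pow (k + 1)
    rw [hf.fderiv]
    simp
    ring
  have hz : ∀ θ : E n, divg (fun _ : E n => v) θ = 0 := fun θ => by simp [divg]
  simp only [hd, hz, mul_zero, integral_zero, sub_zero, integral_const_mul] at h
  push_cast at h
  have e : ∀ θ : E n, ⟪v, θ⟫ ^ (k + 1) * ⟪θ, v⟫ = ⟪v, θ⟫ ^ (k + 2) := fun θ => by
    rw [real_inner_comm θ v]; ring
  simp only [e] at h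
  linarith

/-- The third absolute moment of a coordinate. -/
lemma abs_moment_three (hn : 2 ≤ n) (v : E n) :
    ((n : ℝ) + 1) * ∫ θ, |⟪v, θ⟫| * ⟪v, θ⟫ ^ 2 ∂sphM n = 2 * ‖v‖ ^ 3 * absMom n := by
  have hL : LipschitzWith ‖innerSL ℝ v‖₊ fun x : E n => |⟪v, x⟫| := by
    simpa [Function.comp_def] using lipschitzWith_one_norm.comp (innerSL ℝ v).lipschitz
  have hΦ : ContDiff ℝ 1 fun x : E n => ⟪v, x⟫ • v :=
    ((innerSL ℝ v).contDiff).smul contDiff_const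
  have h := sph_ibp hn (b := 1) (a := 1) hL (fun r θ hr _ => by
    rw [real_inner_smul_right, abs_mul, abs_of_nonneg (by linarith : (0 : ℝ) ≤ r), pow_one]) hΦ
    fun r x _ => by rw [real_inner_smul_right, pow_one, smul_smul]
  have hdiv : ∀ θ, divg (fun x : E n => ⟪v, x⟫ • v) θ = ‖v‖ ^ 2 := fun θ => by
    have hf : HasFDerivAt (fun x : E n => ⟪v, x⟫ • v)
        ((innerSL ℝ v).smulRight v) θ := ((innerSL ℝ v).smulRight v).hasFDerivAt
    simp only [divg, hf.fderiv, ContinuousLinearMap.smulRight_apply, innerSL_apply_apply,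
      real_inner_smul_right]
    rw [← real_inner_self_eq_norm_sq,
      ← (EuclideanSpace.basisFun (Fin n) ℝ).sum_inner_mul_inner v v]
    simp [bv]
  have hder : ∀ θ : E n, fderiv ℝ (fun x : E n => |⟪v, x⟫|) θ (⟪v, θ⟫ • v)
      = |⟪v, θ⟫| * ‖v‖ ^ 2 := fun θ => by
    rcases lt_trichotomy ⟪v, θ⟫ 0 with h0 | h0 | h0
    · have hf : HasFDerivAt (fun x : E n => |⟪v, x⟫|) _ θ :=
        (hasDerivAt_abs_neg h0).comp_hasFDerivAt θ (innerSL ℝ v).hasFDerivAt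
      rw [hf.fderiv, abs_of_neg h0]
      simp
    · simp [h0]
    · have hf : HasFDerivAt (fun x : E n => |⟪v, x⟫|) _ θ :=
        (hasDerivAt_abs_pos h0).comp_hasFDerivAt θ (innerSL ℝ v).hasFDerivAt
      rw [hf.fderiv, abs_of_pos h0]
      simp
  have e : ∀ θ : E n, |⟪v, θ⟫| * ⟪θ, ⟪v, θ⟫ • v⟫ = |⟪v, θ⟫| * ⟪v, θ⟫ ^ 2 := fun θ => by
    rw [real_inner_smul_right, real_inner_comm θ v]; ring
  simp only [hder, hdiv, e, integral_mul_const, sph_abs_inner hn] at h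
  push_cast at h
  linear_combination -h

lemma MM_three : MM 3 = 3 / 2 := by
  have h := MM_mul_succ (n := 2) (by norm_num)
  rw [MM_two] at h
  push_cast at h
  have := Real.pi_pos
  field_simp at h
  linarith

lemma MM_seven : MM 7 = 35 / 16 := by
  have h3 := MM_mul_succ (n := 3) (by norm_num)
  have h4 := MM_mul_succ (n := 4) (by norm_num)
  have h5 := MM_mul_succ (n := 5) (by norm_num)
  have h6 := MM_mul_succ (n := 6) (by norm_num)
  rw [MM_three] at h3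
  push_cast at h3 h4 h5 h6
  have := Real.pi_pos
  have p4 : MM 4 ≠ 0 := (MM_pos (by norm_num)).ne'
  have e4 : MM 4 = 16 / (3 * Real.pi) := by field_simp at h3 ⊢; linarith
  rw [e4] at h4
  have e5 : MM 5 = 15 / 8 := by field_simp at h4 ⊢; linarith
  rw [e5] at h5
  have e6 : MM 6 = 32 / (5 * Real.pi) := by field_simp at h5 ⊢; linarith
  rw [e6] at h6
  field_simp at h6 ⊢
  linarith

/-- The cube of a coordinate, with its linear part removed, against a field of degrees at least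
three. -/
lemma cube_pair (B : HBasis 7) {N : ℕ} (b : Idx B N → E 7) {s : ℝ} (hs : 0 ≤ s)
    (hQ : qNorm B b / 1386 ≤ s ^ 2) (v : E 7) :
    |∫ θ, ⟪v, fieldOf B b θ⟫ * ⟪v, θ⟫ ^ 3 ∂sphM 7| ≤ s * ‖v‖ ^ 4 := by
  have hn : 2 ≤ 7 := by norm_num
  have hP := isProb_sphM hn
  obtain ⟨A2, hA2, e2⟩ := harm_mul_linear hn (l := 0) (harm_linear v) v
  obtain ⟨A3, hA3, e3⟩ := harm_mul_linear hn (l := 1) hA2 v
  have hd1 : ∀ x : E 7, fderiv ℝ (fun y : E 7 => ⟪v, y⟫) x v = ‖v‖ ^ 2 := fun x => by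
    rw [(innerSL ℝ v).hasFDerivAt.fderiv (f := fun y : E 7 => ⟪v, y⟫)]
    simp
  have hA2e : A2 = fun x => ⟪v, x⟫ ^ 2 - ‖x‖ ^ 2 * (‖v‖ ^ 2 / 7) := by
    funext x
    have := e2 x
    rw [hd1] at this
    norm_num at this
    linear_combination -this
  have hd2 : ∀ x : E 7, fderiv ℝ A2 x v = 12 / 7 * ‖v‖ ^ 2 * ⟪v, x⟫ := fun x => by
    rw [hA2e]
    have h : HasFDerivAt (fun y : E 7 => ⟪v, y⟫ ^ 2 - ‖y‖ ^ 2 * (‖v‖ ^ 2 / 7)) _ x :=
      (((innerSL ℝ v).hasFDerivAt (x := x)).pow 2).sub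
        (((hasStrictFDerivAt_norm_sq x).hasFDerivAt).mul_const (‖v‖ ^ 2 / 7))
    rw [h.fderiv]
    simp [real_inner_comm x v]
    ring
  have hcube : ∀ θ : E 7, ‖θ‖ = 1 → ⟪v, θ⟫ ^ 3 = A3 θ + ‖v‖ ^ 2 / 3 * ⟪v, θ⟫ := fun θ hθ => by
    have := e3 θ
    rw [hd2, hA2e] at this
    simp only [hθ, one_pow, one_mul] at this
    norm_num at this
    linear_combination this
  have hlin := harm_linear_orth hn (by norm_num) hA3 v
  have hAA : ∫ θ, A3 θ * A3 θ ∂sphM 7 = 4 / 693 * ‖v‖ ^ 6 := by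
    have hc3 : Continuous A3 := (polyHom_smooth hA3.1).continuous
    have e : (fun θ => A3 θ * A3 θ) =ᵐ[sphM 7]
        fun θ => ⟪v, θ⟫ ^ 6 - ‖v‖ ^ 2 / 3 * ⟪v, θ⟫ ^ 4 - ‖v‖ ^ 2 / 3 * (A3 θ * ⟪v, θ⟫) := by
      filter_upwards [sphM_ae_norm hn] with θ hθ
      have := hcube θ hθ
      linear_combination (-(⟪v, θ⟫ ^ 3) - A3 θ) * this
    rw [integral_congr_ae e, integral_sub, integral_sub, integral_const_mul, integral_const_mul,
      hlin]
    · have m0 := moment_step hn v 0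
      have m2 := moment_step hn v 2
      have m4 := moment_step hn v 4
      norm_num at m0 m2 m4
      linear_combination m4 / 11 + (5 / 11 - 1 / 3) * ‖v‖ ^ 2 * m2 / 9
        + (5 / 11 - 1 / 3) * 3 / 9 * ‖v‖ ^ 4 * m0 / 7
    all_goals exact integrable_sphM hn (by fun_prop)
  -- expansion in the basis
  set co : Fin (B.dim 3) → ℝ := fun i => ∫ y, A3 y * B.Y 3 i y ∂sphM 7 with hco
  have hcY : ∀ l i, Continuous (B.Y l i) := fun l i => (polyHom_smooth (B.harm l i).1).continuous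
  have hsum : ∑ i, co i ^ 2 = ∫ θ, A3 θ * A3 θ ∂sphM 7 := by
    have hc3 : Continuous A3 := (polyHom_smooth hA3.1).continuous
    have e : (fun θ => A3 θ * A3 θ) = fun θ => ∑ i, co i * (A3 θ * B.Y 3 i θ) := by
      funext θ
      conv_lhs => arg 2; rw [B.expand 3 A3 hA3 θ]
      rw [Finset.mul_sum]
      exact Finset.sum_congr rfl fun i _ => by rw [hco]; ring
    rw [e, integral_finsetSum _ fun i _ => integrable_sphM hn (by have := hcY 3 i; fun_prop)]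
    exact Finset.sum_congr rfl fun i _ => by rw [integral_const_mul, sq]
  have hpair : ∀ ι : Idx B N, ∫ θ, B.fn ι θ * ⟪v, θ⟫ ^ 3 ∂sphM 7
      = ∫ θ, A3 θ * B.fn ι θ ∂sphM 7 := fun ι => by
    have hl := harm_linear_orth hn (show 2 * (ι.1 : ℕ) + 3 ≠ 1 by omega) (B.harm _ ι.2) v
    have hcf : Continuous (B.fn ι) := hcY _ _
    have hc3 : Continuous A3 := (polyHom_smooth hA3.1).continuous
    have e : (fun θ => B.fn ι θ * ⟪v, θ⟫ ^ 3) =ᵐ[sphM 7]
        fun θ => A3 θ * B.fn ι θ + ‖v‖ ^ 2 / 3 * (B.fn ι θ * ⟪v, θ⟫) := by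
      filter_upwards [sphM_ae_norm hn] with θ hθ
      rw [hcube θ hθ]; ring
    rw [integral_congr_ae e, integral_add (integrable_sphM hn (by fun_prop))
      (integrable_sphM hn (by fun_prop)), integral_const_mul, HBasis.fn, hl, mul_zero, add_zero]
  have hI : ∫ θ, ⟪v, fieldOf B b θ⟫ * ⟪v, θ⟫ ^ 3 ∂sphM 7
      = ∑ ι : Idx B N, ⟪v, b ι⟫ * ∫ θ, A3 θ * B.fn ι θ ∂sphM 7 := by
    simp only [fieldOf, inner_sum, real_inner_smul_right, Finset.sum_mul]
    rw [integral_finsetSum _ fun ι _ => integrable_sphM hn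
      (by have : Continuous (B.fn ι) := hcY _ _; fun_prop)]
    refine Finset.sum_congr rfl fun ι _ => ?_
    rw [← hpair, ← integral_const_mul]
    exact integral_congr_ae (Filter.Eventually.of_forall fun θ => by ring)
  rw [hI]
  refine abs_le_of_sq_le_sq ?_ (by positivity)
  obtain _ | N := N
  · simp only [Finset.univ_eq_empty, Finset.sum_empty]
    exact le_of_eq_of_le (zero_pow two_ne_zero) (sq_nonneg _)
  rw [Fintype.sum_sigma, Fin.sum_univ_succ]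
  have hzero : ∀ m : Fin N, ∑ i, ⟪v, b ⟨m.succ, i⟩⟫ * ∫ θ, A3 θ * B.fn ⟨m.succ, i⟩ θ ∂sphM 7 = 0 :=
    fun m => Finset.sum_eq_zero fun i _ => by
      rw [HBasis.fn, harm_orth hn (by simp only [Fin.val_succ]; omega) hA3 (B.harm _ _), mul_zero]
  rw [Finset.sum_eq_zero fun m _ => hzero m, add_zero]
  refine (Finset.sum_mul_sq_le_sq_mul_sq _ _ _).trans ?_
  have hb : ∑ i, ⟪v, b ⟨(0 : Fin (N + 1)), i⟩⟫ ^ 2 ≤ ‖v‖ ^ 2 * (qNorm B b / 8) := by
    refine (Finset.sum_le_sum fun i _ => sq_le_sq' ?_ (real_inner_le_norm _ _)).trans ?_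
    · exact (abs_le.1 (abs_real_inner_le_norm _ _)).1
    · simp only [mul_pow, ← Finset.mul_sum]
      refine mul_le_mul_of_nonneg_left ?_ (sq_nonneg _)
      rw [qNorm, Fintype.sum_sigma, Fin.sum_univ_succ, le_div_iff₀ (by norm_num), Finset.sum_mul]
      refine le_add_of_le_of_nonneg (le_of_eq (Finset.sum_congr rfl fun i _ => ?_)) ?_
      · simp only [Fin.val_zero, rr]
        norm_num
        ring
      · exact Finset.sum_nonneg fun m _ => Finset.sum_nonneg fun i _ =>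
          div_nonneg (sq_nonneg _) (rr_pos hn _).le
  refine (mul_le_mul hb (le_of_eq (hsum.trans hAA)) (Finset.sum_nonneg fun i _ => sq_nonneg _)
    ((Finset.sum_nonneg fun i _ => sq_nonneg _).trans hb)).trans ?_
  have := mul_le_mul_of_nonneg_left hQ (show (0 : ℝ) ≤ ‖v‖ ^ 8 by positivity)
  nlinarith

/-- The inradius bound. -/
theorem ball_subset_seven (B : HBasis 7) {N : ℕ} (b : Idx B N → E 7) {U : Set (E 7)}
    (hU : IsCompact U) (hUc : Convex ℝ U) (hUs : ∀ x ∈ U, -x ∈ U)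
    (hmem : ∀ θ : E 7, ‖θ‖ = 1 → θ + fieldOf B b θ ∈ U) {s : ℝ} (hs : 0 ≤ s)
    (hQ : qNorm B b / 1386 ≤ s ^ 2) :
    ball (0 : E 7) (64 / 5 * (1 / 21 - s)) ⊆ U := by
  have hn : 2 ≤ 7 := by norm_num
  intro z hz
  by_contra hzU
  obtain ⟨f, c, hfc, hcz⟩ := geometric_hahn_banach_closed_point hUc hU.isClosed hzU
  set v := (InnerProductSpace.toDual ℝ (E 7)).symm f with hv
  have hfv : ∀ x, f x = ⟪v, x⟫ := fun x => by rw [hv, InnerProductSpace.toDual_symm_apply]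
  simp only [hfv] at hfc hcz
  have habs : ∀ θ : E 7, ‖θ‖ = 1 → |⟪v, θ + fieldOf B b θ⟫| ≤ c := fun θ hθ => by
    have h1 := hfc _ (hmem θ hθ)
    have h2 := hfc _ (hUs _ (hmem θ hθ))
    rw [inner_neg_right] at h2
    rw [abs_le]; exact ⟨by linarith, h1.le⟩
  rcases eq_or_ne v 0 with h0 | h0
  · have h1 := hfc _ (hmem (bv 0) (by simp [bv]))
    simp [h0] at h1 hcz
    linarith
  have hφ : Continuous (fieldOf B b) := by
    unfold fieldOf
    exact continuous_finsetSum _ fun ι _ =>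
      (polyHom_smooth (B.harm _ _).1).continuous.smul continuous_const
  have hint : ∫ θ, ⟪v, θ + fieldOf B b θ⟫ * ⟪v, θ⟫ ^ 3 ∂sphM 7
      ≤ ∫ θ, c * (|⟪v, θ⟫| * ⟪v, θ⟫ ^ 2) ∂sphM 7 := by
    refine integral_mono_ae (integrable_sphM hn (by fun_prop)) (integrable_sphM hn (by fun_prop)) ?_
    filter_upwards [sphM_ae_norm hn] with θ hθ
    have h1 : ⟪v, θ⟫ ^ 3 = ⟪v, θ⟫ * ⟪v, θ⟫ ^ 2 := by ring
    rw [h1, ← mul_assoc, ← mul_assoc]
    refine mul_le_mul_of_nonneg_right ?_ (sq_nonneg _)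
    exact (le_abs_self _).trans ((abs_mul _ _).trans_le
      (mul_le_mul_of_nonneg_right (habs θ hθ) (abs_nonneg _)))
  have e : (fun θ => ⟪v, θ + fieldOf B b θ⟫ * ⟪v, θ⟫ ^ 3)
      = fun θ => ⟪v, θ⟫ ^ 4 + ⟪v, fieldOf B b θ⟫ * ⟪v, θ⟫ ^ 3 := by
    funext θ; rw [inner_add_right]; ring
  rw [e, integral_add (integrable_sphM hn (by fun_prop)) (integrable_sphM hn (by fun_prop)),
    integral_const_mul] at hint
  have hP := isProb_sphM hn
  have m0 := moment_step hn v 0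
  have m2 := moment_step hn v 2
  have m3 := abs_moment_three hn v
  rw [absMom, MM_seven] at m3
  norm_num at m0 m2 m3
  have hp := (abs_le.1 (cube_pair B b hs hQ v)).1
  have hv0 : 0 < ‖v‖ := norm_pos_iff.2 h0
  have h4 : ∫ θ, ⟪v, θ⟫ ^ 4 ∂sphM 7 = ‖v‖ ^ 4 / 21 := by
    linear_combination m2 / 9 + ‖v‖ ^ 2 / 21 * m0
  rw [h4, show (∫ θ, |⟪v, θ⟫| * ⟪v, θ⟫ ^ 2 ∂sphM 7) = 5 / 64 * ‖v‖ ^ 3 by linarith] at hint
  have hkey : ‖v‖ * (64 / 5 * (1 / 21 - s)) ≤ c := by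
    refine le_of_mul_le_mul_left ?_ (show (0 : ℝ) < 5 / 64 * ‖v‖ ^ 3 by positivity)
    nlinarith
  rw [mem_ball_zero_iff] at hz
  have hwz : ⟪v, z⟫ ≤ ‖v‖ * ‖z‖ := real_inner_le_norm v z
  nlinarith [mul_lt_mul_of_pos_left hz hv0]

end Vale.Agent.P237H
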