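import Vale.Agent.P237H.Claim
import Vale.Agent.P237H.Inradius7
import Vale.Agent.P237H.ScalarData7

/-!
# The claim in dimension seven
-/

namespace Vale.Agent.P237H

open MeasureTheory Set Metric Vale.Agent.P237 Vale.Agent.P237R ScalarAux
open scoped RealInnerProductSpace NNReal

theorem exists_cert7 : Nonempty (CertB 7 (101 / 50)) := by
  refine cert_of_data data7 (by decide +kernel) (le_refl 7) ?_ ?_ (R := 101 / 50) ?_ ?_ ?_
  · norm_num [tau1, data7]
  · norm_num [tau1, data7]
  · norm_num [tau1, data7]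
  · norm_num [tau1, data7]
  · intro M hM
    simp only [data7, Option.some.injEq] at hM
    subst hM
    norm_num

/-- The gauge of a body containing a small perturbation of the sphere, in dimension seven. -/
lemma radius_seven (B : HBasis 7) {N : ℕ} (b : Idx B N → E 7) {U : Set (E 7)} (hU : IsCompact U)
    (hUc : Convex ℝ U) (hUs : ∀ x ∈ U, -x ∈ U)
    (hmem : ∀ θ : E 7, ‖θ‖ = 1 → θ + fieldOf B b θ ∈ U) {x : ℝ}
    (hQ : qNorm B b / 2 < 1 - x) : ball (0 : E 7) (x / (101 / 50)) ⊆ U := by
  rcases le_or_gt x (1 - 766 / 10000) with h1 | h1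
  · refine (ball_subset_ball ?_).trans (ball_subset_of_mem (by norm_num) hU hUc hUs
      (continuous_fieldOf B b) (fieldOf_orth (by norm_num) B b) hmem)
    rw [MM_seven, div_le_iff₀ (by norm_num)]
    norm_num
    linarith
  have hQ0 : 0 ≤ qNorm B b := qNorm_nonneg (by norm_num) B b
  rcases le_or_gt x (1 - 1 / 20) with h2 | h2
  · refine (ball_subset_ball ?_).trans (ball_subset_seven B b hU hUc hUs hmem (s := 106 / 10000)
      (by norm_num) (by linarith))
    rw [div_le_iff₀ (by norm_num)]
    norm_num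
    linarith
  · refine (ball_subset_ball ?_).trans (ball_subset_seven B b hU hUc hUs hmem (s := 86 / 10000)
      (by norm_num) (by linarith))
    rw [div_le_iff₀ (by norm_num)]
    norm_num
    linarith

/-- A symmetric convex set containing `θ + φ θ` on the sphere has volume radius at least
`1 - Q / 2`, in dimension seven. -/
theorem claim7 (B : HBasis 7) {N : ℕ} (b : Idx B N → E 7) (U : Set (E 7)) (hU : IsCompact U)
    (hUc : Convex ℝ U) (hUs : ∀ x ∈ U, -x ∈ U)
    (hmem : ∀ θ : E 7, ‖θ‖ = 1 → θ + fieldOf B b θ ∈ U) (hQ : qNorm B b ≤ 2) :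
    kap 7 * (1 - qNorm B b / 2) ^ 7 ≤ (volume U).toReal := by
  obtain ⟨cert⟩ := exists_cert7
  exact claim_bound (by norm_num) (by norm_num) cert B b U hU hUc hUs hmem hQ
    fun x _ hx => radius_seven B b hU hUc hUs hmem hx

end Vale.Agent.P237H
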