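import Vale.Agent.P237H.Harm

/-!
# Gauges and degree zero compositions on the sphere
-/

namespace Vale.Agent.P237H

open MeasureTheory Set Metric Filter Topology Vale.Agent.P237 Vale.Agent.P237R
open scoped RealInnerProductSpace NNReal

variable {n : ℕ}

/-- A continuous function on the sphere is bounded there. -/
lemma exists_bound_sphere {g : E n → ℝ} (hg : Continuous g) :
    ∃ M, ∀ θ : E n, ‖θ‖ = 1 → |g θ| ≤ M := by
  obtain ⟨M, hM⟩ := (isCompact_closedBall (0 : E n) 1).exists_bound_of_continuousOn hg.continuousOn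
  exact ⟨M, fun θ hθ => hM θ (by simp [hθ])⟩

/-- A bounded measurable function on the sphere is integrable. -/
lemma integrable_sphM_of_bound (hn : 2 ≤ n) {f : E n → ℝ} (hf : Measurable f) (M : ℝ)
    (hM : ∀ᵐ θ ∂sphM n, |f θ| ≤ M) : Integrable f (sphM n) := by
  have := isProb_sphM hn
  exact Integrable.of_bound hf.aestronglyMeasurable M hM

lemma sq_integral_mul_le (hn : 2 ≤ n) {f g : E n → ℝ} (hf : Continuous f) (hg : Continuous g) :
    (∫ θ, f θ * g θ ∂sphM n) ^ 2 ≤ (∫ θ, f θ ^ 2 ∂sphM n) * ∫ θ, g θ ^ 2 ∂sphM n := by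
  have hff : Integrable (fun θ => f θ ^ 2) (sphM n) := integrable_sphM hn (by fun_prop)
  have hgg : Integrable (fun θ => g θ ^ 2) (sphM n) := integrable_sphM hn (by fun_prop)
  have hfg : Integrable (fun θ => f θ * g θ) (sphM n) := integrable_sphM hn (by fun_prop)
  have h : ∀ t : ℝ, 0 ≤ (∫ θ, g θ ^ 2 ∂sphM n) * (t * t)
      + 2 * (∫ θ, f θ * g θ ∂sphM n) * t + ∫ θ, f θ ^ 2 ∂sphM n := by
    intro t
    have e : (fun θ => (f θ + t * g θ) ^ 2)
        = fun θ => t * t * g θ ^ 2 + 2 * t * (f θ * g θ) + f θ ^ 2 := by funext θ; ring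
    have h0 : 0 ≤ ∫ θ, (f θ + t * g θ) ^ 2 ∂sphM n := integral_nonneg fun θ => sq_nonneg _
    rw [e, integral_add (f := fun θ => t * t * g θ ^ 2 + 2 * t * (f θ * g θ))
        ((hgg.const_mul _).add (hfg.const_mul _)) hff,
      integral_add (hgg.const_mul _) (hfg.const_mul _), integral_const_mul,
      integral_const_mul] at h0
    linarith
  have := discrim_le_zero h
  rw [discrim] at this
  linarith

/-- Support and gauge bounds for a symmetric convex body containing `θ + φ θ`. -/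
lemma ball_subset_of_mem (hn : 2 ≤ n) {U : Set (E n)} (hU : IsCompact U) (hUc : Convex ℝ U)
    (hUs : ∀ x ∈ U, -x ∈ U) {φ : E n → E n} (hφ : Continuous φ)
    (horth : ∀ w : E n, ∫ θ, ⟪w, φ θ⟫ * ⟪w, θ⟫ ∂sphM n = 0)
    (hmem : ∀ θ : E n, ‖θ‖ = 1 → θ + φ θ ∈ U) : ball (0 : E n) (MM n)⁻¹ ⊆ U := by
  have hMM := MM_pos hn
  have hn0 : (0 : ℝ) < n := by exact_mod_cast (show 0 < n by omega)
  intro z hz
  by_contra hzU
  obtain ⟨f, c, hfc, hcz⟩ := geometric_hahn_banach_closed_point hUc hU.isClosed hzU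
  set w := (InnerProductSpace.toDual ℝ (E n)).symm f with hw
  have hfw : ∀ x, f x = ⟪w, x⟫ := fun x => by rw [hw, InnerProductSpace.toDual_symm_apply]
  simp only [hfw] at hfc hcz
  have habs : ∀ θ : E n, ‖θ‖ = 1 → |⟪w, θ + φ θ⟫| ≤ c := fun θ hθ => by
    have h1 := hfc _ (hmem θ hθ)
    have h2 := hfc _ (hUs _ (hmem θ hθ))
    rw [inner_neg_right] at h2
    rw [abs_le]; exact ⟨by linarith, h1.le⟩
  have hint : ∫ θ, ⟪w, θ + φ θ⟫ * ⟪w, θ⟫ ∂sphM n ≤ ∫ θ, c * |⟪w, θ⟫| ∂sphM n := by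
    refine integral_mono_ae (integrable_sphM hn (by fun_prop)) (integrable_sphM hn (by fun_prop)) ?_
    filter_upwards [sphM_ae_norm hn] with θ hθ
    calc ⟪w, θ + φ θ⟫ * ⟪w, θ⟫ ≤ |⟪w, θ + φ θ⟫ * ⟪w, θ⟫| := le_abs_self _
      _ = |⟪w, θ + φ θ⟫| * |⟪w, θ⟫| := abs_mul _ _
      _ ≤ c * |⟪w, θ⟫| := mul_le_mul_of_nonneg_right (habs θ hθ) (abs_nonneg _)
  have e : (fun θ => ⟪w, θ + φ θ⟫ * ⟪w, θ⟫)
      = fun θ => ⟪w, θ⟫ * ⟪w, θ⟫ + ⟪w, φ θ⟫ * ⟪w, θ⟫ := by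
    funext θ; rw [inner_add_right]; ring
  rw [e, integral_add (integrable_sphM hn (by fun_prop)) (integrable_sphM hn (by fun_prop)),
    horth, sph_inner_inner hn, integral_const_mul, sph_abs_inner hn, absMom,
    real_inner_self_eq_norm_sq] at hint
  have hwz : ⟪w, z⟫ ≤ ‖w‖ * ‖z‖ := real_inner_le_norm w z
  rcases eq_or_ne w 0 with h0 | h0
  · have : NeZero n := ⟨by omega⟩
    have h1 := hfc _ (hmem (bv 0) (by simp [bv]))
    simp [h0] at h1 hcz
    linarith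
  have hw0 : 0 < ‖w‖ := norm_pos_iff.2 h0
  have h1 : ‖w‖ ≤ c * MM n := by
    rw [div_add' _ _ _ hn0.ne', div_le_iff₀ hn0] at hint
    have : c * (MM n / n * ‖w‖) * n = c * MM n * ‖w‖ := by field_simp
    nlinarith
  rw [mem_ball_zero_iff, inv_eq_one_div, lt_div_iff₀ hMM] at hz
  nlinarith [mul_lt_mul_of_pos_right hcz hMM, mul_lt_mul_of_pos_left hz hw0]

/-- A degree zero composition on the sphere. -/
lemma fderiv_comp_ae (hn : 2 ≤ n) {V : E n → ℝ} {C : ℝ≥0} (hV : LipschitzWith C V)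
    (hVh : ∀ (r : ℝ) (θ : E n), 1 / 2 ≤ r → ‖θ‖ = 1 → V (r • θ) = V θ)
    {w b : ℝ → ℝ} {D : ℝ≥0} (hw : LipschitzWith D w) (S : Finset ℝ)
    (hb : ∀ v ∉ S, HasDerivAt w (b v) v) :
    ∀ᵐ θ ∂sphM n, fderiv ℝ (fun x => w (V x)) θ = b (V θ) • fderiv ℝ V θ := by
  have hd := sph_ae_diff (b := 0) hn hV (by simpa using hVh)
  have hlev : ∀ᵐ θ ∂sphM n, ∀ t ∈ (S : Set ℝ), V θ = t → fderiv ℝ V θ = 0 :=
    (ae_ball_iff S.countable_toSet).2 fun t _ => sph_level hn hV hVh t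
  filter_upwards [hd, hlev] with θ ⟨hdiff, _⟩ hl
  by_cases hS : V θ ∈ S
  · have h0 := hl _ (by simpa using hS) rfl
    rw [h0, smul_zero]
    refine HasFDerivAt.fderiv ?_
    have hVd : HasFDerivAt V (0 : E n →L[ℝ] ℝ) θ := h0 ▸ hdiff.hasFDerivAt
    rw [hasFDerivAt_iff_isLittleO_nhds_zero] at hVd ⊢
    simp only [zero_apply, sub_zero] at hVd ⊢
    refine (Asymptotics.IsBigO.of_bound (D : ℝ) ?_).trans_isLittleO hVd
    exact Eventually.of_forall fun h => hw.norm_sub_le _ _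
  · exact ((hb _ hS).comp_hasFDerivAt θ hdiff.hasFDerivAt).fderiv

/-- The norm of the gradient of degree zero attached to a function of degree one. -/
lemma fderiv_rproj_ae (hn : 2 ≤ n) {q : E n → ℝ} {C : ℝ≥0} (hq : LipschitzWith C q)
    (hqh : ∀ (r : ℝ) (x : E n), 0 ≤ r → q (r • x) = r * q x) :
    ∀ᵐ θ ∂sphM n, ∀ u, fderiv ℝ (fun x => q (rproj x) - 1) θ u
      = fderiv ℝ q θ u - q θ * ⟪θ, u⟫ := by
  filter_upwards [sphM_ae_norm hn,
    sph_ae_diff (b := 1) hn hq (fun r θ hr _ => by rw [hqh r θ (by linarith), pow_one])]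
    with θ hθ ⟨hdiff, _⟩ u
  have hev : (fun x => q (rproj x) - 1) =ᶠ[𝓝 θ] fun x => ‖x‖⁻¹ * q x - 1 := by
    have : ∀ᶠ x in 𝓝 θ, (1 / 2 : ℝ) < ‖x‖ :=
      (continuous_norm.tendsto θ).eventually (eventually_gt_nhds (by rw [hθ]; norm_num))
    filter_upwards [this] with x hx
    rw [rproj, max_eq_right hx.le, hqh _ _ (by positivity)]
  rw [hev.fderiv_eq]
  have hθ0 : θ ≠ 0 := fun h => by simp [h] at hθ
  have hN : HasFDerivAt (fun x : E n => ‖x‖) (‖θ‖⁻¹ • innerSL ℝ θ) θ := by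
    have h := (hasStrictFDerivAt_norm_sq θ).hasFDerivAt.sqrt (by positivity)
    simp only [Real.sqrt_sq (norm_nonneg _)] at h
    refine h.congr_fderiv ?_
    ext u
    simp
    ring
  have hI : HasFDerivAt (fun x : E n => ‖x‖⁻¹) (-(innerSL ℝ θ)) θ := by
    have h := (hasDerivAt_inv (norm_ne_zero_iff.2 hθ0)).comp_hasFDerivAt θ hN
    refine h.congr_fderiv ?_
    ext u
    simp [hθ]
  rw [((hI.fun_mul hdiff.hasFDerivAt).sub_const 1).fderiv]
  simp [hθ]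
  ring

end Vale.Agent.P237H
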