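import Vale.Agent.P237H.CoreStep

/-!
# The inequality for normalised mixed-volume functionals
-/

namespace Vale.Agent.P237H

open MeasureTheory Set Metric Filter Topology Vale.Agent.P237 Vale.Agent.P237R
open scoped RealInnerProductSpace

variable {n : ℕ}

lemma Lam.isCompact_body (hn : 4 ≤ n) (Λ : Lam n) : IsCompact Λ.body :=
  Λ.compact_body' (by omega)

lemma gamma_bound {δ κ : ℝ} (hδ : 0 < δ) (hδ1 : δ ≤ 1 / 12) (hκ : 1 - δ ≤ κ) :
    1 / (3 : ℝ) ≤ 1 - 1 / (2 * (1 - δ)) ∧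
      1 / (2 * κ * (1 - 1 / (2 * (1 - δ)))) ≤ 1 + 4 * δ := by
  have h1 : 0 < 2 * (1 - δ) := by linarith
  have e : 1 - 1 / (2 * (1 - δ)) = (1 - 2 * δ) / (2 * (1 - δ)) := by
    rw [eq_div_iff h1.ne', sub_mul, div_mul_cancel₀ _ h1.ne']; ring
  refine ⟨?_, ?_⟩
  · rw [e, le_div_iff₀ h1]; linarith
  · rw [e]
    have hκ0 : 0 < κ := by linarith
    have hA : 0 < (1 - 2 * δ) / (2 * (1 - δ)) := div_pos (by linarith) h1
    rw [div_le_iff₀ (by positivity)]
    have : (1 - 2 * δ) ≤ 2 * κ * ((1 - 2 * δ) / (2 * (1 - δ))) := by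
      rw [mul_div_assoc', le_div_iff₀ h1]
      nlinarith
    nlinarith [mul_le_mul_of_nonneg_left this (by linarith : (0 : ℝ) ≤ 1 + 4 * δ)]

/-- What one optimal coupling gives. -/
lemma core_step (hn : 4 ≤ n) (hcl : ClaimProp n) (Λ : Lam n) :
    ∃ (b δ₀ : ℝ) (W : ℝ → ℝ), 0 < b ∧ 0 < δ₀ ∧ (∀ η, 0 < η → η < 1 → 0 < W η) ∧
      ∀ δ, 0 < δ → δ ≤ δ₀ →
      ∃ (A : E n →L[ℝ] E n) (m Q : ℝ), ‖A‖ ≤ b ∧ LinearMap.det A.toLinearMap = 1 ∧
        1 - δ ≤ m ∧ m ≤ b ∧ 0 ≤ Q ∧ Q ≤ 3 * (m - 1 + δ) ∧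
        kap n * (max 0 (m + (1 - δ) / m - 1 - (4 + b) * δ)) ^ n ≤ (volume Λ.body).toReal ∧
        ∀ η, 0 < η → η < 1 →
          Λ.L (fun y => ‖A y‖) * (1 - η - δ - √Q / W η) ≤ m := by
  have hn2 : 2 ≤ n := by omega
  obtain ⟨r, ε₀, hε₀, hpos⟩ := exists_position Λ hn2
  obtain ⟨B⟩ := exists_hbasis hn2
  have hS0 : 0 ≤ Λ.L (fun y => ‖y‖) := Λ.nonneg continuous_norm fun x => norm_nonneg x
  set b := Real.exp r * ((n : ℝ) ^ 2 * Λ.L (fun y => ‖y‖)) + Real.exp r + 1 with hb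
  have hb0 : 0 < b := by positivity
  have hW : ∀ η : ℝ, ∃ w, 0 < w ∧ (0 < η → η < 1 → ∀ (B : HBasis n) (N : ℕ) (ε C : ℝ) (α : Var B N),
      0 ≤ ε → (∀ x, ‖linM α x‖ ≤ C * ‖x‖) → ∀ y,
        ‖y‖ * (1 - η - ε * C - √(penQ α) / w) ≤ hT (fld (optTh ε α)) y) := fun η => by
    by_cases h : 0 < η ∧ η < 1
    · obtain ⟨w, hw, hl⟩ := optTh_norm_lower hn h.1 h.2
      exact ⟨w, hw, fun _ _ => hl⟩
    · exact ⟨1, one_pos, fun h1 h2 => absurd ⟨h1, h2⟩ h⟩
  choose W hW0 hWl using hW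
  refine ⟨b, 1 / 12, W, hb0, by norm_num, fun η _ _ => hW0 η, fun δ hδ hδ1 => ?_⟩
  set ε := min ε₀ (δ / b) with hε
  have hε0 : 0 < ε := lt_min hε₀ (div_pos hδ hb0)
  have hεb : ε * b ≤ δ := by
    rw [← le_div_iff₀ hb0]; exact min_le_right _ _
  obtain ⟨N, e0, e, F, he1, he2, he, hF1, hF⟩ := exists_kernel hn B hδ
  obtain ⟨A, β, hA, hdet, hAn, hβ, hmax, hiso⟩ := hpos ε hε0 (min_le_left _ _) B N
  set α := act A β with hα
  set m := pr α lin0 with hm
  set Q := penQ α with hQ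
  have hC : ∀ x, ‖linM α x‖ ≤ (Real.exp r * ((n : ℝ) ^ 2 * Λ.L (fun y => ‖y‖))) * ‖x‖ := fun x => by
    rw [hα, linM_act, mul_assoc]
    exact (hAn _).trans (mul_le_mul_of_nonneg_left (norm_linM_le Λ hn2 hβ x) (Real.exp_pos _).le)
  have hnorm : ‖A‖ ≤ b := by
    refine (A.opNorm_le_bound (Real.exp_pos r).le hAn).trans ?_
    have : 0 ≤ Real.exp r * ((n : ℝ) ^ 2 * Λ.L (fun y => ‖y‖)) := by positivity
    linarith
  have hmb : m ≤ b := by
    obtain ⟨u, hu⟩ := sphere_nonempty_E hn2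
    have hu1 : ‖u‖ = 1 := by simpa using hu
    have h1 := hiso u
    rw [hu1, one_pow, mul_one] at h1
    have h2 := (real_inner_le_norm u (linM α u)).trans (mul_le_mul_of_nonneg_left (hC u) (norm_nonneg u))
    rw [hu1, one_mul, mul_one] at h2
    rw [← h1]
    linarith [Real.exp_pos r]
  have hQ0 : 0 ≤ Q := penQ_nonneg α
  have hfirst : pfun Λ (act A (optTh ε α)) ≤ m - Q :=
    (opt_first_order Λ hn2 hε0 hA hβ hmax).trans (pr_optTh_le hε0.le α)
  have hm0 : 0 ≤ m := by linarith [(pfun_nonneg Λ hn2 _).trans hfirst]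
  have hεm : ε * m ≤ δ := (mul_le_mul_of_nonneg_left hmb hε0.le).trans hεb
  have hI := first_use Λ hn hcl hε0 hA hdet hiso hfirst (by linarith)
  have hI' : 1 - δ - Q / (2 * (1 - δ)) ≤ m - Q := by
    refine le_trans ?_ hI
    have : Q / (2 * (1 - ε * m)) ≤ Q / (2 * (1 - δ)) :=
      div_le_div_of_nonneg_left hQ0 (by linarith) (by linarith)
    linarith
  obtain ⟨hγ1, -⟩ := gamma_bound (κ := 1) hδ hδ1 (by linarith)
  have hIa : Q * (1 - 1 / (2 * (1 - δ))) ≤ m - 1 + δ := by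
    rw [mul_sub, mul_one, mul_one_div]
    linarith
  have hQ3 : Q ≤ 3 * (m - 1 + δ) := by nlinarith
  have hm1 : 1 - δ ≤ m := by
    nlinarith [mul_nonneg hQ0 (show (0 : ℝ) ≤ 1 - 1 / (2 * (1 - δ)) by linarith)]
  have hm0' : 0 < m := by linarith
  have habs := absMom_pos hn2
  set κ := e0 / absMom n with hκ
  have he0 : e0 = κ * absMom n := by rw [hκ, div_mul_cancel₀ _ habs.ne']
  have hκ1 : 1 - δ ≤ κ := by rw [hκ, le_div_iff₀ habs]; exact he1
  have hκ2 : κ ≤ 1 := by rw [hκ, div_le_one habs]; exact he2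
  have hκ0 : 0 < κ := by linarith
  obtain ⟨-, hγ2⟩ := gamma_bound hδ hδ1 hκ1
  have hII := second_use Λ hn hcl hA hdet hβ hiso hm0' hκ0 he0 he hF1 hF
  refine ⟨A, m, Q, hnorm, hdet, hm1, hmb, hQ0, hQ3, ?_, fun η hη hη1 => ?_⟩
  · refine le_trans ?_ hII
    refine mul_le_mul_of_nonneg_left (pow_le_pow_left₀ (le_max_left _ _) (max_le_max le_rfl ?_) n)
      (kap_pos n).le
    set a := 1 - 1 / (2 * (1 - δ)) with ha
    have ha0 : 0 < a := by linarith
    have hGnn : 0 ≤ 1 / (2 * κ * a) := by positivity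
    have hκm : 0 < κ * m := mul_pos hκ0 hm0'
    have h1 : Q / (2 * (κ * m)) ≤ 1 / (2 * κ * a) * ((m - 1 + δ) / m) := by
      have e : ((m - 1 + δ) / a) / (2 * (κ * m)) = 1 / (2 * κ * a) * ((m - 1 + δ) / m) := by
        field_simp
      rw [← e]
      exact div_le_div_of_nonneg_right ((le_div_iff₀ ha0).2 hIa) (by linarith)
    have h2 : (m - 1 + δ) / m = 1 - (1 - δ) / m := by field_simp; ring
    have h3 : 0 ≤ (m - 1 + δ) / m := div_nonneg (by linarith) hm0'.le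
    have h4 : 1 / (2 * κ * a) * ((m - 1 + δ) / m) ≤ (1 + 4 * δ) * ((m - 1 + δ) / m) :=
      mul_le_mul_of_nonneg_right hγ2 h3
    have h5 : 0 ≤ (1 - δ) / m := div_nonneg (by linarith) hm0'.le
    have h6 : (1 - κ) * m ≤ δ * b := mul_le_mul (by linarith) hmb hm0'.le hδ.le
    rw [h2] at h1 h4
    have h7 := h1.trans h4
    have h8 : (1 + 4 * δ) * (1 - (1 - δ) / m) ≤ 1 + 4 * δ - (1 - δ) / m := by
      have : 0 ≤ δ * ((1 - δ) / m) := mul_nonneg hδ.le h5
      linarith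
    linarith
  · have h := hWl η hη hη1 B N ε (Real.exp r * ((n : ℝ) ^ 2 * Λ.L (fun y => ‖y‖))) α hε0.le hC
    rw [mul_comm, ← Λ.smul' _ (by fun_prop)]
    refine le_trans ?_ (hfirst.trans (by linarith))
    refine Λ.mono _ _ (by fun_prop) (continuous_hT hn2 (continuous_fld _)) fun y => ?_
    have hεC : ε * (Real.exp r * ((n : ℝ) ^ 2 * Λ.L (fun y => ‖y‖))) ≤ δ :=
      le_trans (mul_le_mul_of_nonneg_left (by linarith [Real.exp_pos r]) hε0.le) hεb
    refine le_trans ?_ ((h (A y)).trans ?_)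
    · rw [mul_comm]
      exact mul_le_mul_of_nonneg_left (by linarith) (norm_nonneg _)
    · refine hT_le hn2 fun θ hθ => ?_
      rw [hA, ← fld_act]
      exact le_hT (continuous_fld _) y hθ

theorem core_ineq_of_claim (hn : 4 ≤ n) (hcl : ClaimProp n) (Λ : Lam n) :
    kap n ≤ (volume Λ.body).toReal := by
  obtain ⟨b, δ₀, W, hb, hδ₀, hW, hstep⟩ := core_step hn hcl Λ
  have hlim : Tendsto (fun δ : ℝ => kap n * (max 0 (1 - (6 + b) * δ)) ^ n) (𝓝[>] 0) (𝓝 (kap n)) := by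
    have h : Continuous fun δ : ℝ => kap n * (max 0 (1 - (6 + b) * δ)) ^ n := by fun_prop
    have h' := (h.tendsto 0).mono_left (nhdsWithin_le_nhds (s := Ioi 0))
    simpa using h'
  refine le_of_tendsto hlim ?_
  filter_upwards [self_mem_nhdsWithin, nhdsWithin_le_nhds (eventually_le_nhds hδ₀),
    nhdsWithin_le_nhds (eventually_le_nhds (show (0 : ℝ) < 1 / 2 by norm_num))] with δ hδ hδ' hδ2
  obtain ⟨A, m, Q, -, -, hm1, -, -, -, hvol, -⟩ := hstep δ hδ hδ'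
  refine le_trans ?_ hvol
  refine mul_le_mul_of_nonneg_left (pow_le_pow_left₀ (le_max_left _ _) (max_le_max le_rfl ?_) n)
    (kap_pos n).le
  have hδp : (0 : ℝ) < δ := hδ
  have hm0 : 0 < m := by linarith
  have h2 : 2 * (1 - δ) ≤ m + (1 - δ) / m := by
    rw [← sub_nonneg]
    have e : m + (1 - δ) / m - 2 * (1 - δ) = ((m - (1 - δ)) ^ 2 + (1 - δ) * δ) / m := by
      field_simp; ring
    rw [e]
    exact div_nonneg (add_nonneg (sq_nonneg _) (mul_nonneg (by linarith) hδp.le)) hm0.le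
  linarith

theorem core_eq_of_claim (hn : 4 ≤ n) (hcl : ClaimProp n) (Λ : Lam n) (h : (volume Λ.body).toReal ≤ kap n) :
    ∃ A : E n ≃ₗ[ℝ] E n, |LinearMap.det (A : E n →ₗ[ℝ] E n)| = 1 ∧
      Λ.L (fun y => ‖A y‖) ≤ 1 := by
  obtain ⟨b, δ₀, W, hb, hδ₀, hW, hstep⟩ := core_step hn hcl Λ
  set d : ℕ → ℝ := fun k => min δ₀ (1 / ((k : ℝ) + 2)) with hd
  have hd0 : ∀ k, 0 < d k := fun k => lt_min hδ₀ (by positivity)
  have hd1 : ∀ k, d k ≤ 1 / 2 := fun k =>
    (min_le_right _ _).trans (one_div_le_one_div_of_le two_pos (by linarith [(Nat.cast_nonneg k : (0 : ℝ) ≤ k)]))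
  have hdlim : Tendsto d atTop (𝓝 0) := by
    refine squeeze_zero (fun k => (hd0 k).le) (fun k => min_le_right _ _) ?_
    exact Tendsto.div_atTop tendsto_const_nhds (tendsto_atTop_add_const_right _ _ tendsto_natCast_atTop_atTop)
  choose A m Q hAn hdet hm1 hmb hQ0 hQ hvol hlow using fun k => hstep (d k) (hd0 k) (min_le_left _ _)
  have hsq : ∀ k, (m k - 1) ^ 2 ≤ d k + (4 + b) * d k * b := fun k => by
    have hm0 : 0 < m k := by linarith [hm1 k, hd1 k]
    have h1 : m k + (1 - d k) / m k - 1 - (4 + b) * d k ≤ 1 := by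
      by_contra hlt
      rw [not_le] at hlt
      have h2 := (hvol k).trans h
      rw [max_eq_right (by linarith)] at h2
      have h3 := one_lt_pow₀ hlt (show n ≠ 0 by omega)
      nlinarith [kap_pos n]
    have h4 : m k ^ 2 + (1 - d k) - 2 * m k ≤ (4 + b) * d k * m k := by
      have e : m k + (1 - d k) / m k - 1 - (4 + b) * d k - 1
          = (m k ^ 2 + (1 - d k) - 2 * m k - (4 + b) * d k * m k) / m k := by field_simp; ring
      have h5 : (m k ^ 2 + (1 - d k) - 2 * m k - (4 + b) * d k * m k) / m k ≤ 0 := by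
        rw [← e]; linarith
      rw [div_le_iff₀ hm0, zero_mul] at h5
      linarith
    nlinarith [mul_le_mul_of_nonneg_left (hmb k) (mul_nonneg (by linarith : (0 : ℝ) ≤ 4 + b) (hd0 k).le)]
  have hmlim : Tendsto m atTop (𝓝 1) := by
    rw [tendsto_iff_norm_sub_tendsto_zero]
    refine squeeze_zero (fun k => norm_nonneg _) (fun k => ?_)
      (by simpa using ((hdlim.add ((hdlim.const_mul (4 + b)).mul_const b)).sqrt))
    rw [Real.norm_eq_abs, ← Real.sqrt_sq_eq_abs]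
    exact Real.sqrt_le_sqrt (hsq k)
  have hQlim : Tendsto Q atTop (𝓝 0) := by
    refine squeeze_zero hQ0 hQ ?_
    simpa using (((hmlim.sub_const 1).add hdlim).const_mul 3)
  obtain ⟨Al, -, φ, hφ, hAl⟩ := (isCompact_closedBall (0 : E n →L[ℝ] E n) b).tendsto_subseq
    (fun k => mem_closedBall_zero_iff.2 (hAn k))
  have hdetl : LinearMap.det Al.toLinearMap = 1 := by
    have h1 : Tendsto (fun k => (A (φ k)).det) atTop (𝓝 Al.det) :=
      (ContinuousLinearMap.continuous_det.tendsto Al).comp hAl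
    exact tendsto_nhds_unique h1 (tendsto_const_nhds.congr fun k => (hdet (φ k)).symm)
  refine ⟨LinearMap.equivOfDetNeZero Al.toLinearMap (by rw [hdetl]; exact one_ne_zero),
    by rw [show ((LinearMap.equivOfDetNeZero Al.toLinearMap _ : E n ≃ₗ[ℝ] E n) : E n →ₗ[ℝ] E n)
      = Al.toLinearMap from rfl, hdetl, abs_one], ?_⟩
  change Λ.L (fun y => ‖Al y‖) ≤ 1
  set S₀ := Λ.L (fun y => ‖y‖) with hS
  have hcontL : Tendsto (fun k => Λ.L (fun y => ‖A (φ k) y‖)) atTop (𝓝 (Λ.L (fun y => ‖Al y‖))) := by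
    rw [tendsto_iff_norm_sub_tendsto_zero]
    have hl : Tendsto (fun k => ‖A (φ k) - Al‖ * S₀) atTop (𝓝 0) := by
      simpa using (tendsto_iff_norm_sub_tendsto_zero.1 hAl).mul_const S₀
    refine squeeze_zero (fun k => norm_nonneg _) (fun k => ?_) hl
    have key : ∀ X Y : E n →L[ℝ] E n,
        Λ.L (fun y => ‖X y‖) ≤ Λ.L (fun y => ‖Y y‖) + ‖X - Y‖ * S₀ := fun X Y => by
      rw [hS, ← Λ.smul' _ continuous_norm, ← Λ.add' (by fun_prop) (by fun_prop)]
      refine Λ.mono _ _ (by fun_prop) (by fun_prop) fun y => ?_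
      have h1 := (X - Y).le_opNorm y
      have h2 := norm_le_norm_add_norm_sub' (X y) (Y y)
      rw [ContinuousLinearMap.sub_apply] at h1
      linarith
    rw [Real.norm_eq_abs, abs_le]
    have k1 := key (A (φ k)) Al
    have k2 := key Al (A (φ k))
    rw [norm_sub_rev] at k2
    constructor <;> linarith
  have hη : ∀ η, 0 < η → η < 1 → Λ.L (fun y => ‖Al y‖) * (1 - η) ≤ 1 := fun η hη hη1 => by
    set w := W η
    have hwl := fun k => hlow k η hη hη1
    have hsl : Tendsto (fun k => √(Q (φ k)) / w) atTop (𝓝 0) := by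
      simpa using ((hQlim.comp hφ.tendsto_atTop).sqrt).div_const w
    have hl : Tendsto (fun k => Λ.L (fun y => ‖A (φ k) y‖) * (1 - η - d (φ k) - √(Q (φ k)) / w))
        atTop (𝓝 (Λ.L (fun y => ‖Al y‖) * (1 - η))) := by
      simpa using hcontL.mul
        (((tendsto_const_nhds (x := 1 - η)).sub (hdlim.comp hφ.tendsto_atTop)).sub hsl)
    exact le_of_tendsto_of_tendsto' hl (hmlim.comp hφ.tendsto_atTop) fun k => hwl (φ k)
  have hlim2 : Tendsto (fun η : ℝ => Λ.L (fun y => ‖Al y‖) * (1 - η)) (𝓝[>] 0)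
      (𝓝 (Λ.L (fun y => ‖Al y‖))) := by
    have h' : Continuous fun η : ℝ => Λ.L (fun y => ‖Al y‖) * (1 - η) := by fun_prop
    simpa using (h'.tendsto 0).mono_left (nhdsWithin_le_nhds (s := Ioi 0))
  refine le_of_tendsto hlim2 ?_
  filter_upwards [self_mem_nhdsWithin, nhdsWithin_le_nhds (eventually_lt_nhds (zero_lt_one' ℝ))]
    with η h1 h2 using hη η h1 h2

/-- The inequality from a certificate. -/
theorem core_ineq (hn : 4 ≤ n) (cert : Cert n) (Λ : Lam n) :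
    kap n ≤ (volume Λ.body).toReal :=
  core_ineq_of_claim hn (claimProp_of_cert hn cert) Λ

/-- The equality case from a certificate. -/
theorem core_eq (hn : 4 ≤ n) (cert : Cert n) (Λ : Lam n) (h : (volume Λ.body).toReal ≤ kap n) :
    ∃ A : E n ≃ₗ[ℝ] E n, |LinearMap.det (A : E n →ₗ[ℝ] E n)| = 1 ∧
      Λ.L (fun y => ‖A y‖) ≤ 1 :=
  core_eq_of_claim hn (claimProp_of_cert hn cert) Λ h

end Vale.Agent.P237H
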