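import Vale.Agent.P237H.Basic

/-!
# Exponentials of symmetric traceless maps
-/

namespace Vale.Agent.P237H

open MeasureTheory Set Metric Filter Topology
open scoped RealInnerProductSpace

variable {n : ℕ}

/-- Square matrices. -/
abbrev Mat (n : ℕ) : Type := Fin n → Fin n → ℝ

/-- Squared Frobenius norm. -/
def frob (R : Mat n) : ℝ := ∑ i, ∑ j, R i j ^ 2

/-- Symmetric traceless part. -/
noncomputable def symTL (R : Mat n) : Mat n :=
  fun i j => (R i j + R j i) / 2 - if i = j then (∑ k, R k k) / n else 0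

/-- The linear map of a matrix. -/
noncomputable def toCLM (R : Mat n) : E n →L[ℝ] E n :=
  ∑ i, ∑ j, R i j • (EuclideanSpace.proj j).smulRight (bv i)

lemma toCLM_apply (R : Mat n) (x : E n) :
    toCLM R x = ∑ i, (∑ j, R i j * x j) • bv i := by
  simp [toCLM, Finset.sum_smul, smul_smul]

lemma mat_inner_bv (i : Fin n) (x : E n) : ⟪bv i, x⟫ = x i := by
  simp [bv, EuclideanSpace.inner_single_left]

lemma mat_sum_bv (x : E n) : ∑ k, x k • bv k = x := by
  simpa [bv] using (EuclideanSpace.basisFun (Fin n) ℝ).sum_repr x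

lemma inner_toCLM_bv (R : Mat n) (i j : Fin n) : ⟪bv i, toCLM R (bv j)⟫ = R i j := by
  rw [mat_inner_bv, toCLM_apply]
  simp [bv, Finset.sum_apply, Pi.single_apply]

lemma toCLM_symm {R : Mat n} (hR : ∀ i j, R i j = R j i) (x y : E n) :
    ⟪toCLM R x, y⟫ = ⟪x, toCLM R y⟫ := by
  rw [toCLM_apply, toCLM_apply, sum_inner, inner_sum]
  simp only [real_inner_smul_left, real_inner_smul_right, mat_inner_bv, real_inner_comm (bv _) x,
    Finset.sum_mul]
  rw [Finset.sum_comm]
  exact Finset.sum_congr rfl fun i _ => Finset.sum_congr rfl fun j _ => by rw [hR j i]; ring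

lemma continuous_toCLM : Continuous (toCLM : Mat n → E n →L[ℝ] E n) :=
  continuous_finsetSum _ fun i _ => continuous_finsetSum _ fun j _ =>
    ((continuous_apply_apply i j : Continuous fun R : Mat n => R i j)).smul continuous_const

lemma continuous_symTL : Continuous (symTL : Mat n → Mat n) :=
  continuous_pi fun i => continuous_pi fun j => by
    by_cases h : i = j <;> simp only [symTL, h, if_true, if_false] <;> fun_prop

lemma continuous_frob : Continuous (frob : Mat n → ℝ) := by
  unfold frob; fun_prop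

lemma symTL_symm (R : Mat n) (i j : Fin n) : symTL R i j = symTL R j i := by
  rcases eq_or_ne i j with h | h
  · rw [h]
  · simp [symTL, h, h.symm, add_comm]

lemma symTL_trace (hn : 2 ≤ n) (R : Mat n) : ∑ k, symTL R k k = 0 := by
  have : (n : ℝ) ≠ 0 := Nat.cast_ne_zero.2 (by omega)
  simp only [symTL, if_true, add_self_div_two, Finset.sum_sub_distrib, Finset.sum_const,
    Finset.card_univ, Fintype.card_fin, nsmul_eq_mul]
  field_simp
  ring

lemma symTL_eq_self {R : Mat n} (hs : ∀ i j, R i j = R j i) (ht : ∑ k, R k k = 0) : symTL R = R := by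
  funext i j
  simp [symTL, ht, ← hs i j]

lemma symTL_smul (c : ℝ) (R : Mat n) : symTL (c • R) = c • symTL R := by
  funext i j
  simp only [symTL, Pi.smul_apply, smul_eq_mul, ← Finset.mul_sum]
  split_ifs <;> ring

lemma frob_nonneg (R : Mat n) : 0 ≤ frob R :=
  Finset.sum_nonneg fun i _ => Finset.sum_nonneg fun j _ => sq_nonneg _

lemma frob_smul (c : ℝ) (R : Mat n) : frob (c • R) = c ^ 2 * frob R := by
  simp [frob, mul_pow, Finset.mul_sum]

lemma frob_eq_zero {R : Mat n} (h : frob R = 0) : R = 0 := by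
  funext i j
  have h1 := (Finset.sum_eq_zero_iff_of_nonneg fun i _ => Finset.sum_nonneg fun j _ =>
    sq_nonneg (R i j)).1 h i (Finset.mem_univ i)
  exact sq_eq_zero_iff.1 ((Finset.sum_eq_zero_iff_of_nonneg fun j _ =>
    sq_nonneg (R i j)).1 h1 j (Finset.mem_univ j))

lemma continuous_exp_clm : Continuous (NormedSpace.exp : (E n →L[ℝ] E n) → E n →L[ℝ] E n) := by
  letI : NormedAlgebra ℚ (E n →L[ℝ] E n) := NormedAlgebra.restrictScalars ℚ ℝ (E n →L[ℝ] E n)
  exact NormedSpace.exp_continuous

lemma sum_mul_symTL {R : Mat n} (hs : ∀ i j, R i j = R j i) (ht : ∑ k, R k k = 0) (P : Mat n) :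
    ∑ i, ∑ j, R i j * symTL P i j = ∑ i, ∑ j, R i j * P i j := by
  set t := (∑ k, P k k) / n with hdef
  have hsw : ∑ i, ∑ j, R i j * P j i = ∑ i, ∑ j, R i j * P i j := by
    rw [Finset.sum_comm]
    exact Finset.sum_congr rfl fun i _ => Finset.sum_congr rfl fun j _ => by rw [hs j i]
  have e : ∀ i j, R i j * symTL P i j
      = (R i j * P i j + R i j * P j i) / 2 - if i = j then R i i * t else 0 := fun i j => by
    simp only [symTL, ← hdef]
    split_ifs with h
    · subst h; ring
    · ring
  simp only [e, Finset.sum_sub_distrib, ← Finset.sum_div, Finset.sum_add_distrib, Finset.sum_ite_eq,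
    Finset.mem_univ, if_true, hsw, ← Finset.sum_mul, ht]
  ring

lemma frob_symTL_le (hn : 2 ≤ n) (R : Mat n) : frob (symTL R) ≤ frob R := by
  have hn0 : (0 : ℝ) < n := Nat.cast_pos.2 (by omega)
  set t := (∑ k, R k k) / n with ht
  set S : Mat n := fun i j => (R i j + R j i) / 2 with hS
  have h1 : frob (symTL R) = frob S - n * t ^ 2 := by
    have e : ∀ i j, symTL R i j ^ 2
        = S i j ^ 2 + if i = j then t ^ 2 - 2 * t * R i i else 0 := fun i j => by
      simp only [symTL, hS, ← ht]
      split_ifs with h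
      · subst h; ring
      · ring
    simp only [frob, e, Finset.sum_add_distrib, Finset.sum_ite_eq, Finset.mem_univ, if_true,
      Finset.sum_sub_distrib, ← Finset.mul_sum, Finset.sum_const, Finset.card_univ, Fintype.card_fin,
      nsmul_eq_mul]
    have : ∑ k, R k k = n * t := by rw [ht]; field_simp
    rw [this]; ring
  have h2 : frob S ≤ frob R := by
    have : ∑ i, ∑ j, S i j ^ 2 ≤ ∑ i, ∑ j, (R i j ^ 2 + R j i ^ 2) / 2 :=
      Finset.sum_le_sum fun i _ => Finset.sum_le_sum fun j _ => by
        simp only [hS]; nlinarith [sq_nonneg (R i j - R j i)]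
    simp only [← Finset.sum_div, Finset.sum_add_distrib] at this
    rw [Finset.sum_comm (f := fun i j => R j i ^ 2)] at this
    simp only [frob]
    linarith
  nlinarith [sq_nonneg t]

lemma exp_apply_eigen (T : E n →L[ℝ] E n) {v : E n} {r : ℝ} (h : T v = r • v) :
    NormedSpace.exp T v = Real.exp r • v := by
  have h1 : HasSum (fun k => ((k.factorial : ℝ)⁻¹ • T ^ k) v) (NormedSpace.exp T v) :=
    (NormedSpace.exp_series_hasSum_exp' (𝕂 := ℝ) T).mapL (ContinuousLinearMap.apply ℝ (E n) v)
  have hpow : ∀ k : ℕ, (T ^ k) v = r ^ k • v := fun k => by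
    induction k with
    | zero => simp
    | succ k ih =>
      rw [pow_succ, ContinuousLinearMap.mul_apply, h, map_smul, ih, smul_smul, pow_succ']
  have h2 : HasSum (fun k => ((k.factorial : ℝ)⁻¹ * r ^ k) • v) (Real.exp r • v) := by
    have h3 := NormedSpace.exp_series_hasSum_exp' (𝕂 := ℝ) r
    rw [← Real.exp_eq_exp_ℝ] at h3
    simpa using h3.smul_const v
  refine h1.unique ?_
  simpa [hpow, smul_smul] using h2

/-- Spectral data of the exponential of a symmetric traceless matrix. -/
lemma exp_spectral {R : Mat n} (hs : ∀ i j, R i j = R j i) (ht : ∑ k, R k k = 0) :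
    ∃ (v : OrthonormalBasis (Fin n) ℝ (E n)) (r : Fin n → ℝ),
      (∀ k, toCLM R (v k) = r k • v k) ∧ ∑ k, r k = 0 ∧ ∑ k, r k ^ 2 = frob R ∧
      (∀ k, NormedSpace.exp (toCLM R) (v k) = Real.exp (r k) • v k) ∧
      (∀ x y, ⟪NormedSpace.exp (toCLM R) x, y⟫ = ⟪x, NormedSpace.exp (toCLM R) y⟫) ∧
      LinearMap.det ((NormedSpace.exp (toCLM R)) : E n →L[ℝ] E n).toLinearMap = 1 ∧
      ∀ M : E n →ₗ[ℝ] E n,
        ∑ i, ∑ j, R i j * ⟪bv i, M (bv j)⟫ = ∑ k, r k * ⟪v k, M (v k)⟫ := by
  classical
  set T := toCLM R with hT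
  have hsym : (T : E n →ₗ[ℝ] E n).IsSymmetric := toCLM_symm hs
  have hfr : Module.finrank ℝ (E n) = n := finrank_euclideanSpace_fin
  set v := hsym.eigenvectorBasis hfr
  set r := hsym.eigenvalues hfr
  have hv : ∀ k, T (v k) = r k • v k := hsym.apply_eigenvectorBasis hfr
  have hev : ∀ k, NormedSpace.exp T (v k) = Real.exp (r k) • v k := fun k => exp_apply_eigen T (hv k)
  set bs := EuclideanSpace.basisFun (Fin n) ℝ
  have hbs : ∀ i, bs i = bv i := fun i => by simp [bs, bv]
  have hpair : ∀ M : E n →ₗ[ℝ] E n,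
      ∑ i, ∑ j, R i j * ⟪bv i, M (bv j)⟫ = ∑ k, r k * ⟪v k, M (v k)⟫ := by
    intro M
    have h1 := LinearMap.trace_eq_sum_inner ((T : E n →ₗ[ℝ] E n) ∘ₗ M) bs
    have h2 := LinearMap.trace_eq_sum_inner ((T : E n →ₗ[ℝ] E n) ∘ₗ M) v
    rw [h2] at h1
    simp only [LinearMap.comp_apply, ContinuousLinearMap.coe_coe, hbs] at h1
    calc ∑ i, ∑ j, R i j * ⟪bv i, M (bv j)⟫ = ∑ j, ⟪bv j, T (M (bv j))⟫ := by
          rw [Finset.sum_comm]
          refine Finset.sum_congr rfl fun j _ => ?_
          conv_rhs => rw [← mat_sum_bv (M (bv j)), map_sum, inner_sum]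
          refine Finset.sum_congr rfl fun i _ => ?_
          rw [map_smul, real_inner_smul_right, mat_inner_bv i, inner_toCLM_bv, hs j i]
          ring
      _ = ∑ k, ⟪v k, T (M (v k))⟫ := h1.symm
      _ = ∑ k, r k * ⟪v k, M (v k)⟫ := Finset.sum_congr rfl fun k _ => by
          rw [← toCLM_symm hs, ← hT, hv, real_inner_smul_left]
  refine ⟨v, r, hv, ?_, ?_, hev, ?_, ?_, hpair⟩
  · have h := hpair LinearMap.id
    simp only [LinearMap.id_apply, mat_inner_bv, real_inner_self_eq_norm_sq, v.orthonormal.1, one_pow,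
      mul_one] at h
    rw [← h, ← ht]
    refine Finset.sum_congr rfl fun i _ => ?_
    simp [bv]
  · have h := hpair (T : E n →ₗ[ℝ] E n)
    simp only [ContinuousLinearMap.coe_coe, hT, inner_toCLM_bv] at h
    simp only [hT] at hv
    simp only [hv, real_inner_smul_right, real_inner_self_eq_norm_sq, v.orthonormal.1, one_pow,
      mul_one, ← sq] at h
    exact h.symm
  · intro x y
    have hexp : ∀ z, NormedSpace.exp T z = ∑ k, ⟪v k, z⟫ • Real.exp (r k) • v k := fun z => by
      conv_lhs => rw [← v.sum_repr' z, map_sum]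
      exact Finset.sum_congr rfl fun k _ => by rw [map_smul, hev]
    rw [hexp x, hexp y, sum_inner, inner_sum]
    refine Finset.sum_congr rfl fun k _ => ?_
    simp only [real_inner_smul_left, real_inner_smul_right]
    rw [real_inner_comm (v k) x]
    ring
  · rw [← LinearMap.det_toMatrix v.toBasis]
    have : LinearMap.toMatrix v.toBasis v.toBasis (NormedSpace.exp T).toLinearMap
        = Matrix.diagonal fun k => Real.exp (r k) := by
      ext i j
      rw [LinearMap.toMatrix_apply, Matrix.diagonal_apply]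
      simp only [OrthonormalBasis.coe_toBasis, ContinuousLinearMap.coe_coe, hev,
        OrthonormalBasis.coe_toBasis_repr_apply, map_smul, PiLp.smul_apply, smul_eq_mul,
        OrthonormalBasis.repr_self, PiLp.single_apply]
      split_ifs with h <;> simp_all
    rw [this, Matrix.det_diagonal, ← Real.exp_sum]
    have h := hpair LinearMap.id
    simp only [LinearMap.id_apply, mat_inner_bv, real_inner_self_eq_norm_sq, v.orthonormal.1, one_pow,
      mul_one] at h
    rw [← h, Real.exp_eq_one_iff, ← ht]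
    refine Finset.sum_congr rfl fun i _ => ?_
    simp [bv]

end Vale.Agent.P237H
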