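import Vale.Agent.P237H.Kernel

/-!
# Elementary properties of functionals and of sup-support functions
-/

namespace Vale.Agent.P237H

open MeasureTheory Set Metric Vale.Agent.P237 Vale.Agent.P237R
open scoped RealInnerProductSpace NNReal Pointwise

variable {n : ℕ}

/-- `y ↦ max |⟪y, Θ θ⟫|` over the unit sphere. -/
noncomputable def hT (Θ : E n → E n) (y : E n) : ℝ :=
  sSup ((fun θ => |⟪y, Θ θ⟫|) '' sphere (0 : E n) 1)

lemma sphere_nonempty_E (hn : 2 ≤ n) : (sphere (0 : E n) 1).Nonempty := by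
  have : Nontrivial (E n) :=
    Module.nontrivial_of_finrank_pos (R := ℝ) (by rw [finrank_euclideanSpace_fin]; omega)
  exact NormedSpace.sphere_nonempty.2 zero_le_one

lemma le_hT {Θ : E n → E n} (hΘ : Continuous Θ) (y : E n) {θ : E n} (hθ : ‖θ‖ = 1) :
    |⟪y, Θ θ⟫| ≤ hT Θ y :=
  le_csSup ((isCompact_sphere 0 1).image (by fun_prop)).bddAbove
    ⟨θ, by simpa using hθ, rfl⟩

lemma hT_le (hn : 2 ≤ n) {Θ : E n → E n} {y : E n} {a : ℝ}
    (h : ∀ θ : E n, ‖θ‖ = 1 → |⟪y, Θ θ⟫| ≤ a) : hT Θ y ≤ a := by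
  refine csSup_le ((sphere_nonempty_E hn).image _) ?_
  rintro _ ⟨θ, hθ, rfl⟩
  exact h θ (by simpa using hθ)

lemma hT_nonneg (hn : 2 ≤ n) {Θ : E n → E n} (hΘ : Continuous Θ) (y : E n) : 0 ≤ hT Θ y := by
  obtain ⟨θ, hθ⟩ := sphere_nonempty_E hn
  exact (abs_nonneg _).trans (le_hT hΘ y (by simpa using hθ))

lemma exists_hT_le (hn : 2 ≤ n) {Θ : E n → E n} (hΘ : Continuous Θ) :
    ∃ C, 0 ≤ C ∧ ∀ y, hT Θ y ≤ C * ‖y‖ := by
  obtain ⟨C, hC⟩ := (isCompact_sphere (0 : E n) 1).exists_bound_of_continuousOn hΘ.continuousOn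
  refine ⟨max C 0, le_max_right _ _, fun y => hT_le hn fun θ hθ => ?_⟩
  refine (abs_real_inner_le_norm _ _).trans ?_
  rw [mul_comm]
  exact mul_le_mul_of_nonneg_right ((hC θ (by simpa using hθ)).trans (le_max_left _ _)) (norm_nonneg _)

lemma continuous_hT (hn : 2 ≤ n) {Θ : E n → E n} (hΘ : Continuous Θ) : Continuous (hT Θ) := by
  obtain ⟨C, hC0, hC⟩ := exists_hT_le hn hΘ
  refine (LipschitzWith.of_le_add_mul C.toNNReal fun x y => ?_).continuous
  rw [Real.coe_toNNReal C hC0, dist_eq_norm]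
  refine le_trans (hT_le hn fun θ hθ => ?_) (add_le_add_right (hC (x - y)) _)
  have h1 := le_hT hΘ y hθ
  have h2 := le_hT hΘ (x - y) hθ
  rw [inner_sub_left] at h2
  have := abs_add_le ⟪y, Θ θ⟫ (⟪x, Θ θ⟫ - ⟪y, Θ θ⟫)
  rw [add_sub_cancel] at this
  linarith

lemma hT_add_le (hn : 2 ≤ n) {Θ Ψ : E n → E n} (hΘ : Continuous Θ) (hΨ : Continuous Ψ) (y : E n) :
    hT (Θ + Ψ) y ≤ hT Θ y + hT Ψ y :=
  hT_le hn fun θ hθ => by
    rw [Pi.add_apply, inner_add_right]
    exact (abs_add_le _ _).trans (add_le_add (le_hT hΘ y hθ) (le_hT hΨ y hθ))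

namespace Lam

variable (Λ : Lam n)

lemma zero' : Λ.L (fun _ => 0) = 0 := by
  have h := Λ.smul 0 (fun _ : E n => (0 : ℝ)) continuous_const
  rw [zero_smul, zero_mul] at h
  exact h

lemma nonneg {f : E n → ℝ} (hf : Continuous f) (h : ∀ x, 0 ≤ f x) : 0 ≤ Λ.L f := by
  have := Λ.mono _ _ continuous_const hf h
  rwa [Λ.zero'] at this

lemma add' {f g : E n → ℝ} (hf : Continuous f) (hg : Continuous g) :
    Λ.L (fun x => f x + g x) = Λ.L f + Λ.L g := Λ.add f g hf hg

lemma smul' {f : E n → ℝ} (c : ℝ) (hf : Continuous f) : Λ.L (fun x => c * f x) = c * Λ.L f :=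
  Λ.smul c f hf

lemma le_mul_norm {f : E n → ℝ} (hf : Continuous f) {C : ℝ} (h : ∀ x, f x ≤ C * ‖x‖) :
    Λ.L f ≤ C * Λ.L (fun x => ‖x‖) := by
  rw [← Λ.smul' C continuous_norm]
  exact Λ.mono _ _ hf (by fun_prop) h

lemma abs_inner_nonneg (v : E n) : 0 ≤ Λ.L (fun y => |⟪v, y⟫|) :=
  Λ.nonneg (by fun_prop) fun _ => abs_nonneg _

lemma abs_inner_le (v : E n) : Λ.L (fun y => |⟪v, y⟫|) ≤ ‖v‖ * Λ.L (fun y => ‖y‖) :=
  Λ.le_mul_norm (by fun_prop) fun y => abs_real_inner_le_norm v y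

lemma zero_mem_body : (0 : E n) ∈ Λ.body := fun v => by simpa using Λ.abs_inner_nonneg v

lemma neg_mem_body {z : E n} (hz : z ∈ Λ.body) : -z ∈ Λ.body := fun v => by
  have h := hz (-v)
  simpa [inner_neg_left, inner_neg_right] using h

lemma isClosed_body : IsClosed Λ.body := by
  have : Λ.body = ⋂ v : E n, {z | absMom n * ⟪v, z⟫ ≤ Λ.L (fun y => |⟪v, y⟫|)} := by
    ext z; simp [Lam.body]
  rw [this]
  exact isClosed_iInter fun v => isClosed_le (by fun_prop) continuous_const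

lemma convex_body : Convex ℝ Λ.body := by
  intro x hx y hy a b ha hb hab v
  have h1 := mul_le_mul_of_nonneg_left (hx v) ha
  have h2 := mul_le_mul_of_nonneg_left (hy v) hb
  rw [inner_add_right, real_inner_smul_right, real_inner_smul_right]
  calc absMom n * (a * ⟪v, x⟫ + b * ⟪v, y⟫)
      = a * (absMom n * ⟪v, x⟫) + b * (absMom n * ⟪v, y⟫) := by ring
    _ ≤ _ := le_trans (add_le_add h1 h2) (le_of_eq (by rw [← add_mul, hab, one_mul]))

lemma norm_le_of_mem_body (hn : 2 ≤ n) {z : E n} (hz : z ∈ Λ.body) :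
    ‖z‖ ≤ Λ.L (fun y => ‖y‖) / absMom n := by
  have hc := absMom_pos hn
  rw [le_div_iff₀ hc]
  rcases eq_or_ne z 0 with h0 | h0
  · simpa [h0] using Λ.nonneg continuous_norm fun x => norm_nonneg x
  have h := (hz z).trans (Λ.abs_inner_le z)
  rw [real_inner_self_eq_norm_sq] at h
  have hp := norm_pos_iff.2 h0
  exact le_of_mul_le_mul_left (by nlinarith) hp

lemma compact_body' (hn : 2 ≤ n) : IsCompact Λ.body := by
  refine IsCompact.of_isClosed_subset (isCompact_closedBall 0 (Λ.L (fun y => ‖y‖) / absMom n))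
    Λ.isClosed_body fun z hz => ?_
  rw [mem_closedBall_zero_iff]
  exact Λ.norm_le_of_mem_body hn hz

/-- The functional sees every direction. -/
lemma abs_inner_pos (hn : 2 ≤ n) {v : E n} (hv : v ≠ 0) : 0 < Λ.L (fun y => |⟪v, y⟫|) := by
  rcases (Λ.abs_inner_nonneg v).lt_or_eq with h | h
  · exact h
  exfalso
  set S₀ := Λ.L (fun y => ‖y‖) with hS
  have hS0 : 0 ≤ S₀ := Λ.nonneg continuous_norm fun x => norm_nonneg x
  have hk := kap_pos n
  set r := 1 / (S₀ + 1) with hr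
  have hr0 : 0 < r := by positivity
  -- many disjoint balls along the direction
  have hvn := norm_pos_iff.2 hv
  obtain ⟨N, hN⟩ := exists_nat_gt (1 / r ^ n)
  set ctr : ℕ → E n := fun k => ((3 * r * k) / ‖v‖) • v with hctr
  set W := ⋃ k ∈ Finset.range N, closedBall (ctr k) r with hW
  have hN0 : 0 < N := by
    rcases Nat.eq_zero_or_pos N with h0 | h0
    · rw [h0, Nat.cast_zero] at hN
      have : 0 < 1 / r ^ n := by positivity
      linarith
    · exact h0
  have hWc : IsCompact W := (Finset.range N).isCompact_biUnion fun k _ => isCompact_closedBall _ _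
  have hdisj : ((Finset.range N : Finset ℕ) : Set ℕ).PairwiseDisjoint fun k => closedBall (ctr k) r := by
    intro i _ j _ hij
    refine closedBall_disjoint_closedBall ?_
    rw [dist_eq_norm, hctr]
    simp only [← sub_smul, norm_smul, Real.norm_eq_abs]
    rw [← sub_div, abs_div, abs_of_pos hvn, div_mul_cancel₀ _ hvn.ne', ← mul_sub, abs_mul,
      abs_of_pos (by positivity : (0 : ℝ) < 3 * r)]
    have : (1 : ℝ) ≤ |(i : ℝ) - j| := by
      rcases lt_or_gt_of_ne hij with h' | h'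
      · have : (i : ℝ) + 1 ≤ j := by exact_mod_cast h'
        rw [abs_of_nonpos (by linarith)]; linarith
      · have : (j : ℝ) + 1 ≤ i := by exact_mod_cast h'
        rw [abs_of_nonneg (by linarith)]; linarith
    nlinarith
  have hvol : (volume W).toReal = N * (kap n * r ^ n) := by
    rw [hW, measure_biUnion_finset hdisj fun k _ => measurableSet_closedBall,
      Finset.sum_congr rfl fun k _ => volume_closedBall_eq (ctr k) hr0.le, Finset.sum_const,
      Finset.card_range, nsmul_eq_mul, ENNReal.toReal_mul, ENNReal.toReal_natCast,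
      ENNReal.toReal_ofReal (by positivity)]
  have hle : (volume W).toReal ≤ kap n := by
    refine (Λ.mink W (fun y => (3 * r * N / ‖v‖) * |⟪v, y⟫| + r * ‖y‖) hWc
      ⟨ctr 0, Set.mem_biUnion (Finset.mem_range.2 hN0) (mem_closedBall_self hr0.le)⟩ (by fun_prop) ?_).trans ?_
    · intro x hx y
      obtain ⟨k, hk', hxk⟩ := Set.mem_iUnion₂.1 hx
      rw [mem_closedBall_iff_norm] at hxk
      rw [← sub_add_cancel x (ctr k), inner_add_right, add_comm ⟪y, x - ctr k⟫]
      refine add_le_add ?_ ((real_inner_le_norm _ _).trans (by nlinarith [norm_nonneg y]))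
      simp only [hctr]
      rw [real_inner_smul_right, real_inner_comm v y]
      refine (mul_le_mul_of_nonneg_left (le_abs_self _) (by positivity)).trans ?_
      gcongr
      exact (Finset.mem_range.1 hk').le
    · rw [Λ.add' (by fun_prop) (by fun_prop), Λ.smul' _ (by fun_prop), Λ.smul' r continuous_norm, ← h,
        mul_zero, zero_add]
      refine mul_le_of_le_one_right hk.le (pow_le_one₀ (by positivity) ?_)
      rw [hr, div_mul_eq_mul_div, one_mul, div_le_one (by positivity)]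
      linarith
  rw [hvol] at hle
  rw [div_lt_iff₀ (by positivity)] at hN
  nlinarith

/-- A uniform lower bound on the directions. -/
lemma exists_abs_inner_ge (hn : 2 ≤ n) :
    ∃ z₀, 0 < z₀ ∧ ∀ v : E n, z₀ * ‖v‖ ≤ Λ.L (fun y => |⟪v, y⟫|) := by
  set S₀ := Λ.L (fun y => ‖y‖) with hS
  have hsub : ∀ v w : E n, Λ.L (fun y => |⟪v, y⟫|) ≤ Λ.L (fun y => |⟪w, y⟫|) + ‖v - w‖ * S₀ := by
    intro v w
    rw [hS, ← Λ.smul' _ continuous_norm, ← Λ.add' (by fun_prop) (by fun_prop)]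
    refine Λ.mono _ _ (by fun_prop) (by fun_prop) fun y => ?_
    have h1 := abs_real_inner_le_norm (v - w) y
    have h2 := abs_add_le ⟪w, y⟫ ⟪v - w, y⟫
    rw [← inner_add_left, add_sub_cancel] at h2
    linarith
  have hS0 : 0 ≤ S₀ := Λ.nonneg continuous_norm fun x => norm_nonneg x
  have hcont : Continuous fun v : E n => Λ.L (fun y => |⟪v, y⟫|) :=
    (LipschitzWith.of_le_add_mul S₀.toNNReal fun v w => by
      rw [Real.coe_toNNReal S₀ hS0, dist_eq_norm]; linarith [hsub v w]).continuous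
  obtain ⟨v₀, hv₀, hmin⟩ :=
    (isCompact_sphere (0 : E n) 1).exists_isMinOn (sphere_nonempty_E hn) hcont.continuousOn
  refine ⟨Λ.L (fun y => |⟪v₀, y⟫|), Λ.abs_inner_pos hn (ne_zero_of_mem_unit_sphere ⟨v₀, hv₀⟩),
    fun v => ?_⟩
  rcases eq_or_ne v 0 with hv | hv
  · simpa [hv] using Λ.abs_inner_nonneg (0 : E n)
  have hp := norm_pos_iff.2 hv
  have h1 : Λ.L (fun y => |⟪v₀, y⟫|) ≤ Λ.L (fun y => |⟪‖v‖⁻¹ • v, y⟫|) :=
    hmin (show ‖v‖⁻¹ • v ∈ sphere (0 : E n) 1 by simp [norm_smul, hp.ne'])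
  have h2 : (fun y => |⟪‖v‖⁻¹ • v, y⟫|) = fun y => ‖v‖⁻¹ * |⟪v, y⟫| := by
    funext y; rw [real_inner_smul_left, abs_mul, abs_inv, abs_norm]
  rw [h2, Λ.smul' _ (by fun_prop)] at h1
  calc Λ.L (fun y => |⟪v₀, y⟫|) * ‖v‖ ≤ ‖v‖⁻¹ * Λ.L (fun y => |⟪v, y⟫|) * ‖v‖ :=
        mul_le_mul_of_nonneg_right h1 hp.le
    _ = _ := by field_simp

end Lam

end Vale.Agent.P237H
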