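import Vale.Agent.P237H.CoreFun

/-!
# The coupling set and the penalised maximiser
-/

namespace Vale.Agent.P237H

open MeasureTheory Set Metric Filter Topology Vale.Agent.P237 Vale.Agent.P237R
open scoped RealInnerProductSpace NNReal

variable {n N : ℕ}

/-- Coordinates: linear and higher odd harmonics. -/
abbrev Jdx (B : HBasis n) (N : ℕ) : Type := Fin n ⊕ Idx B N

/-- Coefficient families. -/
abbrev Var (B : HBasis n) (N : ℕ) : Type := Jdx B N → E n

variable {B : HBasis n}

/-- The basis functions. -/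
noncomputable def gfun (j : Jdx B N) (x : E n) : ℝ := Sum.elim (fun i => x i) (fun ι => B.fn ι x) j

/-- The field of a coefficient family. -/
noncomputable def fld (θ : Var B N) (x : E n) : E n := ∑ j, gfun j x • θ j

/-- Pairing of coefficient families. -/
noncomputable def pr (α θ : Var B N) : ℝ := ∑ j, ⟪α j, θ j⟫

/-- Penalty weights. -/
noncomputable def wt (ε : ℝ) (j : Jdx B N) : ℝ :=
  Sum.elim (fun _ => ε * n) (fun ι => rr n ((ι.1 : ℕ) + 1)) j

/-- The coefficients of the identity field. -/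
noncomputable def lin0 : Var B N := Sum.elim (fun i => bv i) (fun _ => 0)

/-- The penalised objective. -/
noncomputable def Phi (ε : ℝ) (α : Var B N) : ℝ :=
  2 * pr α lin0 - ∑ j, wt ε j * ‖α j‖ ^ 2

/-- Action of a linear map on values. -/
def act (A : E n →L[ℝ] E n) (β : Var B N) : Var B N := fun j => A (β j)

lemma rr_pos' (n : ℕ) : ∀ m, 0 < rr n (m + 1)
  | 0 => by rw [rr]; positivity
  | m + 1 => by rw [rr]; exact mul_pos (by positivity) (rr_pos' n m)

lemma rr_le_one' (n : ℕ) : ∀ m, rr n (m + 1) ≤ 1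
  | 0 => by
    rw [rr, div_le_one (by positivity)]
    linarith [(Nat.cast_nonneg n : (0 : ℝ) ≤ n)]
  | m + 1 => by
    rw [rr]
    refine mul_le_one₀ ?_ (rr_pos' n m).le (rr_le_one' n m)
    rw [div_le_one (by positivity)]
    linarith [(Nat.cast_nonneg n : (0 : ℝ) ≤ n)]

lemma wt_pos (hn : 2 ≤ n) {ε : ℝ} (hε : 0 < ε) (j : Jdx B N) : 0 < wt ε j := by
  rcases j with i | ι
  · exact mul_pos hε (Nat.cast_pos.2 (by omega))
  · exact rr_pos' _ _

lemma continuous_gfun (j : Jdx B N) : Continuous (gfun j) := by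
  rcases j with i | ι
  · exact (PiLp.continuous_apply 2 _ i)
  · exact (polyHom_smooth (B.harm _ ι.2).1).continuous

lemma continuous_fld (θ : Var B N) : Continuous (fld θ) :=
  continuous_finsetSum _ fun j _ => (continuous_gfun j).smul continuous_const

lemma fld_add (θ ψ : Var B N) : fld (θ + ψ) = fld θ + fld ψ := by
  funext x; simp [fld, smul_add, Finset.sum_add_distrib]

lemma fld_smul (c : ℝ) (θ : Var B N) : fld (c • θ) = fun x => c • fld θ x := by
  funext x; simp [fld, Finset.smul_sum, smul_comm c]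

lemma act_symm {A : E n →L[ℝ] E n} (hA : ∀ x y, ⟪A x, y⟫ = ⟪x, A y⟫) (α θ : Var B N) :
    pr (act A α) θ = pr α (act A θ) := Finset.sum_congr rfl fun j _ => hA _ _

lemma fld_act (A : E n →L[ℝ] E n) (θ : Var B N) (x : E n) : fld (act A θ) x = A (fld θ x) := by
  simp [fld, act, map_sum, map_smul]

/-- Maximisers over a compact set depend continuously on the parameter where they are unique. -/
lemma argmax_continuous {X Y : Type*} [TopologicalSpace X] [TopologicalSpace Y] {K : Set Y}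
    (hK : IsCompact K) (hne : K.Nonempty) {F : X × Y → ℝ} (hF : Continuous F) :
    ∃ sel : X → Y, (∀ x, sel x ∈ K) ∧ (∀ x, ∀ y ∈ K, F (x, y) ≤ F (x, sel x)) ∧
      ∀ x, (∀ a ∈ K, ∀ b ∈ K, (∀ y ∈ K, F (x, y) ≤ F (x, a)) → F (x, a) ≤ F (x, b) → b = a) →
        ContinuousAt sel x := by
  choose sel hsel hmax using fun x : X => hK.exists_isMaxOn (f := fun y => F (x, y)) hne
    ((hF.comp (continuous_const.prodMk continuous_id)).continuousOn)
  refine ⟨sel, hsel, fun x y hy => hmax x hy, fun x huniq => ?_⟩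
  refine hK.tendsto_nhds_of_unique_mapClusterPt (Eventually.of_forall hsel) fun b hb hcl => ?_
  refine huniq _ (hsel x) b hb (fun y hy => hmax x hy) (le_of_not_gt fun hlt => ?_)
  have hopen : IsOpen {p : X × Y | F p < F (p.1, sel x)} :=
    isOpen_lt hF (hF.comp (continuous_fst.prodMk continuous_const))
  obtain ⟨U, hU, W, hW, hUW⟩ := mem_nhds_prod_iff.1 (hopen.mem_nhds (show (x, b) ∈ {p : X × Y |
    F p < F (p.1, sel x)} from hlt))
  obtain ⟨x', hx', hx'U⟩ := ((mapClusterPt_iff_frequently.1 hcl W hW).and_eventually hU).exists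
  have h : F (x', sel x') < F (x', sel x) := hUW (Set.mk_mem_prod hx'U hx')
  exact absurd (hmax x' (hsel x)) (not_le.2 h)

variable (Λ : Lam n)

/-- The sublinear bound. -/
noncomputable def pfun (θ : Var B N) : ℝ := Λ.L (hT (fld θ))

/-- The coupling set. -/
def coup (B : HBasis n) (N : ℕ) : Set (Var B N) := {β | ∀ θ, pr β θ ≤ pfun Λ θ}

lemma pfun_nonneg (hn : 2 ≤ n) (θ : Var B N) : 0 ≤ pfun Λ θ :=
  Λ.nonneg (continuous_hT hn (continuous_fld θ)) fun y => hT_nonneg hn (continuous_fld θ) y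

lemma pfun_add (hn : 2 ≤ n) (θ ψ : Var B N) : pfun Λ (θ + ψ) ≤ pfun Λ θ + pfun Λ ψ := by
  unfold pfun
  rw [← Λ.add' (continuous_hT hn (continuous_fld θ)) (continuous_hT hn (continuous_fld ψ))]
  refine Λ.mono _ _ (continuous_hT hn (continuous_fld _))
    ((continuous_hT hn (continuous_fld θ)).add (continuous_hT hn (continuous_fld ψ))) fun y => ?_
  rw [fld_add]
  exact hT_add_le hn (continuous_fld θ) (continuous_fld ψ) y

lemma pfun_smul (hn : 2 ≤ n) {c : ℝ} (hc : 0 < c) (θ : Var B N) :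
    pfun Λ (c • θ) = c * pfun Λ θ := by
  unfold pfun
  rw [← Λ.smul' c (continuous_hT hn (continuous_fld θ))]
  congr 1
  funext y
  have hcf : Continuous fun x => c • fld θ x := (continuous_fld θ).const_smul c
  rw [fld_smul]
  refine le_antisymm (hT_le hn fun x hx => ?_) ?_
  · rw [real_inner_smul_right, abs_mul, abs_of_pos hc]
    exact mul_le_mul_of_nonneg_left (le_hT (continuous_fld θ) y hx) hc.le
  · rw [mul_comm, ← le_div_iff₀ hc]
    refine hT_le hn fun x hx => ?_
    have h := le_hT hcf y hx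
    rw [real_inner_smul_right, abs_mul, abs_of_pos hc] at h
    rw [le_div_iff₀ hc]; linarith

lemma continuous_pr_left (θ : Var B N) : Continuous fun α : Var B N => pr α θ :=
  continuous_finsetSum _ fun j _ => (continuous_apply j).inner continuous_const

lemma coup_norm_le (hn : 2 ≤ n) {β : Var B N} (hβ : β ∈ coup Λ B N) (j : Jdx B N) {C : ℝ}
    (hC0 : 0 ≤ C) (hC : ∀ x : E n, ‖x‖ = 1 → |gfun j x| ≤ C) :
    ‖β j‖ ≤ C * Λ.L (fun y => ‖y‖) := by
  classical
  have hS0 : 0 ≤ Λ.L (fun y => ‖y‖) := Λ.nonneg continuous_norm fun x => norm_nonneg x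
  rcases eq_or_ne (β j) 0 with h0 | h0
  · simpa [h0] using mul_nonneg hC0 hS0
  have h1 := hβ (Pi.single j (β j))
  have h2 : pr β (Pi.single j (β j)) = ‖β j‖ ^ 2 := by
    rw [pr, Finset.sum_eq_single j (fun k _ hk => by simp [hk])
      (fun h => absurd (Finset.mem_univ j) h), Pi.single_eq_same, real_inner_self_eq_norm_sq]
  have h3 : pfun Λ (Pi.single j (β j)) ≤ ‖β j‖ * (C * Λ.L (fun y => ‖y‖)) := by
    rw [← mul_assoc]
    refine Λ.le_mul_norm (continuous_hT hn (continuous_fld _)) fun y => hT_le hn fun x hx => ?_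
    have hfx : fld (Pi.single j (β j)) x = gfun j x • β j := by
      rw [fld, Finset.sum_eq_single j (fun k _ hk => by simp [hk])
        (fun h => absurd (Finset.mem_univ j) h), Pi.single_eq_same]
    rw [hfx, real_inner_smul_right, abs_mul]
    calc |gfun j x| * |⟪y, β j⟫| ≤ C * (‖y‖ * ‖β j‖) :=
          mul_le_mul (hC x hx) (abs_real_inner_le_norm _ _) (abs_nonneg _) hC0
      _ = _ := by ring
  have hp := norm_pos_iff.2 h0
  exact le_of_mul_le_mul_left (by nlinarith) hp

/-- The linear coordinates are bounded independently of the higher ones. -/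
lemma coup_linear_le (hn : 2 ≤ n) {β : Var B N} (hβ : β ∈ coup Λ B N) (i : Fin n) :
    ‖β (Sum.inl i)‖ ≤ Λ.L (fun y => ‖y‖) := by
  have := coup_norm_le Λ hn hβ (Sum.inl i) zero_le_one fun x hx => by
    simpa [gfun, hx] using (PiLp.norm_apply_le x i)
  simpa using this

lemma exists_coup_bound (hn : 2 ≤ n) : ∃ C, ∀ β ∈ coup Λ B N, ∀ j, ‖β j‖ ≤ C := by
  have hg : ∀ j : Jdx B N, ∃ C, 0 ≤ C ∧ ∀ x : E n, ‖x‖ = 1 → |gfun j x| ≤ C := by
    intro j
    obtain ⟨C, hC⟩ := (isCompact_sphere (0 : E n) 1).exists_bound_of_continuousOn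
      (continuous_gfun j).continuousOn
    exact ⟨max C 0, le_max_right _ _, fun x hx =>
      (hC x (by simpa using hx)).trans (le_max_left _ _)⟩
  choose C hC0 hC using hg
  have hS0 : 0 ≤ Λ.L (fun y => ‖y‖) := Λ.nonneg continuous_norm fun x => norm_nonneg x
  exact ⟨∑ j, C j * Λ.L (fun y => ‖y‖), fun β hβ j => (coup_norm_le Λ hn hβ j (hC0 j) (hC j)).trans
    (Finset.single_le_sum (fun k _ => mul_nonneg (hC0 k) hS0) (Finset.mem_univ j))⟩

lemma isCompact_coup (hn : 2 ≤ n) : IsCompact (coup Λ B N) := by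
  obtain ⟨C, hC⟩ := exists_coup_bound Λ hn (B := B) (N := N)
  have hcl : IsClosed (coup Λ B N) := by
    have : coup Λ B N = ⋂ θ, {β | pr β θ ≤ pfun Λ θ} := by ext β; simp [coup]
    rw [this]
    exact isClosed_iInter fun θ => isClosed_le (continuous_pr_left θ) continuous_const
  refine IsCompact.of_isClosed_subset (isCompact_univ_pi fun _ => isCompact_closedBall (0 : E n) C)
    hcl fun β hβ j _ => ?_
  simpa using hC β hβ j

lemma convex_coup : Convex ℝ (coup Λ B N) := by
  intro x hx y hy a b ha hb hab θ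
  have h1 := mul_le_mul_of_nonneg_left (hx θ) ha
  have h2 := mul_le_mul_of_nonneg_left (hy θ) hb
  have : pr (a • x + b • y) θ = a * pr x θ + b * pr y θ := by
    simp only [pr, Pi.add_apply, Pi.smul_apply, inner_add_left, real_inner_smul_left,
      Finset.sum_add_distrib, Finset.mul_sum]
  rw [this]
  calc a * pr x θ + b * pr y θ ≤ (a + b) * pfun Λ θ := by linarith
    _ = _ := by rw [hab, one_mul]

lemma zero_mem_coup (hn : 2 ≤ n) : (0 : Var B N) ∈ coup Λ B N := fun θ => by
  simpa [pr] using pfun_nonneg Λ hn θ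

/-- Supporting points of the coupling set. -/
lemma exists_coup_attain (hn : 2 ≤ n) (θ₀ : Var B N) :
    ∃ β ∈ coup Λ B N, pfun Λ θ₀ ≤ pr β θ₀ := by
  classical
  rcases eq_or_ne θ₀ 0 with h0 | h0
  · refine ⟨0, zero_mem_coup Λ hn, ?_⟩
    have h : pfun Λ ((2 : ℝ) • θ₀) = 2 * pfun Λ θ₀ := pfun_smul Λ hn two_pos θ₀
    rw [h0, smul_zero] at h
    simp only [pr, h0, Pi.zero_apply, inner_zero_left, Finset.sum_const_zero]
    linarith
  set f : Var B N →ₗ.[ℝ] ℝ := LinearPMap.mkSpanSingleton θ₀ (pfun Λ θ₀) h0 with hf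
  obtain ⟨g, hg1, hg2⟩ := exists_extension_of_le_sublinear f (pfun Λ)
    (fun c hc x => pfun_smul Λ hn hc x) (pfun_add Λ hn) (fun ⟨x, hx⟩ => by
      obtain ⟨c, rfl⟩ := Submodule.mem_span_singleton.1 (show x ∈ Submodule.span ℝ {θ₀} from hx)
      show f ⟨c • θ₀, hx⟩ ≤ pfun Λ (c • θ₀)
      rw [show f ⟨c • θ₀, hx⟩ = c • pfun Λ θ₀ from
        LinearPMap.mkSpanSingleton'_apply (σ := RingHom.id ℝ) _ _ _ c hx, smul_eq_mul]
      rcases lt_trichotomy c 0 with hc | hc | hc
      · have := pfun_nonneg Λ hn (c • θ₀)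
        have := mul_nonpos_of_nonpos_of_nonneg hc.le (pfun_nonneg Λ hn θ₀)
        linarith
      · subst hc
        rw [zero_mul]; exact pfun_nonneg Λ hn _
      · exact (pfun_smul Λ hn hc θ₀).ge)
  refine ⟨fun j => ∑ k, g (Pi.single j (bv k)) • bv k, fun θ => ?_, ?_⟩
  swap
  · have : g θ₀ = pfun Λ θ₀ := by
      have h := hg1 ⟨θ₀, Submodule.mem_span_singleton_self θ₀⟩
      exact h.trans (LinearPMap.mkSpanSingleton'_apply_self (σ := RingHom.id ℝ) _ _ _ _)
    rw [← this]
    exact le_of_eq (g_eq g θ₀)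
  · rw [← g_eq g θ]; exact hg2 θ
where
  g_eq (g : Var B N →ₗ[ℝ] ℝ) (θ : Var B N) :
      g θ = pr (fun j => ∑ k, g (Pi.single j (bv k)) • bv k) θ := by
    classical
    have hb : ∀ x : E n, ∑ k, x k • bv k = x := fun x => by
      simpa [bv] using (EuclideanSpace.basisFun (Fin n) ℝ).sum_repr x
    conv_lhs => rw [← Finset.univ_sum_single θ, map_sum]
    refine Finset.sum_congr rfl fun j _ => ?_
    conv_lhs => rw [← hb (θ j)]
    rw [show Pi.single (M := fun _ => E n) j (∑ k, θ j k • bv k)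
      = ∑ k, θ j k • Pi.single (M := fun _ => E n) j (bv k) from ?_, map_sum, sum_inner]
    · refine Finset.sum_congr rfl fun k _ => ?_
      rw [map_smul, real_inner_smul_left, smul_eq_mul, mul_comm]
      congr 1
      simp [bv, EuclideanSpace.inner_single_left]
    · ext i : 1
      rcases eq_or_ne i j with h | h
      · subst h; simp [Finset.sum_apply]
      · simp [h, Finset.sum_apply]

lemma continuous_Phi (ε : ℝ) : Continuous (Phi (B := B) (N := N) ε) :=
  ((continuous_pr_left _).const_mul 2).sub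
    (continuous_finsetSum _ fun j _ => ((continuous_apply j).norm.pow 2).const_mul _)

lemma Phi_mid (ε : ℝ) (x y : Var B N) :
    Phi ε ((1 / 2 : ℝ) • x + (1 / 2 : ℝ) • y)
      = (Phi ε x + Phi ε y) / 2 + (∑ j, wt ε j * ‖x j - y j‖ ^ 2) / 4 := by
  have h1 : ∀ j, ‖(1 / 2 : ℝ) • x j + (1 / 2 : ℝ) • y j‖ ^ 2
      = ‖x j‖ ^ 2 / 2 + ‖y j‖ ^ 2 / 2 - ‖x j - y j‖ ^ 2 / 4 := fun j => by
    rw [norm_add_sq_real, norm_smul, norm_smul, norm_sub_sq_real, real_inner_smul_left,
      real_inner_smul_right]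
    norm_num; ring
  simp only [Phi, pr, Pi.add_apply, Pi.smul_apply, inner_add_left, real_inner_smul_left, h1,
    Finset.sum_add_distrib, ← Finset.mul_sum, mul_sub, mul_add, ← mul_div_assoc,
    Finset.sum_sub_distrib, ← Finset.sum_div]
  ring

lemma Phi_line (ε : ℝ) (x y : Var B N) (t : ℝ) :
    Phi ε ((1 - t) • x + t • y) = Phi ε x
      + t * (2 * pr (y - x) (fun j => lin0 j - wt ε j • x j))
      - t ^ 2 * ∑ j, wt ε j * ‖y j - x j‖ ^ 2 := by
  have h1 : ∀ j, ‖(1 - t) • x j + t • y j‖ ^ 2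
      = ‖x j‖ ^ 2 + 2 * t * ⟪y j - x j, x j⟫ + t ^ 2 * ‖y j - x j‖ ^ 2 := fun j => by
    rw [show (1 - t) • x j + t • y j = x j + t • (y j - x j) by rw [smul_sub, sub_smul, one_smul]; abel,
      norm_add_sq_real, norm_smul, real_inner_smul_right, mul_pow, Real.norm_eq_abs, sq_abs,
      real_inner_comm (y j - x j) (x j)]
    ring
  simp only [Phi, pr, Pi.add_apply, Pi.sub_apply, Pi.smul_apply, inner_add_left, real_inner_smul_left,
    inner_sub_right, real_inner_smul_right, inner_sub_left, h1, Finset.sum_add_distrib, ← Finset.mul_sum,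
    Finset.sum_sub_distrib, mul_add]
  simp only [Finset.mul_sum, ← Finset.sum_sub_distrib, ← Finset.sum_add_distrib]
  refine Finset.sum_congr rfl fun j _ => ?_
  ring

lemma act_combo (A : E n →L[ℝ] E n) (a b : ℝ) (x y : Var B N) :
    act A (a • x + b • y) = a • act A x + b • act A y := by
  funext j; simp [act, map_add, map_smul]

lemma continuous_act_pair :
    Continuous fun p : (E n →L[ℝ] E n) × Var B N => act p.1 p.2 :=
  continuous_pi fun j => continuous_fst.clm_apply ((continuous_apply j).comp continuous_snd)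

lemma continuous_Phi_act (ε : ℝ) :
    Continuous fun p : (E n →L[ℝ] E n) × Var B N => Phi ε (act p.1 p.2) :=
  (continuous_Phi ε).comp continuous_act_pair

lemma unique_max (hn : 2 ≤ n) {ε : ℝ} (hε : 0 < ε) {A : E n →L[ℝ] E n} (hA : Function.Injective A)
    {x y : Var B N} (hx : x ∈ coup Λ B N) (hy : y ∈ coup Λ B N)
    (hmax : ∀ γ ∈ coup Λ B N, Phi ε (act A γ) ≤ Phi ε (act A x))
    (hxy : Phi ε (act A x) ≤ Phi ε (act A y)) : y = x := by
  have hmid := hmax _ (convex_coup Λ hx hy (by norm_num : (0 : ℝ) ≤ 1 / 2)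
    (by norm_num : (0 : ℝ) ≤ 1 / 2) (by norm_num))
  rw [act_combo, Phi_mid] at hmid
  have hnn : ∀ k ∈ (Finset.univ : Finset (Jdx B N)), 0 ≤ wt ε k * ‖act A x k - act A y k‖ ^ 2 :=
    fun k _ => mul_nonneg (wt_pos hn hε k).le (sq_nonneg _)
  have hsum : ∑ j, wt ε j * ‖act A x j - act A y j‖ ^ 2 ≤ 0 := by linarith
  funext j
  have hj := (Finset.sum_eq_zero_iff_of_nonneg hnn).1
    (le_antisymm hsum (Finset.sum_nonneg hnn)) j (Finset.mem_univ j)
  rw [mul_eq_zero, sq_eq_zero_iff, norm_sub_eq_zero_iff] at hj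
  rcases hj with h | h
  · exact absurd h (wt_pos hn hε j).ne'
  · exact hA h.symm

/-- A continuous choice of maximisers. -/
lemma exists_opt (hn : 2 ≤ n) {ε : ℝ} (hε : 0 < ε) :
    ∃ sel : (E n →L[ℝ] E n) → Var B N,
      (∀ A, sel A ∈ coup Λ B N) ∧
      (∀ A, ∀ β ∈ coup Λ B N, Phi ε (act A β) ≤ Phi ε (act A (sel A))) ∧
      ∀ A : E n →L[ℝ] E n, Function.Injective A → ContinuousAt sel A := by
  obtain ⟨sel, hsel, hmax, hcont⟩ := argmax_continuous (isCompact_coup Λ hn (B := B) (N := N))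
    ⟨0, zero_mem_coup Λ hn⟩ (continuous_Phi_act ε)
  exact ⟨sel, hsel, hmax, fun A hA =>
    hcont A fun x hx y hy hmx hxy => unique_max Λ hn hε hA hx hy hmx hxy⟩

/-- First order optimality. -/
lemma opt_first_order (hn : 2 ≤ n) {ε : ℝ} (hε : 0 < ε) {A : E n →L[ℝ] E n}
    (hA : ∀ x y, ⟪A x, y⟫ = ⟪x, A y⟫) {β : Var B N} (hβ : β ∈ coup Λ B N)
    (hmax : ∀ γ ∈ coup Λ B N, Phi ε (act A γ) ≤ Phi ε (act A β)) :
    pfun Λ (act A (fun j => lin0 j - wt ε j • act A β j))
      ≤ pr (act A β) (fun j => lin0 j - wt ε j • act A β j) := by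
  set Θ : Var B N := fun j => lin0 j - wt ε j • act A β j with hΘ
  obtain ⟨γ, hγ, hγp⟩ := exists_coup_attain Λ hn (act A Θ)
  rw [← act_symm hA γ Θ] at hγp
  refine hγp.trans ?_
  set d : Var B N := act A γ - act A β with hd
  set W := ∑ j, wt ε j * ‖act A γ j - act A β j‖ ^ 2 with hW
  have hW0 : 0 ≤ W := Finset.sum_nonneg fun k _ => mul_nonneg (wt_pos hn hε k).le (sq_nonneg _)
  have hsub : pr d Θ = pr (act A γ) Θ - pr (act A β) Θ := by
    simp [pr, hd, inner_sub_left, Finset.sum_sub_distrib]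
  by_contra hlt
  rw [not_le] at hlt
  have hpos : 0 < pr d Θ := by rw [hsub]; linarith
  set t := min 1 (pr d Θ / (W + 1)) with ht
  have ht0 : 0 < t := lt_min one_pos (by positivity)
  have ht1 : t ≤ 1 := min_le_left _ _
  have h := hmax _ (convex_coup Λ hβ hγ (sub_nonneg.2 ht1) ht0.le (sub_add_cancel 1 t))
  rw [act_combo, Phi_line] at h
  simp only [← hd, ← hW, ← hΘ] at h
  have h2 : t * (W + 1) ≤ pr d Θ := by
    rw [← le_div_iff₀ (by positivity)]; exact min_le_right _ _
  nlinarith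

end Vale.Agent.P237H
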