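import Vale.Agent.P237H.CoreOpt
import Vale.Agent.P237H.CoreExp
import Vale.Agent.P371G.Brouwer

/-!
# The position in which the linear part of the maximiser is isotropic
-/

namespace Vale.Agent.P237H

open MeasureTheory Set Metric Filter Topology Vale.Agent.P237 Vale.Agent.P237R
open scoped RealInnerProductSpace

variable {n N : ℕ} {B : HBasis n}

/-- The linear part of a coefficient family. -/
noncomputable def linM (α : Var B N) : E n →L[ℝ] E n :=
  (n : ℝ) • ∑ i : Fin n, (EuclideanSpace.proj i).smulRight (α (Sum.inl i))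

lemma linM_apply (α : Var B N) (x : E n) :
    linM α x = (n : ℝ) • ∑ i : Fin n, x i • α (Sum.inl i) := by
  simp [linM]

lemma linM_bv (α : Var B N) (i : Fin n) : linM α (bv i) = (n : ℝ) • α (Sum.inl i) := by
  simp [linM_apply, bv]

lemma linM_act (A : E n →L[ℝ] E n) (β : Var B N) (x : E n) : linM (act A β) x = A (linM β x) := by
  simp [linM_apply, act, map_sum, map_smul]

lemma pr_lin0 (α : Var B N) : pr α lin0 = ∑ i : Fin n, ⟪α (Sum.inl i), bv i⟫ := by
  simp [pr, lin0, Fintype.sum_sum_type]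

lemma sum_diag_linM (α : Var B N) : ∑ i : Fin n, ⟪bv i, linM α (bv i)⟫ = n * pr α lin0 := by
  simp only [linM_bv, real_inner_smul_right, pr_lin0, Finset.mul_sum, real_inner_comm (bv _)]

variable (Λ : Lam n)

lemma norm_linM_le (hn : 2 ≤ n) {β : Var B N} (hβ : β ∈ coup Λ B N) (x : E n) :
    ‖linM β x‖ ≤ (n : ℝ) ^ 2 * Λ.L (fun y => ‖y‖) * ‖x‖ := by
  rw [linM_apply, norm_smul, Real.norm_natCast]
  calc (n : ℝ) * ‖∑ i : Fin n, x i • β (Sum.inl i)‖
      ≤ n * ∑ _i : Fin n, ‖x‖ * Λ.L (fun y => ‖y‖) := by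
        refine mul_le_mul_of_nonneg_left ((norm_sum_le _ _).trans (Finset.sum_le_sum fun i _ => ?_))
          (Nat.cast_nonneg n)
        rw [norm_smul]
        exact mul_le_mul (PiLp.norm_apply_le x i) (coup_linear_le Λ hn hβ i) (norm_nonneg _) (norm_nonneg _)
    _ = _ := by simp; ring

/-- A small multiple of a rank-one linear field is a coupling. -/
lemma rankOne_mem_coup (hn : 2 ≤ n) {z₀ : ℝ} (hz : 0 ≤ z₀)
    (hz0 : ∀ v : E n, z₀ * ‖v‖ ≤ Λ.L (fun y => |⟪v, y⟫|)) {v : E n} (hv : ‖v‖ = 1) :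
    (Sum.elim (fun i => (z₀ / n * v i) • v) (fun _ => 0) : Var B N) ∈ coup Λ B N := by
  intro θ
  set u : E n := ∑ i : Fin n, v i • θ (Sum.inl i) with hu
  have hn0 : (0 : ℝ) < n := Nat.cast_pos.2 (by omega)
  have hpr : pr (Sum.elim (fun i => (z₀ / n * v i) • v) (fun _ => 0) : Var B N) θ
      = z₀ / n * ⟪v, u⟫ := by
    simp only [pr, Fintype.sum_sum_type, Sum.elim_inl, Sum.elim_inr, inner_zero_left, Finset.sum_const_zero,
      add_zero, hu, inner_sum, real_inner_smul_right, real_inner_smul_left, Finset.mul_sum]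
    exact Finset.sum_congr rfl fun i _ => by ring
  have hP := isProb_sphM hn
  have hint : ∀ f : E n → ℝ, Continuous f → Integrable f (sphM n) := fun f hf => integrable_sphM hn hf
  -- the average of the field against the linear form
  have havg : ∀ y : E n, |⟪y, u⟫| / n ≤ hT (fld θ) y := by
    intro y
    have hcf := continuous_fld θ
    have hval : ∫ x, ⟪v, x⟫ * ⟪y, fld θ x⟫ ∂sphM n = ⟪y, u⟫ / n := by
      have e : (fun x => ⟪v, x⟫ * ⟪y, fld θ x⟫)
          = fun x => ∑ j, ⟪y, θ j⟫ * (gfun j x * ⟪v, x⟫) := by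
        funext x
        simp only [fld, inner_sum, real_inner_smul_right, Finset.mul_sum]
        exact Finset.sum_congr rfl fun j _ => by ring
      have hi : ∀ j ∈ (Finset.univ : Finset (Jdx B N)),
          Integrable (fun x => ⟪y, θ j⟫ * (gfun j x * ⟪v, x⟫)) (sphM n) := fun j _ =>
        hint _ (continuous_const.mul ((continuous_gfun j).mul (continuous_const.inner continuous_id)))
      rw [e, integral_finsetSum _ hi, Fintype.sum_sum_type]
      have h1 : ∀ i : Fin n, ∫ x, ⟪y, θ (Sum.inl i)⟫ * (gfun (B := B) (N := N) (Sum.inl i) x * ⟪v, x⟫) ∂sphM n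
          = ⟪y, θ (Sum.inl i)⟫ * (v i / n) := fun i => by
        rw [integral_const_mul]
        congr 1
        have := sph_inner_inner hn (bv i) v
        simp only [mat_inner_bv] at this
        exact this
      have h2 : ∀ ι : Idx B N, ∫ x, ⟪y, θ (Sum.inr ι)⟫ * (gfun (Sum.inr ι) x * ⟪v, x⟫) ∂sphM n = 0 :=
        fun ι => by
          rw [integral_const_mul, mul_eq_zero]
          exact Or.inr (harm_linear_orth hn (by omega) (B.harm _ ι.2) v)
      simp only [h1, h2, Finset.sum_const_zero, add_zero, hu, inner_sum, real_inner_smul_right,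
        Finset.sum_div]
      exact Finset.sum_congr rfl fun i _ => by ring
    calc |⟪y, u⟫| / n = |∫ x, ⟪v, x⟫ * ⟪y, fld θ x⟫ ∂sphM n| := by
          rw [hval, abs_div, Nat.abs_cast]
      _ ≤ ∫ x, |⟪v, x⟫ * ⟪y, fld θ x⟫| ∂sphM n := abs_integral_le_integral_abs
      _ ≤ ∫ _x, hT (fld θ) y ∂sphM n := by
          refine integral_mono_ae (hint _ (by fun_prop)) (integrable_const _) ?_
          filter_upwards [sphM_ae_norm hn] with x hx
          rw [abs_mul]
          calc |⟪v, x⟫| * |⟪y, fld θ x⟫| ≤ 1 * hT (fld θ) y :=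
                mul_le_mul ((abs_real_inner_le_norm _ _).trans (by rw [hv, hx, one_mul]))
                  (le_hT hcf y hx) (abs_nonneg _) zero_le_one
            _ = hT (fld θ) y := one_mul _
      _ = _ := by simp
  rw [hpr]
  calc z₀ / n * ⟪v, u⟫ ≤ z₀ / n * ‖u‖ := by
        refine mul_le_mul_of_nonneg_left ((real_inner_le_norm _ _).trans ?_) (by positivity)
        rw [hv, one_mul]
    _ = (n : ℝ)⁻¹ * (z₀ * ‖u‖) := by ring
    _ ≤ (n : ℝ)⁻¹ * Λ.L (fun y => |⟪u, y⟫|) := mul_le_mul_of_nonneg_left (hz0 u) (by positivity)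
    _ = Λ.L (fun y => (n : ℝ)⁻¹ * |⟪u, y⟫|) := (Λ.smul' _ (by fun_prop)).symm
    _ ≤ pfun Λ θ := by
        refine Λ.mono _ _ (by fun_prop) (continuous_hT hn (continuous_fld θ)) fun y => ?_
        rw [real_inner_comm y u, inv_mul_eq_div]
        exact havg y

lemma mul_exp_neg_le {s : ℝ} : s * Real.exp (-s) ≤ 1 := by
  have h := Real.add_one_le_exp s
  rw [Real.exp_neg, ← div_eq_mul_inv, div_le_one (Real.exp_pos s)]
  linarith

/-- Far from the origin the linear part of a maximiser points outwards. -/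
lemma coercive (hn : 2 ≤ n) {ε z₀ r : ℝ} (hε : 0 < ε) (hz : 0 < z₀)
    (hz0 : ∀ v : E n, z₀ * ‖v‖ ≤ Λ.L (fun y => |⟪v, y⟫|))
    (hr : r = (2 * n * ((n : ℝ) ^ 2 * Λ.L (fun y => ‖y‖)) / z₀ + 1) * (n : ℝ) ^ 2)
    (hεle : ε ≤ 1 / (z₀ * Real.exp r)) {R : Mat n} (hs : ∀ i j, R i j = R j i)
    (ht : ∑ k, R k k = 0) (hfr : frob R = r ^ 2) {A : E n →L[ℝ] E n} {β : Var B N} {M : E n →L[ℝ] E n}
    (hM : M = linM (act A β)) (hAR : A = NormedSpace.exp (toCLM R)) (hβ : β ∈ coup Λ B N)
    (hmax : ∀ γ ∈ coup Λ B N, Phi ε (act A γ) ≤ Phi ε (act A β)) :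
    0 ≤ ∑ i, ∑ j, R i j * ⟪bv i, M (bv j)⟫ := by
  set S₀ := Λ.L (fun y => ‖y‖) with hS
  have hS0 : 0 ≤ S₀ := Λ.nonneg continuous_norm fun x => norm_nonneg x
  have hn0 : (0 : ℝ) < n := Nat.cast_pos.2 (by omega)
  set C := (n : ℝ) ^ 2 * S₀ with hC
  have hr0 : 0 < r := by rw [hr]; positivity
  obtain ⟨v, e, hTv, he0, he2, hev, hsymA, -, hpair⟩ := exp_spectral hs ht
  set α := act A β with hα
  have hp := hpair M.toLinearMap
  simp only [ContinuousLinearMap.coe_coe] at hp
  rw [hp]
  have hne' : (Finset.univ : Finset (Fin n)).Nonempty := ⟨⟨0, by omega⟩, Finset.mem_univ _⟩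
  obtain ⟨k₀, -, hk₀⟩ := Finset.exists_max_image Finset.univ e hne'
  set e1 := e k₀
  have hek : ∀ k, e k ≤ e1 := fun k => hk₀ k (Finset.mem_univ k)
  have he1 : 0 ≤ e1 := by
    by_contra h
    have h2 : ∑ k, e k < 0 := Finset.sum_neg (fun k _ => (hek k).trans_lt (not_le.1 h)) hne'
    linarith
  have hlow : ∀ k, -((n : ℝ) * e1) ≤ e k := fun k => by
    have h1 : ∑ j ∈ Finset.univ.erase k, e j ≤ (n : ℝ) * e1 := by
      refine (Finset.sum_le_card_nsmul _ _ e1 fun j _ => hek j).trans ?_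
      rw [nsmul_eq_mul]
      refine mul_le_mul_of_nonneg_right (Nat.cast_le.2 ?_) he1
      exact (Finset.card_le_univ _).trans_eq (Fintype.card_fin n)
    have h2 := Finset.add_sum_erase Finset.univ e (Finset.mem_univ k)
    linarith
  have he1r : e1 ≤ r := by
    have h1 : e1 ^ 2 ≤ r ^ 2 := by
      rw [← hfr, ← he2]; exact Finset.single_le_sum (fun k _ => sq_nonneg (e k)) (Finset.mem_univ k₀)
    exact (abs_le.1 (abs_le_of_sq_le_sq h1 hr0.le)).2
  have hr1 : r ≤ (n : ℝ) ^ 2 * e1 := by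
    have hnge : (1 : ℝ) ≤ n := Nat.one_le_cast.2 (by omega)
    have h1 : ∀ k, e k ^ 2 ≤ ((n : ℝ) * e1) ^ 2 := fun k =>
      sq_le_sq' (hlow k) ((hek k).trans (le_mul_of_one_le_left he1 hnge))
    have h2 : r ^ 2 ≤ n * ((n : ℝ) * e1) ^ 2 := by
      rw [← hfr, ← he2]
      refine (Finset.sum_le_card_nsmul _ _ _ fun k _ => h1 k).trans (le_of_eq ?_)
      simp
    have h3 : r ^ 2 ≤ ((n : ℝ) ^ 2 * e1) ^ 2 := by
      refine h2.trans ?_
      nlinarith [mul_nonneg (mul_nonneg (sq_nonneg (n : ℝ)) (sq_nonneg e1))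
        (mul_nonneg hn0.le (sub_nonneg.2 hnge))]
    exact pow_le_pow_iff_left₀ hr0.le (by positivity) two_ne_zero |>.1 h3
  have hA : ∀ k, A (v k) = Real.exp (e k) • v k := fun k => by rw [hAR]; exact hev k
  have hsym : ∀ x y, ⟪A x, y⟫ = ⟪x, A y⟫ := by rw [hAR]; exact hsymA
  have hMk : ∀ k, ⟪v k, M (v k)⟫ ≤ Real.exp (e k) * C := fun k => by
    rw [hM, hα, linM_act, ← hsym, hA, real_inner_smul_left]
    refine mul_le_mul_of_nonneg_left ?_ (Real.exp_pos _).le
    refine (real_inner_le_norm _ _).trans ?_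
    have := norm_linM_le Λ hn hβ (v k)
    rw [v.orthonormal.1 k, mul_one] at this
    rw [v.orthonormal.1 k, one_mul]
    exact this
  -- the trace is large
  set γ : Var B N := Sum.elim (fun i => (z₀ / n * v k₀ i) • v k₀) (fun _ => 0) with hγ
  have hγm : γ ∈ coup Λ B N := rankOne_mem_coup Λ hn hz.le hz0 (v.orthonormal.1 k₀)
  have hsum1 : ∑ i : Fin n, v k₀ i ^ 2 = 1 := by
    rw [← EuclideanSpace.real_norm_sq_eq, v.orthonormal.1 k₀, one_pow]
  have hlinγ : pr (act (A) γ) lin0 = z₀ / n * Real.exp e1 := by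
    rw [pr_lin0]
    simp only [act, hγ, Sum.elim_inl, map_smul, hA, real_inner_smul_left, real_inner_comm (bv _) (v k₀),
      mat_inner_bv]
    calc ∑ i : Fin n, z₀ / n * v k₀ i * (Real.exp e1 * v k₀ i)
        = z₀ / n * Real.exp e1 * ∑ i : Fin n, v k₀ i ^ 2 := by
          rw [Finset.mul_sum]; exact Finset.sum_congr rfl fun i _ => by ring
      _ = _ := by rw [hsum1, mul_one]
  have hquad : ∑ j, wt ε j * ‖act (A) γ j‖ ^ 2 = ε * n * (z₀ / n * Real.exp e1) ^ 2 := by
    rw [Fintype.sum_sum_type]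
    simp only [act, hγ, Sum.elim_inl, Sum.elim_inr, map_smul, map_zero, norm_zero, hA, norm_smul,
      v.orthonormal.1 k₀, mul_one, zero_pow two_ne_zero, mul_zero, Finset.sum_const_zero, add_zero,
      wt, Real.norm_eq_abs, mul_pow, sq_abs]
    calc ∑ i : Fin n, ε * n * ((z₀ / n) ^ 2 * v k₀ i ^ 2 * Real.exp e1 ^ 2)
        = ε * n * ((z₀ / n) ^ 2 * Real.exp e1 ^ 2) * ∑ i : Fin n, v k₀ i ^ 2 := by
          rw [Finset.mul_sum]; exact Finset.sum_congr rfl fun i _ => by ring
      _ = _ := by rw [hsum1, mul_one]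
  have htr : ∑ k, ⟪v k, M (v k)⟫ = n * pr α lin0 := by
    rw [← sum_diag_linM, ← hM]
    have h1 := LinearMap.trace_eq_sum_inner M.toLinearMap v
    have h2 := LinearMap.trace_eq_sum_inner M.toLinearMap (EuclideanSpace.basisFun (Fin n) ℝ)
    rw [h2] at h1
    simpa [bv] using h1.symm
  have hopt := hmax γ hγm
  simp only [Phi, ← hα, hlinγ, hquad] at hopt
  have hq0 : 0 ≤ ∑ j, wt ε j * ‖α j‖ ^ 2 :=
    Finset.sum_nonneg fun j _ => mul_nonneg (wt_pos hn hε j).le (sq_nonneg _)
  have hεe : ε * z₀ * Real.exp e1 ≤ 1 := by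
    rw [le_div_iff₀ (by positivity)] at hεle
    refine le_trans ?_ hεle
    rw [mul_assoc]
    exact mul_le_mul_of_nonneg_left (mul_le_mul_of_nonneg_left (Real.exp_le_exp.2 he1r) hz.le) hε.le
  have htr_low : z₀ * Real.exp e1 / 2 ≤ ∑ k, ⟪v k, M (v k)⟫ := by
    rw [htr]
    have hq1 : ε * n * (z₀ / n * Real.exp e1) ^ 2 ≤ z₀ / n * Real.exp e1 := by
      have : ε * n * (z₀ / n * Real.exp e1) ^ 2
          = (ε * z₀ * Real.exp e1) * (z₀ / n * Real.exp e1) := by field_simp
      rw [this]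
      exact mul_le_of_le_one_left (by positivity) hεe
    have h2 : z₀ / n * Real.exp e1 ≤ 2 * pr α lin0 := by linarith
    have h3 := mul_le_mul_of_nonneg_left h2 hn0.le
    have h4 : (n : ℝ) * (z₀ / n * Real.exp e1) = z₀ * Real.exp e1 := by field_simp
    linarith
  have hterm : ∀ k, -(C * Real.exp e1) ≤ (e k - e1) * ⟪v k, M (v k)⟫ := fun k => by
    have h1 : (e k - e1) * (Real.exp (e k) * C) ≤ (e k - e1) * ⟪v k, M (v k)⟫ :=
      mul_le_mul_of_nonpos_left (hMk k) (sub_nonpos.2 (hek k))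
    refine le_trans ?_ h1
    have h2 : (e1 - e k) * Real.exp (e k) ≤ Real.exp e1 := by
      have h3 := mul_le_mul_of_nonneg_right (mul_exp_neg_le (s := e1 - e k)) (Real.exp_pos e1).le
      rw [one_mul, mul_assoc, ← Real.exp_add, show -(e1 - e k) + e1 = e k by ring] at h3
      exact h3
    have hC0 : 0 ≤ C := by positivity
    nlinarith [mul_le_mul_of_nonneg_right h2 hC0]
  have hsplit : ∑ k, e k * ⟪v k, M (v k)⟫
      = e1 * ∑ k, ⟪v k, M (v k)⟫ + ∑ k, (e k - e1) * ⟪v k, M (v k)⟫ := by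
    rw [Finset.mul_sum, ← Finset.sum_add_distrib]
    exact Finset.sum_congr rfl fun k _ => by ring
  have hsum : -((n : ℝ) * (C * Real.exp e1)) ≤ ∑ k, (e k - e1) * ⟪v k, M (v k)⟫ := by
    refine le_trans (le_of_eq ?_) (Finset.sum_le_sum fun k _ => hterm k)
    simp
  have hbig : 2 * n * C / z₀ + 1 ≤ e1 := by
    rw [hr, mul_comm] at hr1
    exact le_of_mul_le_mul_left hr1 (by positivity)
  have h5 : 2 * n * C + z₀ ≤ e1 * z₀ := by
    have := mul_le_mul_of_nonneg_right hbig hz.le
    rwa [add_mul, one_mul, div_mul_cancel₀ _ hz.ne'] at this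
  have h6 := mul_le_mul_of_nonneg_left htr_low he1
  have h7 := Real.exp_pos e1
  nlinarith [mul_le_mul_of_nonneg_right h5 h7.le]

/-- Existence of the isotropic position for the penalised maximiser. -/
theorem exists_position (hn : 2 ≤ n) :
    ∃ r ε₀ : ℝ, 0 < ε₀ ∧ ∀ ε, 0 < ε → ε ≤ ε₀ → ∀ (B : HBasis n) (N : ℕ),
      ∃ (A : E n →L[ℝ] E n) (β : Var B N),
        (∀ x y, ⟪A x, y⟫ = ⟪x, A y⟫) ∧ LinearMap.det A.toLinearMap = 1 ∧
        (∀ x, ‖A x‖ ≤ Real.exp r * ‖x‖) ∧
        β ∈ coup Λ B N ∧ (∀ γ ∈ coup Λ B N, Phi ε (act A γ) ≤ Phi ε (act A β)) ∧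
        ∀ x, ⟪x, linM (act A β) x⟫ = pr (act A β) lin0 * ‖x‖ ^ 2 := by
  obtain ⟨z₀, hz, hz0⟩ := Λ.exists_abs_inner_ge hn
  set S₀ := Λ.L (fun y => ‖y‖) with hS
  have hS0 : 0 ≤ S₀ := Λ.nonneg continuous_norm fun x => norm_nonneg x
  have hn0 : (0 : ℝ) < n := Nat.cast_pos.2 (by omega)
  set C := (n : ℝ) ^ 2 * S₀ with hC
  set r := (2 * n * C / z₀ + 1) * (n : ℝ) ^ 2 with hr
  have hr0 : 0 < r := by positivity
  refine ⟨r, 1 / (z₀ * Real.exp r), by positivity, fun ε hε hεle B N => ?_⟩
  obtain ⟨sel, hsel, hmax, hcont⟩ := exists_opt Λ hn hε (B := B) (N := N)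
  set clamp : Mat n → Mat n := fun R => (r / max r √(frob R)) • R with hclamp
  set Ae : Mat n → E n →L[ℝ] E n := fun R => NormedSpace.exp (toCLM (symTL (clamp R))) with hAe
  set mat : (E n →L[ℝ] E n) → Mat n := fun M i j => ⟪bv i, M (bv j)⟫ with hmat
  set G : Mat n → Mat n := fun R => symTL (mat (linM (act (Ae R) (sel (Ae R))))) with hG
  have hclamp_cont : Continuous clamp :=
    (continuous_const.div (continuous_const.max continuous_frob.sqrt)
      fun R => (lt_max_of_lt_left hr0).ne').smul continuous_id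
  have hspec := fun R => exp_spectral (R := symTL (clamp R)) (symTL_symm _) (symTL_trace hn _)
  have hinj : ∀ R, Function.Injective (Ae R) := fun R => by
    obtain ⟨v, rr', -, -, -, -, -, hdet, -⟩ := hspec R
    have : LinearMap.det (Ae R).toLinearMap ≠ 0 := by rw [hAe]; simp only; rw [hdet]; exact one_ne_zero
    exact (LinearMap.equivOfDetNeZero _ this).injective
  have hAe_cont : Continuous Ae :=
    continuous_exp_clm.comp (continuous_toCLM.comp (continuous_symTL.comp hclamp_cont))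
  have hsel_cont : Continuous fun R => sel (Ae R) :=
    continuous_iff_continuousAt.2 fun R => (hcont _ (hinj R)).comp hAe_cont.continuousAt
  have hG_cont : Continuous G := by
    refine continuous_symTL.comp (continuous_pi fun i => continuous_pi fun j => ?_)
    have e : (fun R => mat (linM (act (Ae R) (sel (Ae R)))) i j)
        = fun R => (n : ℝ) * ⟪bv i, Ae R (sel (Ae R) (Sum.inl j))⟫ := by
      funext R
      simp [hmat, linM_bv, act, real_inner_smul_right]
    rw [e]
    exact continuous_const.mul (continuous_const.inner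
      (hAe_cont.clm_apply ((continuous_apply (Sum.inl j)).comp hsel_cont)))
  -- a zero of `G`
  obtain ⟨R, hR⟩ : ∃ R, G R = 0 := by
    by_contra hne
    rw [not_exists] at hne
    have hGpos : ∀ R, 0 < √(frob (G R)) := fun R =>
      Real.sqrt_pos.2 ((frob_nonneg _).lt_of_ne' fun h => hne R (frob_eq_zero h))
    set f : Mat n → Mat n := fun R => (-(r / √(frob (G R)))) • G R with hf
    have hfc : Continuous f :=
      ((continuous_const.div (continuous_frob.comp hG_cont).sqrt fun R => (hGpos R).ne').neg).smul hG_cont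
    have hfrob : ∀ R, frob (f R) = r ^ 2 := fun R => by
      rw [hf, frob_smul, neg_sq, div_pow, Real.sq_sqrt (frob_nonneg _)]
      exact div_mul_cancel₀ _ fun h => hne R (frob_eq_zero h)
    obtain ⟨R, hfix⟩ := Vale.Agent.P371G.brouwer_bounded hfc ⟨r, fun R => by
      refine (pi_norm_le_iff_of_nonneg hr0.le).2 fun i => (pi_norm_le_iff_of_nonneg hr0.le).2 fun j => ?_
      rw [Real.norm_eq_abs]
      refine abs_le_of_sq_le_sq ?_ hr0.le
      rw [← hfrob R]
      exact le_trans (Finset.single_le_sum (fun k _ => sq_nonneg (f R i k)) (Finset.mem_univ j))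
        (Finset.single_le_sum (f := fun l => ∑ k, f R l k ^ 2)
          (fun l _ => Finset.sum_nonneg fun k _ => sq_nonneg _) (Finset.mem_univ i))⟩
    have hfr : frob R = r ^ 2 := by rw [← hfix]; exact hfrob R
    have hcl : clamp R = R := by
      simp only [hclamp, hfr, Real.sqrt_sq hr0.le, max_self, div_self hr0.ne', one_smul]
    have hsymG : symTL (G R) = G R := symTL_eq_self (symTL_symm _) (symTL_trace hn _)
    have hstl : symTL R = R := by
      rw [← hfix, hf, symTL_smul, hsymG]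
    have hs : ∀ i j, R i j = R j i := fun i j => by rw [← hstl]; exact symTL_symm _ i j
    have ht : ∑ k, R k k = 0 := by rw [← hstl]; exact symTL_trace hn _
    have hAR : Ae R = NormedSpace.exp (toCLM R) := by simp only [hAe, hcl, hstl]
    set α := act (Ae R) (sel (Ae R)) with hα
    set M := linM α with hM
    -- the fixed point pairs negatively with the field
    have hneg : ∑ i, ∑ j, R i j * ⟪bv i, M (bv j)⟫ < 0 := by
      have e1 : ∑ i, ∑ j, R i j * G R i j = ∑ i, ∑ j, R i j * mat M i j := sum_mul_symTL hs ht _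
      have e2 : ∑ i, ∑ j, R i j * G R i j = -(r * √(frob (G R))) := by
        have hRG : ∀ i j, R i j = -(r / √(frob (G R))) * G R i j := fun i j => by
          conv_lhs => rw [← hfix]
          rfl
        calc ∑ i, ∑ j, R i j * G R i j = -(r / √(frob (G R))) * frob (G R) := by
              generalize hw : -(r / √(frob (G R))) = w at hRG ⊢
              simp only [frob, Finset.mul_sum]
              exact Finset.sum_congr rfl fun i _ => Finset.sum_congr rfl fun j _ => by
                rw [hRG i j]; ring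
          _ = _ := by
              have h1 := Real.mul_self_sqrt (frob_nonneg (G R))
              have h2 := (hGpos R).ne'
              rw [neg_mul, neg_inj]
              field_simp
              nlinarith
      have h3 : ∑ i, ∑ j, R i j * ⟪bv i, M (bv j)⟫ = -(r * √(frob (G R))) := by
        rw [← e2, e1]
      rw [h3]
      have := mul_pos hr0 (hGpos R)
      linarith
    exact absurd hneg (not_lt.2 (coercive Λ hn hε hz hz0 hr hεle hs ht hfr rfl hAR
      (hsel (Ae R)) (hmax (Ae R))))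
  obtain ⟨v, e, -, -, he2, hev, hsymA, hdet, -⟩ := hspec R
  refine ⟨Ae R, sel (Ae R), hsymA, hdet, fun x => ?_, hsel _, fun γ hγ => hmax _ γ hγ, fun x => ?_⟩
  · have hb : ∀ k, Real.exp (e k) ≤ Real.exp r := fun k => by
      refine Real.exp_le_exp.2 (le_trans (le_abs_self _) (abs_le_of_sq_le_sq ?_ hr0.le))
      refine (Finset.single_le_sum (fun k _ => sq_nonneg (e k)) (Finset.mem_univ k)).trans ?_
      rw [he2]
      have h1 : frob (symTL (clamp R)) ≤ frob (clamp R) := frob_symTL_le hn _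
      refine h1.trans ?_
      simp only [hclamp, frob_smul, div_pow]
      have hm : 0 < max r √(frob R) := lt_max_of_lt_left hr0
      rw [div_mul_eq_mul_div, div_le_iff₀ (by positivity)]
      refine mul_le_mul_of_nonneg_left ?_ (sq_nonneg r)
      have h2 := Real.sq_sqrt (frob_nonneg R)
      nlinarith [le_max_right r √(frob R), Real.sqrt_nonneg (frob R)]
    refine (pow_le_pow_iff_left₀ (norm_nonneg _) (by positivity) two_ne_zero).1 ?_
    rw [mul_pow, ← v.sum_sq_inner_right x, ← v.sum_sq_inner_right (Ae R x), Finset.mul_sum]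
    refine Finset.sum_le_sum fun k _ => ?_
    rw [show ⟪v k, Ae R x⟫ = Real.exp (e k) * ⟪v k, x⟫ by
      rw [← hsymA, hev, real_inner_smul_left], mul_pow]
    exact mul_le_mul_of_nonneg_right (pow_le_pow_left₀ (Real.exp_pos _).le (hb k) 2) (sq_nonneg _)
  · set α := act (Ae R) (sel (Ae R)) with hα
    have hij : ∀ i j : Fin n, mat (linM α) i j + mat (linM α) j i
        = if i = j then 2 * pr α lin0 else 0 := fun i j => by
      have h : symTL (mat (linM α)) i j = 0 := congrFun (congrFun hR i) j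
      simp only [symTL] at h
      have hd : ∑ k, mat (linM α) k k = n * pr α lin0 := sum_diag_linM α
      rw [hd] at h
      split_ifs at h ⊢ with hc
      · rw [mul_div_cancel_left₀ _ hn0.ne'] at h; linarith
      · linarith
    have hexp : ⟪x, linM α x⟫ = ∑ i, ∑ j, x i * x j * mat (linM α) i j := by
      conv_lhs => rw [← mat_sum_bv x, map_sum, inner_sum]
      simp only [map_smul, sum_inner, real_inner_smul_left, real_inner_smul_right]
      rw [Finset.sum_comm]
      exact Finset.sum_congr rfl fun i _ => Finset.sum_congr rfl fun j _ => by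
        simp only [hmat]; ring
    have hsw : ∑ i, ∑ j, x i * x j * mat (linM α) i j = ∑ i, ∑ j, x i * x j * mat (linM α) j i := by
      rw [Finset.sum_comm]
      exact Finset.sum_congr rfl fun i _ => Finset.sum_congr rfl fun j _ => by ring
    have h2 : 2 * ⟪x, linM α x⟫ = ∑ i, ∑ j, x i * x j * (mat (linM α) i j + mat (linM α) j i) := by
      simp only [mul_add, Finset.sum_add_distrib, ← hsw, ← hexp]
      ring
    simp only [hij, mul_ite, mul_zero, Finset.sum_ite_eq, Finset.mem_univ, if_true] at h2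
    rw [EuclideanSpace.real_norm_sq_eq, Finset.mul_sum]
    have h3 : ∑ i, x i * x i * (2 * pr α lin0) = 2 * ∑ i, pr α lin0 * x i ^ 2 := by
      rw [Finset.mul_sum]; exact Finset.sum_congr rfl fun i _ => by ring
    linarith

end Vale.Agent.P237H
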