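import Vale.Agent.P237H.Claim
import Vale.Agent.P237H.CorePos

/-!
# The two uses of the claim at an optimal coupling
-/

namespace Vale.Agent.P237H

open MeasureTheory Set Metric Filter Topology Vale.Agent.P237 Vale.Agent.P237R
open scoped RealInnerProductSpace Pointwise

variable {n N : ℕ} {B : HBasis n}

/-- The higher part of the penalty. -/
noncomputable def penQ (α : Var B N) : ℝ :=
  ∑ ι : Idx B N, rr n ((ι.1 : ℕ) + 1) * ‖α (Sum.inr ι)‖ ^ 2

lemma penQ_nonneg (α : Var B N) : 0 ≤ penQ α :=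
  Finset.sum_nonneg fun _ _ => mul_nonneg (rr_pos' _ _).le (sq_nonneg _)

lemma det_ge_of_expanding (L : E n →ₗ[ℝ] E n) {c : ℝ} (hc : 0 < c) (h : ∀ x, c * ‖x‖ ≤ ‖L x‖) :
    c ^ n ≤ |LinearMap.det L| := by
  have hinj : Function.Injective L := (injective_iff_map_eq_zero L).2 fun x hx => by
    have h1 := h x
    rw [hx, norm_zero] at h1
    exact norm_le_zero_iff.1 (nonpos_of_mul_nonpos_right h1 hc)
  set e := LinearEquiv.ofInjectiveEndo L hinj
  have hsub : c • closedBall (0 : E n) 1 ⊆ L '' closedBall 0 1 := by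
    rintro _ ⟨z, hz, rfl⟩
    refine ⟨e.symm (c • z), ?_, by exact e.apply_symm_apply _⟩
    have h1 := h (e.symm (c • z))
    rw [show L (e.symm (c • z)) = c • z from e.apply_symm_apply _, norm_smul, Real.norm_of_nonneg hc.le] at h1
    rw [mem_closedBall_zero_iff] at hz ⊢
    exact le_of_mul_le_mul_left (h1.trans (mul_le_mul_of_nonneg_left hz hc.le)) hc
  have h1 := measure_mono (μ := volume) hsub
  rw [Measure.addHaar_smul_of_nonneg _ hc.le, Measure.addHaar_image_linearMap,
    finrank_euclideanSpace_fin] at h1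
  have h2 := (ENNReal.mul_le_mul_iff_left (measure_closedBall_pos volume _ one_pos).ne'
    measure_closedBall_lt_top.ne).1 h1
  exact (ENNReal.ofReal_le_ofReal_iff (abs_nonneg _)).1 h2

lemma norm_ge_of_inner (L : E n →L[ℝ] E n) {c : ℝ} (h : ∀ x, ⟪x, L x⟫ = c * ‖x‖ ^ 2) (x : E n) :
    c * ‖x‖ ≤ ‖L x‖ := by
  rcases eq_or_ne x 0 with h0 | h0
  · simp [h0]
  have h1 := real_inner_le_norm x (L x)
  rw [h x] at h1
  exact le_of_mul_le_mul_left (by linarith [sq ‖x‖]) (norm_pos_iff.2 h0)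

/-- Pulling the claim back by an expanding linear map. -/
lemma claim_linear (hn : 4 ≤ n) (hcl : ClaimProp n) (b : Idx B N → E n) (L : E n →L[ℝ] E n) {c Q : ℝ}
    (hc : 0 < c) (hL : ∀ x, ⟪x, L x⟫ = c * ‖x‖ ^ 2)
    (hb : qNorm B b ≤ Q) (hQ : Q / c ^ 2 ≤ 2) (U : Set (E n)) (hU : IsCompact U)
    (hUc : Convex ℝ U) (hUs : ∀ x ∈ U, -x ∈ U)
    (hmem : ∀ θ : E n, ‖θ‖ = 1 → L θ + fieldOf B b θ ∈ U) :
    kap n * (c * (1 - Q / c ^ 2 / 2)) ^ n ≤ (volume U).toReal := by
  have hge := norm_ge_of_inner L hL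
  have hinj : Function.Injective L.toLinearMap := (injective_iff_map_eq_zero _).2 fun x hx => by
    have h1 := hge x
    rw [show L x = 0 from hx, norm_zero] at h1
    exact norm_le_zero_iff.1 (nonpos_of_mul_nonpos_right h1 hc)
  set e := LinearEquiv.ofInjectiveEndo L.toLinearMap hinj
  have hel : ∀ x, L (e.symm x) = x := fun x => e.apply_symm_apply x
  set ec : E n →L[ℝ] E n := e.symm.toLinearMap.toContinuousLinearMap
  set b' : Idx B N → E n := fun ι => ec (b ι) with hb'
  have hnorm : ∀ x, ‖ec x‖ ≤ ‖x‖ / c := fun x => by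
    rw [le_div_iff₀ hc, mul_comm]
    have h1 := hge (ec x)
    rwa [show L (ec x) = x from hel x] at h1
  have hq : qNorm B b' ≤ Q / c ^ 2 := by
    refine le_trans ?_ (div_le_div_of_nonneg_right hb (sq_nonneg c))
    rw [qNorm, qNorm, Finset.sum_div]
    refine Finset.sum_le_sum fun ι _ => ?_
    rw [div_right_comm, ← div_pow]
    exact div_le_div_of_nonneg_right (pow_le_pow_left₀ (norm_nonneg _) (hnorm _) 2) (rr_pos' _ _).le
  have hfield : ∀ θ, fieldOf B b' θ = ec (fieldOf B b θ) := fun θ => by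
    simp [fieldOf, hb', map_sum, map_smul]
  set U' := ec '' U with hU'
  have h := hcl B b' U' (hU.image ec.continuous)
    (hUc.linear_image e.symm.toLinearMap) (by
      rintro _ ⟨x, hx, rfl⟩
      exact ⟨-x, hUs x hx, map_neg ec x⟩) (fun θ hθ => by
      refine ⟨L θ + fieldOf B b θ, hmem θ hθ, ?_⟩
      rw [map_add, hfield]
      congr 1
      exact e.symm_apply_apply θ) (hq.trans hQ)
  have himg : U = L.toLinearMap '' U' := by
    rw [hU', ← Set.image_comp]
    conv_lhs => rw [← Set.image_id U]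
    exact Set.image_congr fun x _ => (hel x).symm
  have hdet := det_ge_of_expanding L.toLinearMap hc hge
  rw [himg, Measure.addHaar_image_linearMap, ENNReal.toReal_mul, ENNReal.toReal_ofReal (abs_nonneg _)]
  refine le_trans ?_ (mul_le_mul hdet h ?_ (abs_nonneg _))
  · rw [mul_pow, mul_left_comm]
    refine mul_le_mul_of_nonneg_left (mul_le_mul_of_nonneg_left ?_ (kap_pos n).le) (pow_nonneg hc.le n)
    exact pow_le_pow_left₀ (by linarith) (by linarith) n
  · exact mul_nonneg (kap_pos n).le (pow_nonneg (by linarith) n)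

variable (Λ : Lam n)

/-- The optimal field in the coupling bound. -/
noncomputable def optTh (ε : ℝ) (α : Var B N) : Var B N := fun j => lin0 j - wt ε j • α j

lemma fld_optTh (ε : ℝ) (α : Var B N) (x : E n) :
    fld (optTh ε α) x = (x - ε • linM α x)
      + fieldOf B (fun ι => -(rr n ((ι.1 : ℕ) + 1) • α (Sum.inr ι))) x := by
  simp only [fld, optTh, Fintype.sum_sum_type, gfun, lin0, wt, Sum.elim_inl, Sum.elim_inr, smul_sub,
    Finset.sum_sub_distrib, mat_sum_bv, fieldOf, linM_apply, Finset.smul_sum, smul_smul, smul_zero,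
    smul_neg, Finset.sum_const_zero, add_zero, Finset.sum_neg_distrib]
  have e : ∑ i : Fin n, (x i * (ε * (n : ℝ))) • α (Sum.inl i)
      = ∑ i : Fin n, (ε * ((n : ℝ) * x i)) • α (Sum.inl i) :=
    Finset.sum_congr rfl fun i _ => by congr 1; ring
  rw [e]
  abel

lemma qNorm_optTh (α : Var B N) :
    qNorm B (fun ι => -(rr n ((ι.1 : ℕ) + 1) • α (Sum.inr ι))) = penQ α := by
  refine Finset.sum_congr rfl fun ι _ => ?_
  rw [norm_neg, norm_smul, Real.norm_of_nonneg (rr_pos' _ _).le]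
  field_simp [(rr_pos' n ι.1).ne']

lemma pr_optTh_le {ε : ℝ} (hε : 0 ≤ ε) (α : Var B N) :
    pr α (optTh ε α) ≤ pr α lin0 - penQ α := by
  simp only [pr, optTh, inner_sub_right, real_inner_smul_right, real_inner_self_eq_norm_sq,
    Finset.sum_sub_distrib]
  refine sub_le_sub_left ?_ _
  rw [Fintype.sum_sum_type]
  exact le_add_of_nonneg_left (Finset.sum_nonneg fun i _ =>
    mul_nonneg (mul_nonneg hε (Nat.cast_nonneg n)) (sq_nonneg _))

lemma first_use (hn : 4 ≤ n) (hcl : ClaimProp n) {ε : ℝ} (hε : 0 < ε) {A : E n →L[ℝ] E n}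
    (hA : ∀ x y, ⟪A x, y⟫ = ⟪x, A y⟫) (hdet : LinearMap.det A.toLinearMap = 1)
    {α : Var B N} {m : ℝ} (hm : ∀ x, ⟪x, linM α x⟫ = m * ‖x‖ ^ 2)
    (hp : pfun Λ (act A (optTh ε α)) ≤ m - penQ α) (hεm : ε * m < 1) :
    1 - ε * m - penQ α / (2 * (1 - ε * m)) ≤ m - penQ α := by
  have hn2 : 2 ≤ n := by omega
  set θJ := optTh ε α with hθJ
  set Q := penQ α with hQ
  set c := 1 - ε * m with hc
  have hc0 : 0 < c := by rw [hc]; linarith
  have hp0 : 0 ≤ m - Q := (pfun_nonneg Λ hn2 _).trans hp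
  rcases le_or_gt (c - Q / (2 * c)) 0 with h | h
  · linarith
  have hQ2 : Q / c ^ 2 ≤ 2 := by
    rw [sub_pos, div_lt_iff₀ (by positivity)] at h
    rw [div_le_iff₀ (by positivity)]
    nlinarith
  have hcf := continuous_fld θJ
  obtain ⟨C, hC0, hC⟩ := exists_hT_le hn2 hcf
  set U : Set (E n) := {z | ∀ y, ⟪y, z⟫ ≤ hT (fld θJ) y} with hU
  have hUclosed : IsClosed U := by
    have : U = ⋂ y : E n, {z | ⟪y, z⟫ ≤ hT (fld θJ) y} := by ext z; simp [hU]
    rw [this]
    exact isClosed_iInter fun y => isClosed_le (by fun_prop) continuous_const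
  have hUc : IsCompact U :=
    (isCompact_closedBall 0 C).of_isClosed_subset hUclosed fun z hz => by
      rw [mem_closedBall_zero_iff]
      have h1 := (hz z).trans (hC z)
      rw [real_inner_self_eq_norm_sq] at h1
      rcases eq_or_ne z 0 with h0 | h0
      · simpa [h0] using hC0
      exact le_of_mul_le_mul_right (by linarith [sq ‖z‖]) (norm_pos_iff.2 h0)
  have hUconv : Convex ℝ U := fun x hx y hy a b ha hb hab w => by
    rw [inner_add_right, real_inner_smul_right, real_inner_smul_right]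
    calc a * ⟪w, x⟫ + b * ⟪w, y⟫ ≤ a * hT (fld θJ) w + b * hT (fld θJ) w :=
          add_le_add (mul_le_mul_of_nonneg_left (hx w) ha) (mul_le_mul_of_nonneg_left (hy w) hb)
      _ = _ := by rw [← add_mul, hab, one_mul]
  have hUs : ∀ x ∈ U, -x ∈ U := fun x hx w => by
    rw [inner_neg_right, ← inner_neg_left]
    refine (hx (-w)).trans (hT_le hn2 fun θ hθ => ?_)
    rw [inner_neg_left, abs_neg]
    exact le_hT hcf w hθ
  set L : E n →L[ℝ] E n := ContinuousLinearMap.id ℝ (E n) - ε • linM α with hL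
  have hLx : ∀ x, L x = x - ε • linM α x := fun x => by simp [hL]
  have h1 := claim_linear hn hcl (fun ι => -(rr n ((ι.1 : ℕ) + 1) • α (Sum.inr ι))) L hc0
    (fun x => by rw [hLx, inner_sub_right, real_inner_smul_right, hm, real_inner_self_eq_norm_sq, hc]; ring)
    (qNorm_optTh α).le hQ2 U hUc hUconv hUs (fun θ hθ y => by
      rw [hLx, ← fld_optTh]
      exact (le_abs_self _).trans (le_hT hcf y hθ))
  have h2 : (volume (A.toLinearMap '' U)).toReal ≤ kap n * (m - Q) ^ n := by
    refine (Λ.mink _ (hT (fld (act A θJ))) (hUc.image A.continuous)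
      ⟨A 0, 0, fun y => by simpa using hT_nonneg hn2 hcf y, rfl⟩
      (continuous_hT hn2 (continuous_fld _)) ?_).trans ?_
    · rintro _ ⟨u, hu, rfl⟩ y
      change ⟪y, A u⟫ ≤ _
      rw [← hA]
      refine (hu (A y)).trans (hT_le hn2 fun θ hθ => ?_)
      rw [hA, ← fld_act]
      exact le_hT (continuous_fld _) y hθ
    · exact mul_le_mul_of_nonneg_left (pow_le_pow_left₀ (pfun_nonneg Λ hn2 _) hp n) (kap_pos n).le
  rw [Measure.addHaar_image_linearMap, hdet, abs_one, ENNReal.ofReal_one, one_mul] at h2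
  have h3 := le_of_mul_le_mul_left (h1.trans h2) (kap_pos n)
  have h4 : c * (1 - Q / c ^ 2 / 2) ≤ m - Q := le_of_pow_le_pow_left₀ (by omega) hp0 h3
  have h5 : c * (1 - Q / c ^ 2 / 2) = c - Q / (2 * c) := by field_simp
  linarith

lemma second_use (hn : 4 ≤ n) (hcl : ClaimProp n) {A : E n →L[ℝ] E n}
    (hA : ∀ x y, ⟪A x, y⟫ = ⟪x, A y⟫) (hdet : LinearMap.det A.toLinearMap = 1)
    {β : Var B N} (hβ : β ∈ coup Λ B N) {m e0 κ : ℝ} {e : Fin N → ℝ} {F : E n → E n → ℝ}
    (hm : ∀ x, ⟪x, linM (act A β) x⟫ = m * ‖x‖ ^ 2) (hm0 : 0 < m) (hκ : 0 < κ)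
    (he0 : e0 = κ * absMom n) (he : ∀ i, |e i| ≤ absMom n * rr n ((i : ℕ) + 1))
    (hF1 : ∀ x θ : E n, ‖x‖ = 1 → ‖θ‖ = 1 → |F x θ| ≤ 1)
    (hF : ∀ x θ : E n, ‖x‖ = 1 → ‖θ‖ = 1 →
      F x θ = e0 * n * ⟪x, θ⟫ + ∑ ι : Idx B N, e ι.1 * B.fn ι x * B.fn ι θ) :
    kap n * (max 0 (κ * m - penQ (act A β) / (2 * (κ * m)))) ^ n ≤ (volume Λ.body).toReal := by
  have hn2 : 2 ≤ n := by omega
  set α := act A β with hα
  set Q := penQ α with hQ
  set c := κ * m with hc
  have hc0 : 0 < c := mul_pos hκ hm0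
  have hQ0 : 0 ≤ Q := penQ_nonneg α
  rcases le_or_gt (c - Q / (2 * c)) 0 with h | h
  · rw [max_eq_left h, zero_pow (by omega), mul_zero]
    exact ENNReal.toReal_nonneg
  have hQ2 : Q / c ^ 2 ≤ 2 := by
    rw [sub_pos, div_lt_iff₀ (by positivity)] at h
    rw [div_le_iff₀ (by positivity)]
    nlinarith
  have habs := absMom_pos hn2
  set L : E n →L[ℝ] E n := κ • linM α with hL
  set b : Idx B N → E n := fun ι => (e ι.1 / absMom n) • α (Sum.inr ι) with hb
  have hq : qNorm B b ≤ Q := by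
    refine Finset.sum_le_sum fun ι _ => ?_
    have hr := rr_pos' n (ι.1 : ℕ)
    rw [div_le_iff₀ hr, hb, norm_smul, mul_pow, Real.norm_eq_abs]
    have h1 : |e ι.1 / absMom n| ≤ rr n ((ι.1 : ℕ) + 1) := by
      rw [abs_div, abs_of_pos habs, div_le_iff₀ habs, mul_comm]; exact he ι.1
    calc |e ι.1 / absMom n| ^ 2 * ‖α (Sum.inr ι)‖ ^ 2
        ≤ rr n ((ι.1 : ℕ) + 1) ^ 2 * ‖α (Sum.inr ι)‖ ^ 2 :=
          mul_le_mul_of_nonneg_right (pow_le_pow_left₀ (abs_nonneg _) h1 2) (sq_nonneg _)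
      _ = _ := by ring
  have h1 := claim_linear hn hcl b L hc0 (fun x => by
      simp only [hL, ContinuousLinearMap.smul_apply, real_inner_smul_right, hm, hc]; ring)
    hq hQ2 (A.toLinearMap '' Λ.body) ((Λ.compact_body' hn2).image A.continuous)
    (Λ.convex_body.linear_image _) (by
      rintro _ ⟨x, hx, rfl⟩
      exact ⟨-x, Λ.neg_mem_body hx, map_neg A.toLinearMap x⟩) (fun x hx => by
      refine ⟨κ • linM β x + fieldOf B (fun ι => (e ι.1 / absMom n) • β (Sum.inr ι)) x, fun v => ?_, ?_⟩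
      · set θv : Var B N := Sum.elim (fun i => (e0 * n * x i) • v)
          (fun ι => (e ι.1 * B.fn ι x) • v) with hθv
        have hpv : pr β θv
            = absMom n * ⟪v, κ • linM β x + fieldOf B (fun ι => (e ι.1 / absMom n) • β (Sum.inr ι)) x⟫ := by
          simp only [pr, hθv, Fintype.sum_sum_type, Sum.elim_inl, Sum.elim_inr, linM_apply, fieldOf,
            inner_add_right, inner_sum, Finset.mul_sum, Finset.smul_sum, real_inner_smul_right, mul_add]
          congr 1
          · exact Finset.sum_congr rfl fun i _ => by rw [real_inner_comm v, he0]; ring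
          · exact Finset.sum_congr rfl fun ι _ => by
              rw [real_inner_comm v]; field_simp
        rw [← hpv]
        refine (hβ θv).trans (Λ.mono _ _ (continuous_hT hn2 (continuous_fld _)) (by fun_prop) fun y => ?_)
        refine hT_le hn2 fun θ hθ => ?_
        have hfv : fld θv θ = F x θ • v := by
          rw [hF x θ hx hθ]
          simp only [fld, hθv, Fintype.sum_sum_type, Sum.elim_inl, Sum.elim_inr, gfun, smul_smul,
            add_smul, ← Finset.sum_smul, PiLp.inner_apply, RCLike.inner_apply, conj_trivial,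
            Finset.mul_sum]
          congr 2
          · exact Finset.sum_congr rfl fun i _ => by ring
          · exact Finset.sum_congr rfl fun ι _ => by ring
        rw [hfv, real_inner_smul_right, abs_mul, real_inner_comm y v]
        exact mul_le_of_le_one_left (abs_nonneg _) (hF1 x θ hx hθ)
      · simp only [ContinuousLinearMap.coe_coe, map_add, map_smul, hL, ContinuousLinearMap.smul_apply,
          hb, hα, linM_act, fieldOf, map_sum, act])
  rw [Measure.addHaar_image_linearMap, hdet, abs_one, ENNReal.ofReal_one, one_mul] at h1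
  rw [max_eq_right h.le]
  have h5 : c * (1 - Q / c ^ 2 / 2) = c - Q / (2 * c) := by field_simp
  rwa [h5] at h1

lemma optTh_norm_lower (hn : 4 ≤ n) {η : ℝ} (hη : 0 < η) (hη1 : η < 1) :
    ∃ w, 0 < w ∧ ∀ (B : HBasis n) (N : ℕ) (ε C : ℝ) (α : Var B N), 0 ≤ ε →
      (∀ x, ‖linM α x‖ ≤ C * ‖x‖) → ∀ y,
        ‖y‖ * (1 - η - ε * C - √(penQ α) / w) ≤ hT (fld (optTh ε α)) y := by
  have hn2 : 2 ≤ n := by omega
  have hP := isProb_sphM hn2
  set g : ℝ → ℝ := fun t => max 0 (t - (1 - η)) - max 0 (-t - (1 - η)) with hg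
  have hgc : Continuous g := by rw [hg]; fun_prop
  have hgt : ∀ t, (1 - η) * |g t| ≤ t * g t := fun t => by
    simp only [hg]
    rcases le_total t 0 with ht | ht
    · rw [max_eq_left (a := (0 : ℝ)) (b := t - (1 - η)) (by linarith), zero_sub, abs_neg,
        abs_of_nonneg (le_max_left _ _)]
      rcases le_total (-t - (1 - η)) 0 with h | h
      · simp [max_eq_left h]
      · rw [max_eq_right h]; nlinarith
    · rw [max_eq_left (a := (0 : ℝ)) (b := -t - (1 - η)) (by linarith), sub_zero,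
        abs_of_nonneg (le_max_left _ _)]
      rcases le_total (t - (1 - η)) 0 with h | h
      · simp [max_eq_left h]
      · rw [max_eq_right h]; nlinarith
  have hg1 : ∀ t, |t| ≤ 1 → |g t| ≤ 1 := fun t ht => by
    obtain ⟨h1, h2⟩ := abs_le.1 ht
    rw [abs_le]
    simp only [hg]
    have a1 : max 0 (t - (1 - η)) ≤ 1 := max_le zero_le_one (by linarith)
    have a2 : max 0 (-t - (1 - η)) ≤ 1 := max_le zero_le_one (by linarith)
    constructor <;> linarith [le_max_left (0 : ℝ) (t - (1 - η)), le_max_left (0 : ℝ) (-t - (1 - η))]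
  have hint : ∀ f : E n → ℝ, Continuous f → Integrable f (sphM n) := fun f hf => integrable_sphM hn2 hf
  set W : E n → ℝ := fun u => ∫ x, |g ⟪u, x⟫| ∂sphM n with hW
  have hWc : ContinuousOn W (sphere 0 1) := by
    refine continuousOn_of_dominated (bound := fun _ => (1 : ℝ))
      (fun u _ => (hint _ (by fun_prop)).aestronglyMeasurable) (fun u hu => ?_) (integrable_const _)
      (Eventually.of_forall fun x => by fun_prop)
    filter_upwards [sphM_ae_norm hn2] with x hx
    rw [Real.norm_eq_abs, abs_abs]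
    refine hg1 _ ((abs_real_inner_le_norm _ _).trans ?_)
    rw [mem_sphere_zero_iff_norm.1 hu, hx, one_mul]
  obtain ⟨u₀, hu₀, hmin⟩ := (isCompact_sphere (0 : E n) 1).exists_isMinOn (sphere_nonempty_E hn2) hWc
  have hu₀1 : ‖u₀‖ = 1 := by simpa using hu₀
  have hw : 0 < W u₀ := by
    refine (integral_nonneg fun x => abs_nonneg _).lt_of_ne' fun h0 => ?_
    have := sphM_eq_zero hn2 (f := fun x => |g ⟪u₀, x⟫|) (by fun_prop) (fun x => abs_nonneg _) h0 hu₀1
    simp only [real_inner_self_eq_norm_sq, hu₀1, one_pow, abs_eq_zero, hg] at this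
    rw [max_eq_right (by linarith), max_eq_left (by linarith)] at this
    linarith
  refine ⟨W u₀, hw, fun B N ε C α hε hC y => ?_⟩
  have hcf := continuous_fld (optTh ε α)
  rcases eq_or_ne y 0 with h0 | h0
  · simpa [h0] using hT_nonneg hn2 hcf 0
  have hy := norm_pos_iff.2 h0
  set u := ‖y‖⁻¹ • y with hu
  have hu1 : ‖u‖ = 1 := by simp [hu, norm_smul, hy.ne']
  have hyu : ∀ x, ⟪y, x⟫ = ‖y‖ * ⟪u, x⟫ := fun x => by
    rw [hu, real_inner_smul_left]; field_simp
  set b : Idx B N → E n := fun ι => -(rr n ((ι.1 : ℕ) + 1) • α (Sum.inr ι)) with hb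
  have hcb : Continuous (fieldOf B b) := continuous_finsetSum _ fun ι _ =>
    ((polyHom_smooth (B.harm _ ι.2).1).continuous).smul continuous_const
  set I := ∫ x, ‖fieldOf B b x‖ ∂sphM n with hI
  have hI : I ≤ √(penQ α) := by
    have h1 := integral_norm_fieldOf_sq hn2 B b
    have h2 : qNorm B b = penQ α := qNorm_optTh α
    refine Real.le_sqrt_of_sq_le ?_
    have h3 : I ^ 2 ≤ ∫ x, ‖fieldOf B b x‖ ^ 2 ∂sphM n := by
      have h4 : 0 ≤ ∫ x, (‖fieldOf B b x‖ - I) ^ 2 ∂sphM n := integral_nonneg fun x => sq_nonneg _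
      have e : (fun x => (‖fieldOf B b x‖ - I) ^ 2)
          = fun x => ‖fieldOf B b x‖ ^ 2 + (-(2 * I) * ‖fieldOf B b x‖ + I ^ 2) := by
        funext x; ring
      rw [e, integral_add (hint _ (by fun_prop)) (hint _ (by fun_prop)),
        integral_add (hint _ (by fun_prop)) (integrable_const _), integral_const_mul,
        integral_const, probReal_univ, one_smul] at h4
      nlinarith
    linarith
  have hpt : ∀ᵐ x ∂sphM n, ‖y‖ * ((1 - η - ε * C) * |g ⟪u, x⟫| - ‖fieldOf B b x‖)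
      ≤ hT (fld (optTh ε α)) y * |g ⟪u, x⟫| := by
    filter_upwards [sphM_ae_norm hn2] with x hx
    have ht : |⟪u, x⟫| ≤ 1 := by
      refine (abs_real_inner_le_norm _ _).trans ?_
      rw [hu1, hx, one_mul]
    have h1 : ⟪y, fld (optTh ε α) x⟫ * g ⟪u, x⟫ ≤ hT (fld (optTh ε α)) y * |g ⟪u, x⟫| := by
      refine (le_abs_self _).trans ?_
      rw [abs_mul]
      exact mul_le_mul_of_nonneg_right (le_hT hcf y hx) (abs_nonneg _)
    rw [fld_optTh, ← hb, hyu, inner_add_right, inner_sub_right, real_inner_smul_right] at h1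
    have h2 : |⟪u, linM α x⟫ * g ⟪u, x⟫| ≤ C * |g ⟪u, x⟫| := by
      rw [abs_mul]
      refine mul_le_mul_of_nonneg_right ((abs_real_inner_le_norm _ _).trans ?_) (abs_nonneg _)
      have := hC x
      rw [hx, mul_one] at this
      rwa [hu1, one_mul]
    have h3 : |⟪u, fieldOf B b x⟫ * g ⟪u, x⟫| ≤ ‖fieldOf B b x‖ := by
      rw [abs_mul]
      refine (mul_le_of_le_one_right (abs_nonneg _) (hg1 _ ht)).trans ?_
      exact (abs_real_inner_le_norm _ _).trans (by rw [hu1, one_mul])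
    have h4 := hgt ⟪u, x⟫
    have h5 := mul_le_mul_of_nonneg_left (abs_le.1 h2).2 hε
    have h6 := (abs_le.1 h3).1
    have h7 : (1 - η - ε * C) * |g ⟪u, x⟫| - ‖fieldOf B b x‖
        ≤ (⟪u, x⟫ - ε * ⟪u, linM α x⟫ + ⟪u, fieldOf B b x⟫) * g ⟪u, x⟫ := by nlinarith
    calc _ ≤ ‖y‖ * ((⟪u, x⟫ - ε * ⟪u, linM α x⟫ + ⟪u, fieldOf B b x⟫) * g ⟪u, x⟫) :=
          mul_le_mul_of_nonneg_left h7 hy.le
      _ ≤ _ := by linarith
  have hi1 : Integrable (fun x => (1 - η - ε * C) * |g ⟪u, x⟫| - ‖fieldOf B b x‖) (sphM n) :=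
    hint _ (by fun_prop)
  have h := integral_mono_ae (hi1.const_mul ‖y‖) ((hint _ (by fun_prop)).const_mul _) hpt
  rw [integral_const_mul, integral_sub (hint _ (by fun_prop)) (hint _ (by fun_prop)),
    integral_const_mul, integral_const_mul] at h
  have hwu : W u₀ ≤ W u := hmin (show u ∈ sphere (0 : E n) 1 by simpa using hu1)
  have hwpos : 0 < W u := hw.trans_le hwu
  have h8 : √(penQ α) ≤ √(penQ α) / W u₀ * W u := by
    rw [div_mul_eq_mul_div, le_div_iff₀ hw]
    exact mul_le_mul_of_nonneg_left hwu (Real.sqrt_nonneg _)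
  refine le_of_mul_le_mul_right ?_ hwpos
  calc ‖y‖ * (1 - η - ε * C - √(penQ α) / W u₀) * W u
      ≤ ‖y‖ * ((1 - η - ε * C) * W u - I) := by
        rw [mul_assoc]
        refine mul_le_mul_of_nonneg_left ?_ hy.le
        nlinarith
    _ ≤ _ := h
where
  integral_norm_fieldOf_sq (hn2 : 2 ≤ n) (B : HBasis n) {N : ℕ} (b : Idx B N → E n) :
      ∫ x, ‖fieldOf B b x‖ ^ 2 ∂sphM n ≤ qNorm B b := by
    have horth : ∀ ι ι' : Idx B N, ∫ x, B.fn ι x * B.fn ι' x ∂sphM n = if ι = ι' then 1 else 0 := by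
      rintro ⟨p, i⟩ ⟨q, k⟩
      by_cases hpq : p = q
      · subst hpq
        simp only [HBasis.fn, B.orth]
        by_cases hik : i = k <;> simp [hik]
      · rw [if_neg (fun h => hpq (congrArg Sigma.fst h))]
        exact harm_orth hn2 (fun h => hpq (Fin.ext (by omega))) (B.harm _ i) (B.harm _ k)
    have hint : ∀ f : E n → ℝ, Continuous f → Integrable f (sphM n) := fun f hf => integrable_sphM hn2 hf
    have hcont : ∀ ι : Idx B N, Continuous (B.fn ι) := fun ι => (polyHom_smooth (B.harm _ ι.2).1).continuous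
    have e : (fun x => ‖fieldOf B b x‖ ^ 2)
        = fun x => ∑ ι, ∑ ι', ⟪b ι, b ι'⟫ * (B.fn ι x * B.fn ι' x) := by
      funext x
      rw [← real_inner_self_eq_norm_sq, fieldOf, sum_inner]
      simp only [inner_sum, real_inner_smul_left, real_inner_smul_right]
      exact Finset.sum_congr rfl fun ι _ => Finset.sum_congr rfl fun ι' _ => by ring
    have hi : ∀ ι ι' : Idx B N, Integrable (fun x => ⟪b ι, b ι'⟫ * (B.fn ι x * B.fn ι' x)) (sphM n) :=
      fun ι ι' => hint _ (continuous_const.mul ((hcont ι).mul (hcont ι')))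
    rw [e, integral_finsetSum _ fun ι _ => integrable_finsetSum _ fun ι' _ => hi ι ι']
    simp only [integral_finsetSum _ fun ι' _ => hi _ ι', integral_const_mul, horth, mul_ite, mul_one,
      mul_zero, Finset.sum_ite_eq, Finset.mem_univ, if_true, real_inner_self_eq_norm_sq]
    refine Finset.sum_le_sum fun ι _ => ?_
    rw [le_div_iff₀ (rr_pos' _ _)]
    exact mul_le_of_le_one_right (sq_nonneg _) (rr_le_one' _ _)

end Vale.Agent.P237H
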