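import Vale.Agent.P237H.ScalarData

/-!
# The scalar certificates
-/

namespace Vale.Agent.P237H

open ScalarAux

theorem exists_cert {n : ℕ} (hn : 8 ≤ n) : Nonempty (Cert n) := by
  rcases le_or_gt n 8 with h | h
  · exact cert_of_range data8 (by decide +kernel) _ rfl 8 8 (by decide +kernel) hn h
  rcases le_or_gt n 9 with h' | h'
  · exact cert_of_range data9 (by decide +kernel) _ rfl 9 9 (by decide +kernel) h h'
  rcases le_or_gt n 11 with h'' | h''
  · exact cert_of_range data10 (by decide +kernel) _ rfl 10 11 (by decide +kernel) h' h''
  rcases le_or_gt n 15 with h3 | h3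
  · exact cert_of_range data12 (by decide +kernel) _ rfl 12 15 (by decide +kernel) h'' h3
  rcases le_or_gt n 29 with h4 | h4
  · exact cert_of_range data16 (by decide +kernel) _ rfl 16 29 (by decide +kernel) h3 h4
  exact cert_of_tail data30 (by decide +kernel) rfl (by decide +kernel) (by decide +kernel)
    (by decide +kernel) (by decide +kernel) (show 30 ≤ n by omega) (by omega)

end Vale.Agent.P237H
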