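import Vale.Agent.P237H.Core
import Vale.Agent.P237H.BodyLam
import Vale.Agent.P237H.BodyEll
import Vale.Agent.P237H.BodyEq
import Vale.Agent.P237H.Scalar
import Vale.Agent.P237H.Claim7

/-!
# Petty's inequality in dimension at least seven, with equality
-/

namespace Vale.Agent.P237H

open MeasureTheory Set Metric Vale.Agent.P237 Vale.Agent.P237R Vale.Agent.P237U
open scoped RealInnerProductSpace NNReal ENNReal Pointwise

/-- The inequality and its equality case from `ClaimProp`, for a body around the origin. -/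
theorem petty_centred {j : ℕ} (hj : 4 ≤ j + 1 + 1) (hcl : ClaimProp (j + 1 + 1))
    (K : Set (E (j + 1 + 1))) (hK : IsCompact K) (hc : Convex ℝ K)
    (h0 : (0 : E (j + 1 + 1)) ∈ interior K) :
    ENNReal.ofReal (unitBallVol (j + 1) ^ (j + 1 + 1) * (unitBallVol (j + 1 + 1) ^ j)⁻¹
        * (volume K).toReal ^ (j + 1)) ≤ volume (projBody K) ∧
      (volume (projBody K) = ENNReal.ofReal (unitBallVol (j + 1) ^ (j + 1 + 1)
          * (unitBallVol (j + 1 + 1) ^ j)⁻¹ * (volume K).toReal ^ (j + 1)) →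
        ∃ (a : E (j + 1 + 1)) (T : E (j + 1 + 1) ≃ₗ[ℝ] E (j + 1 + 1)),
          K = (fun x => a + T x) '' closedBall 0 1) := by
  obtain ⟨Λ, hsub, hΛ⟩ := exists_lam hK hc h0
  set V := (volume K).toReal with hV
  have hV0 : 0 < V := toReal_pos_of_interior hK ⟨0, h0⟩
  have hk0 := kap_pos (j + 1 + 1)
  have hk1 := kap_pos (j + 1)
  set r := (V / kap (j + 1 + 1)) ^ ((((j + 1 + 1 : ℕ) : ℝ))⁻¹) with hr
  have hr0 : 0 < r := Real.rpow_pos_of_pos (div_pos hV0 hk0) _
  have hrn : r ^ (j + 1 + 1) = V / kap (j + 1 + 1) :=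
    Real.rpow_inv_natCast_pow (div_pos hV0 hk0).le (by omega)
  set c := kap (j + 1) * r ^ (j + 1) with hc'
  have hc0 : 0 < c := mul_pos hk1 (pow_pos hr0 _)
  have hfin : volume Λ.body ≠ ⊤ := (Lam.isCompact_body hj Λ).measure_lt_top.ne
  have hvol : volume (c • Λ.body)
      = ENNReal.ofReal (c ^ (j + 1 + 1) * (volume Λ.body).toReal) := by
    rw [Measure.addHaar_smul, finrank_euclideanSpace_fin, abs_of_pos (pow_pos hc0 _),
      ENNReal.ofReal_mul (pow_nonneg hc0.le _), ENNReal.ofReal_toReal hfin]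
  have htgt : unitBallVol (j + 1) ^ (j + 1 + 1) * (unitBallVol (j + 1 + 1) ^ j)⁻¹ * V ^ (j + 1)
      = c ^ (j + 1 + 1) * kap (j + 1 + 1) := by
    have e : c ^ (j + 1 + 1) = kap (j + 1) ^ (j + 1 + 1) * (V / kap (j + 1 + 1)) ^ (j + 1) := by
      rw [hc', mul_pow, ← pow_mul, mul_comm (j + 1) (j + 1 + 1), pow_mul, hrn]
    rw [e, ← kap_eq_unitBallVol (Nat.succ_pos j), ← kap_eq_unitBallVol (Nat.succ_pos (j + 1)),
      div_pow]
    field_simp
    ring
  rw [htgt]
  constructor
  · refine le_trans ?_ (measure_mono hsub)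
    rw [hvol]
    exact ENNReal.ofReal_le_ofReal
      (mul_le_mul_of_nonneg_left (core_ineq_of_claim hj hcl Λ) (pow_nonneg hc0.le _))
  · intro heq
    have h := measure_mono (μ := volume) hsub
    rw [hvol, heq, ENNReal.ofReal_le_ofReal_iff (mul_nonneg (pow_nonneg hc0.le _) hk0.le)] at h
    obtain ⟨A, hA, hA1⟩ := core_eq_of_claim hj hcl Λ (le_of_mul_le_mul_left h (pow_pos hc0 _))
    exact ellipsoid_of_lam hK hc h0 Λ hΛ A hA hA1

/-- Petty's conjecture in a dimension where `ClaimProp` holds, with the equality case. -/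
theorem petty_of_claim (n : ℕ) (hn : 4 ≤ n) (hcl : ClaimProp n) (K : Set (EuclideanSpace ℝ (Fin n))) (hK : IsCompact K)
    (hc : Convex ℝ K) (hi : (interior K).Nonempty) :
    ENNReal.ofReal (unitBallVol (n - 1) ^ n * (unitBallVol n ^ (n - 2))⁻¹
        * (volume K).toReal ^ (n - 1)) ≤ volume (projBody K) ∧
      (volume (projBody K) = ENNReal.ofReal (unitBallVol (n - 1) ^ n
          * (unitBallVol n ^ (n - 2))⁻¹ * (volume K).toReal ^ (n - 1))
        ↔ ∃ (a : EuclideanSpace ℝ (Fin n))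
            (T : EuclideanSpace ℝ (Fin n) ≃ₗ[ℝ] EuclideanSpace ℝ (Fin n)),
            K = (fun x => a + T x) '' Metric.closedBall 0 1) := by
  obtain ⟨j, rfl⟩ : ∃ j, n = j + 1 + 1 := ⟨n - 2, by omega⟩
  simp only [Nat.add_sub_cancel, show j + 1 + 1 - 2 = j from rfl]
  obtain ⟨x₀, hx₀⟩ := hi
  set K₀ := (fun x => x + x₀) ⁻¹' K with hK₀
  have hK₀c : IsCompact K₀ := (Homeomorph.addRight x₀).isCompact_preimage.2 hK
  have h0 : (0 : E (j + 1 + 1)) ∈ interior K₀ := by
    have he : interior K₀ = (fun x => x + x₀) ⁻¹' interior K :=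
      ((Homeomorph.addRight x₀).preimage_interior K).symm
    rw [he]
    simpa using hx₀
  have h := petty_centred hn hcl K₀ hK₀c (hc.translate_preimage_left x₀) h0
  rw [hK₀, projBody_shift, measure_preimage_add_right] at h
  refine ⟨h.1, fun heq => ?_, ?_⟩
  · obtain ⟨a, T, he⟩ := h.2 heq
    refine ⟨x₀ + a, T, ?_⟩
    have e : K = (fun x => x + x₀) '' ((fun x => x + x₀) ⁻¹' K) :=
      (image_preimage_eq K (Homeomorph.addRight x₀).surjective).symm
    rw [e, he, Set.image_image]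
    exact image_congr fun x _ => by abel
  · rintro ⟨a, T, rfl⟩
    exact equality_of_ellipsoid_gen a T

/-- **Petty's conjecture in every dimension `n ≥ 7`**, with the equality case. -/
theorem petty_high (n : ℕ) (hn : 7 ≤ n) (K : Set (EuclideanSpace ℝ (Fin n))) (hK : IsCompact K)
    (hc : Convex ℝ K) (hi : (interior K).Nonempty) :
    ENNReal.ofReal (unitBallVol (n - 1) ^ n * (unitBallVol n ^ (n - 2))⁻¹
        * (volume K).toReal ^ (n - 1)) ≤ volume (projBody K) ∧
      (volume (projBody K) = ENNReal.ofReal (unitBallVol (n - 1) ^ n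
          * (unitBallVol n ^ (n - 2))⁻¹ * (volume K).toReal ^ (n - 1))
        ↔ ∃ (a : EuclideanSpace ℝ (Fin n))
            (T : EuclideanSpace ℝ (Fin n) ≃ₗ[ℝ] EuclideanSpace ℝ (Fin n)),
            K = (fun x => a + T x) '' Metric.closedBall 0 1) := by
  rcases Nat.eq_or_lt_of_le hn with rfl | h8
  · exact petty_of_claim 7 (by norm_num)
      (fun B _ b U h1 h2 h3 h4 h5 => claim7 B b U h1 h2 h3 h4 h5) K hK hc hi
  obtain ⟨cert⟩ := exists_cert h8
  exact petty_of_claim n (by omega) (claimProp_of_cert (by omega) cert) K hK hc hi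

end Vale.Agent.P237H
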