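import Vale.Agent.P237H.HarmAux

/-!
# Harmonic polynomials on the sphere
-/

namespace Vale.Agent.P237H

open MeasureTheory Set Metric Vale.Agent.P237 Vale.Agent.P237R
open scoped RealInnerProductSpace NNReal

variable {n : ℕ}

lemma polyHom_smooth {l : ℕ} {P : E n → ℝ} (hP : P ∈ polyHom n l) : ContDiff ℝ (⊤ : ℕ∞) P :=
  polyHom_contDiff hP

lemma polyHom_smul {l : ℕ} {P : E n → ℝ} (hP : P ∈ polyHom n l) (r : ℝ) (x : E n) :
    P (r • x) = r ^ l * P x :=
  polyHom_homog hP r x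

lemma IsHarm.dderiv {l : ℕ} {P : E n → ℝ} (hP : IsHarm (l + 1) P) (v : E n) :
    IsHarm l fun x => fderiv ℝ P x v := by
  refine ⟨dd_mem v hP.1, fun x => ?_⟩
  change lap (dd v P) x = 0
  have hs : ∀ i, dd (bv i) (dd (bv i) (dd v P)) = dd v (dd (bv i) (dd (bv i) P)) := fun i => by
    rw [dd_comm (bv i) v (polyHom_contDiff hP.1),
      dd_comm (bv i) v (polyHom_contDiff (dd_mem (bv i) hP.1))]
  have hd : ∀ i, Differentiable ℝ (dd (bv i) (dd (bv i) P)) := fun i =>
    dd_differentiable (dd_mem _ hP.1) _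
  simp only [lap_eq, hs]
  have h : (∑ i, dd v (dd (bv i) (dd (bv i) P)) x)
      = fderiv ℝ (fun y => ∑ i, dd (bv i) (dd (bv i) P) y) x v := by
    rw [fderiv_fun_sum fun i _ => hd i x]
    simp [dd]
  rw [h, show (fun y => ∑ i, dd (bv i) (dd (bv i) P) y) = fun _ => (0 : ℝ) from funext hP.2]
  simp

lemma harm_linear (v : E n) : IsHarm 1 fun x => ⟪v, x⟫ := by
  refine ⟨?_, lap_inner v⟩
  simpa using polyHom_inner_mul (polyHom_const (n := n) 1) v

lemma isHarm_add {l : ℕ} {P R : E n → ℝ} (hP : IsHarm l P) (hR : IsHarm l R) : IsHarm l (P + R) :=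
  ⟨Submodule.add_mem _ hP.1 hR.1, fun x => by rw [lap_add hP.1 hR.1, hP.2, hR.2, add_zero]⟩

lemma isHarm_smul {l : ℕ} {P : E n → ℝ} (c : ℝ) (hP : IsHarm l P) : IsHarm l (c • P) :=
  ⟨Submodule.smul_mem _ _ hP.1, fun x => by rw [lap_smul hP.1, hP.2, mul_zero]⟩

lemma isHarm_zero (l : ℕ) : IsHarm l (0 : E n → ℝ) :=
  ⟨Submodule.zero_mem _, fun x => by simp [lap]⟩

lemma isHarm_sum {ι : Type*} (s : Finset ι) {l : ℕ} {P : ι → E n → ℝ}
    (hP : ∀ i ∈ s, IsHarm l (P i)) : IsHarm l (∑ i ∈ s, P i) := by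
  induction s using Finset.cons_induction with
  | empty => rw [Finset.sum_empty]; exact isHarm_zero l
  | cons a s ha ih =>
    rw [Finset.sum_cons]
    exact isHarm_add (hP a (by simp)) (ih fun i hi => hP i (by simp [hi]))

lemma harm_zero_deg {P : E n → ℝ} (hP : IsHarm 0 P) (x : E n) : P x = P 0 := by
  have := hP.1
  rw [polyHom, Submodule.mem_span_singleton] at this
  obtain ⟨c, rfl⟩ := this
  rfl

lemma hasFDerivAt_rproj {θ : E n} (hθ : ‖θ‖ = 1) :
    HasFDerivAt (rproj : E n → E n)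
      (ContinuousLinearMap.id ℝ (E n) - (innerSL ℝ θ).smulRight θ) θ := by
  have heq : (rproj : E n → E n) =ᶠ[nhds θ] fun x => (√(‖x‖ ^ 2))⁻¹ • x := by
    have : ∀ᶠ x : E n in nhds θ, (1 : ℝ) / 2 < ‖x‖ :=
      continuous_norm.tendsto θ |>.eventually (eventually_gt_nhds (by rw [hθ]; norm_num))
    filter_upwards [this] with x hx
    rw [rproj, max_eq_right hx.le, Real.sqrt_sq (norm_nonneg x)]
  refine HasFDerivAt.congr_of_eventuallyEq ?_ heq
  have h2 : HasFDerivAt (fun x : E n => ‖x‖ ^ 2) _ θ := (hasFDerivAt_id θ).norm_sq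
  have h3 := (hasDerivAt_inv (show √(‖θ‖ ^ 2) ≠ 0 by rw [hθ]; norm_num)).comp_hasFDerivAt θ
    (h2.sqrt (by rw [hθ]; norm_num))
  refine (h3.smul (hasFDerivAt_id θ)).congr_fderiv ?_
  ext w
  simp [hθ]
  module

lemma lipschitz_comp_rproj {P : E n → ℝ} (hP : ContDiff ℝ 1 P) :
    ∃ C : ℝ≥0, LipschitzWith C fun x => P (rproj x) := by
  obtain ⟨K, hK⟩ := (hP.locallyLipschitz.locallyLipschitzOn (s := closedBall (0 : E n) 1)
    ).exists_lipschitzOnWith_of_compact (isCompact_closedBall _ _)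
  refine ⟨K * 4, ?_⟩
  rw [← lipschitzOnWith_univ]
  refine hK.comp (lipschitzOnWith_univ.2 lipschitz_rproj) fun x _ => ?_
  have hmax : (0 : ℝ) < max (1 / 2) ‖x‖ := lt_max_of_lt_left (by norm_num)
  rw [mem_closedBall_zero_iff, rproj, norm_smul, norm_inv, Real.norm_of_nonneg hmax.le,
    inv_mul_le_one₀ hmax]
  exact le_max_right _ _

/-- Integration by parts for polynomials. -/
theorem poly_ibp (hn : 2 ≤ n) {b a : ℕ} {H : E n → ℝ} (hH : H ∈ polyHom n b)
    {Φ : E n → E n} (hΦ : ContDiff ℝ 1 Φ)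
    (hΦh : ∀ (r : ℝ) (x : E n), 0 < r → Φ (r • x) = r ^ a • Φ x) :
    ∫ θ, fderiv ℝ H θ (Φ θ) ∂sphM n
      = ((n : ℝ) + a + b - 1) * ∫ θ, H θ * ⟪θ, Φ θ⟫ ∂sphM n
        - ∫ θ, H θ * divg Φ θ ∂sphM n := by
  have hH1 : ContDiff ℝ 1 H := (polyHom_contDiff hH).of_le (by simp)
  obtain ⟨C, hC⟩ := lipschitz_comp_rproj hH1
  have hfix : ∀ θ : E n, ‖θ‖ = 1 → rproj θ = θ := fun θ hθ => by
    simpa using rproj_smul (r := (1 : ℝ)) (by norm_num) hθ
  have key := sph_ibp hn (b := 0) hC (fun r θ hr hθ => by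
    rw [rproj_smul hr hθ, hfix θ hθ, pow_zero, one_mul]) hΦ hΦh
  have hae := sphM_ae_norm hn
  have e1 : ∫ θ, H (rproj θ) * ⟪θ, Φ θ⟫ ∂sphM n = ∫ θ, H θ * ⟪θ, Φ θ⟫ ∂sphM n :=
    integral_congr_ae (hae.mono fun θ hθ => by simp only [hfix θ hθ])
  have e2 : ∫ θ, H (rproj θ) * divg Φ θ ∂sphM n = ∫ θ, H θ * divg Φ θ ∂sphM n :=
    integral_congr_ae (hae.mono fun θ hθ => by simp only [hfix θ hθ])
  have i1 : Integrable (fun θ => fderiv ℝ H θ (Φ θ)) (sphM n) :=
    integrable_sphM hn ((hH1.continuous_fderiv (by simp)).clm_apply hΦ.continuous)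
  have i2 : Integrable (fun θ => H θ * ⟪θ, Φ θ⟫) (sphM n) :=
    integrable_sphM hn (hH1.continuous.mul (continuous_id.inner hΦ.continuous))
  have e3 : ∫ θ, fderiv ℝ (fun x => H (rproj x)) θ (Φ θ) ∂sphM n
      = ∫ θ, (fderiv ℝ H θ (Φ θ) - (b : ℝ) * (H θ * ⟪θ, Φ θ⟫)) ∂sphM n := by
    refine integral_congr_ae (hae.mono fun θ hθ => ?_)
    have hd : HasFDerivAt H (fderiv ℝ H θ) (rproj θ) := by
      rw [hfix θ hθ]
      exact (polyHom_differentiable hH θ).hasFDerivAt
    change fderiv ℝ (H ∘ rproj) θ (Φ θ) = _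
    rw [(hd.comp θ (hasFDerivAt_rproj hθ)).fderiv]
    simp [euler hH]
    ring
  rw [e1, e2, e3, integral_sub i1 (i2.const_mul _), integral_const_mul] at key
  linear_combination key

/-- The Dirichlet form against a harmonic polynomial. -/
lemma harm_dir (hn : 2 ≤ n) {i j : ℕ} {P R : E n → ℝ} (hP : IsHarm i P) (hR : R ∈ polyHom n j) :
    ∫ θ, ⟪gP P θ, gP R θ⟫ ∂sphM n
      = (i : ℝ) * ((n : ℝ) + i + j - 2) * ∫ θ, R θ * P θ ∂sphM n := by
  cases i with
  | zero =>
    have : ∀ θ, gP P θ = 0 := fun θ => Finset.sum_eq_zero fun k _ => by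
      rw [show fderiv ℝ P θ (bv k) = 0 from congrFun (dd_zero_deg (bv k) hP.1) θ, zero_smul]
    simp [this]
  | succ i =>
    have key := poly_ibp hn hR ((gP_contDiff hP.1).of_le (by simp)) (a := i)
      fun r x _ => gP_homog hP.1 r x
    have h1 : (fun θ => ⟪gP P θ, gP R θ⟫) = fun θ => fderiv ℝ R θ (gP P θ) := by
      funext θ; rw [real_inner_comm, inner_gP]
    have h2 : (fun θ => R θ * ⟪θ, gP P θ⟫) = fun θ => ((i + 1 : ℕ) : ℝ) * (R θ * P θ) := by
      funext θ; rw [real_inner_comm, inner_gP, euler hP.1]; ring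
    have h3 : (fun θ => R θ * divg (gP P) θ) = fun _ => 0 := by
      funext θ; rw [divg_gP hP.1, hP.2, mul_zero]
    rw [h1, key, h2, h3, integral_const_mul, integral_zero]
    push_cast; ring

lemma harm_orth (hn : 2 ≤ n) {i j : ℕ} (hij : i ≠ j) {P R : E n → ℝ} (hP : IsHarm i P)
    (hR : IsHarm j R) : ∫ x, P x * R x ∂sphM n = 0 := by
  have h1 := harm_dir hn hP hR.1
  have h2 := harm_dir hn hR hP.1
  simp only [real_inner_comm (gP P _) (gP R _)] at h2
  simp only [mul_comm (R _) (P _)] at h1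
  have hpos : (0 : ℝ) < (n : ℝ) + i + j - 2 := by
    have : 2 < n + i + j := by omega
    have : (2 : ℝ) < ((n + i + j : ℕ) : ℝ) := by exact_mod_cast this
    push_cast at this; linarith
  have hne : ((i : ℝ) - j) * ((n : ℝ) + i + j - 2) ≠ 0 :=
    mul_ne_zero (sub_ne_zero.2 (by exact_mod_cast hij)) hpos.ne'
  refine (mul_eq_zero.1 ?_).resolve_left hne
  linear_combination h2 - h1

lemma harm_mean (hn : 2 ≤ n) {l : ℕ} (hl : l ≠ 0) {P : E n → ℝ} (hP : IsHarm l P) :
    ∫ x, P x ∂sphM n = 0 := by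
  have h1 : IsHarm 0 (fun _ : E n => (1 : ℝ)) := ⟨polyHom_const 1, fun x => by simp [lap]⟩
  simpa using harm_orth hn hl hP h1

lemma harm_linear_orth (hn : 2 ≤ n) {l : ℕ} (hl : l ≠ 1) {P : E n → ℝ} (hP : IsHarm l P)
    (v : E n) : ∫ x, P x * ⟪v, x⟫ ∂sphM n = 0 :=
  harm_orth hn hl hP (harm_linear v)

/-- Multiplication by a linear form. -/
theorem harm_mul_linear (hn : 2 ≤ n) {l : ℕ} {P : E n → ℝ} (hP : IsHarm (l + 1) P) (v : E n) :
    ∃ A, IsHarm (l + 2) A ∧ ∀ x, ⟪v, x⟫ * P x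
      = A x + ‖x‖ ^ 2 * (fderiv ℝ P x v / ((n : ℝ) + 2 * l)) := by
  have hD : IsHarm l (dd v P) := hP.dderiv v
  have hc : (n : ℝ) + 2 * l ≠ 0 := by
    have : (2 : ℝ) ≤ n := by exact_mod_cast hn
    positivity
  have h1 := polyHom_inner_mul hP.1 v
  have h2 := Submodule.smul_mem _ (-(1 / ((n : ℝ) + 2 * l))) (polyHom_normSq_mul hD.1)
  refine ⟨(fun x => ⟪v, x⟫ * P x) + (-(1 / ((n : ℝ) + 2 * l))) • fun x => ‖x‖ ^ 2 * dd v P x,
    ⟨Submodule.add_mem _ h1 h2, fun x => ?_⟩, fun x => ?_⟩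
  · rw [lap_add h1 h2, lap_smul (polyHom_normSq_mul hD.1), lap_inner_mul v (polyHom_contDiff hP.1),
      lap_normSq_mul hD.1, hP.2, hD.2]
    simp only [dd]
    field_simp; ring
  · simp only [Pi.add_apply, Pi.smul_apply, smul_eq_mul, dd]
    field_simp; ring

theorem exists_onb {V : Type*} [AddCommGroup V] [Module ℝ V] [FiniteDimensional ℝ V]
    (c : InnerProductSpace.Core ℝ V) :
    ∃ (d : ℕ) (e : Fin d → V), (∀ i j, c.inner (e i) (e j) = if i = j then 1 else 0) ∧
      ∀ v, ∑ i, c.inner (e i) v • e i = v := by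
  let : NormedAddCommGroup V := c.toNormedAddCommGroup
  let : InnerProductSpace ℝ V := InnerProductSpace.ofCore c.toCore
  exact ⟨_, stdOrthonormalBasis ℝ V,
    fun i j => orthonormal_iff_ite.1 (stdOrthonormalBasis ℝ V).orthonormal i j,
    fun v => (stdOrthonormalBasis ℝ V).sum_repr' v⟩

lemma polyHom_eq_zero (hn : 2 ≤ n) {l : ℕ} {P : E n → ℝ} (hP : P ∈ polyHom n l)
    (h : ∫ x, P x * P x ∂sphM n = 0) : P = 0 := by
  have hs : ∀ y : E n, ‖y‖ = 1 → P y = 0 := fun y hy => mul_self_eq_zero.1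
    (sphM_eq_zero hn ((polyHom_continuous hP).mul (polyHom_continuous hP))
      (fun x => mul_self_nonneg (P x)) h hy)
  set e : E n := bv ⟨0, by omega⟩ with he_def
  have he : ‖e‖ = 1 := by simp [he_def, bv]
  funext x
  by_cases hx : x = 0
  · rw [hx, show (0 : E n) = (0 : ℝ) • e by rw [zero_smul], polyHom_homog hP, hs _ he, mul_zero]
    rfl
  · have h1 : ‖(‖x‖⁻¹) • x‖ = 1 := by simp [norm_smul, hx]
    calc P x = P (‖x‖ • ((‖x‖⁻¹) • x)) := by
          rw [smul_smul, mul_inv_cancel₀ (norm_ne_zero_iff.2 hx), one_smul]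
      _ = 0 := by rw [polyHom_homog hP, hs _ h1, mul_zero]

/-- The harmonic polynomials of a degree. -/
noncomputable def harmSub (n l : ℕ) : Submodule ℝ (E n → ℝ) where
  carrier := {P | IsHarm l P}
  add_mem' := fun hP hR => isHarm_add hP hR
  zero_mem' := isHarm_zero l
  smul_mem' := fun c _ hP => isHarm_smul c hP

theorem exists_harm_onb (hn : 2 ≤ n) (l : ℕ) :
    ∃ (d : ℕ) (Y : Fin d → E n → ℝ), (∀ i, IsHarm l (Y i)) ∧
      (∀ i j, ∫ x, Y i x * Y j x ∂sphM n = if i = j then 1 else 0) ∧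
      ∀ P, IsHarm l P → ∀ x, P x = ∑ i, (∫ y, P y * Y i y ∂sphM n) * Y i x := by
  have : FiniteDimensional ℝ (harmSub n l) :=
    Submodule.finiteDimensional_of_le (S₂ := polyHom n l) fun P hP => hP.1
  have hc : ∀ P : harmSub n l, Continuous (P : E n → ℝ) := fun P => polyHom_continuous P.2.1
  let c : InnerProductSpace.Core ℝ (harmSub n l) :=
    { inner := fun P R => ∫ x, (P : E n → ℝ) x * (R : E n → ℝ) x ∂sphM n
      conj_inner_symm := fun P R => by simp [mul_comm]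
      re_inner_nonneg := fun P => by simpa using integral_nonneg fun x => mul_self_nonneg _
      add_left := fun P R S => by
        simp only [Submodule.coe_add, Pi.add_apply, add_mul]
        exact integral_add (integrable_sphM hn ((hc P).mul (hc S)))
          (integrable_sphM hn ((hc R).mul (hc S)))
      smul_left := fun P R r => by
        simp [mul_assoc, integral_const_mul]
      definite := fun P h => Subtype.ext (polyHom_eq_zero hn P.2.1 h) }
  obtain ⟨d, e, ho, he⟩ := exists_onb c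
  refine ⟨d, fun i => (e i : E n → ℝ), fun i => (e i).2, ho, fun P hP x => ?_⟩
  have := congrArg (fun Q : harmSub n l => (Q : E n → ℝ) x) (he ⟨P, hP⟩)
  simp only [Submodule.coe_sum, Submodule.coe_smul, Finset.sum_apply, Pi.smul_apply,
    smul_eq_mul] at this
  rw [← this]
  refine Finset.sum_congr rfl fun i _ => ?_
  congr 1
  exact integral_congr_ae (Filter.Eventually.of_forall fun y => mul_comm _ _)

theorem exists_hbasis (hn : 2 ≤ n) : Nonempty (HBasis n) := by
  choose d Y h1 h2 h3 using exists_harm_onb (n := n) hn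
  exact ⟨⟨d, Y, h1, h2, h3⟩⟩

/-- A vector field of one degree against functions of degree one, and the two bounds. -/
theorem field_split (hn : 2 ≤ n) {k d : ℕ} (Y : Fin d → E n → ℝ)
    (hY : ∀ i, IsHarm (k + 3) (Y i))
    (ho : ∀ i j, ∫ x, Y i x * Y j x ∂sphM n = if i = j then 1 else 0) (b : Fin d → E n) :
    ∃ A B : E n → ℝ, IsHarm (k + 4) A ∧ IsHarm (k + 2) B ∧
      ((n : ℝ) + 2 * k + 6) / (k + 4) * ∫ x, A x ^ 2 ∂sphM n
        + ((n : ℝ) + 2 * k + 2) / (n + k) * ∫ x, B x ^ 2 ∂sphM n ≤ ∑ i, ‖b i‖ ^ 2 ∧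
      ∀ (f : E n → ℝ) (C : ℝ≥0), LipschitzWith C f →
        (∀ (r : ℝ) (θ : E n), 1 / 2 ≤ r → ‖θ‖ = 1 → f (r • θ) = r * f θ) →
        ∫ θ, fderiv ℝ f θ (∑ i, Y i θ • b i) ∂sphM n
          = ((n : ℝ) + k + 3) * ∫ θ, f θ * A θ ∂sphM n
            - ((k : ℝ) + 1) * ∫ θ, f θ * B θ ∂sphM n := by
  have hnR : (2 : ℝ) ≤ n := by exact_mod_cast hn
  have hk0 : (0 : ℝ) ≤ k := Nat.cast_nonneg k
  choose A hA hAeq using fun i => harm_mul_linear hn (l := k + 2) (hY i) (b i)
  obtain ⟨c, hcdef⟩ : ∃ c : ℝ, c = (n : ℝ) + 2 * k + 4 := ⟨_, rfl⟩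
  have hc : c ≠ 0 := by rw [hcdef]; positivity
  set A' : E n → ℝ := ∑ i, A i with hA'def
  set B' : E n → ℝ := ∑ i, c⁻¹ • dd (b i) (Y i) with hB'def
  have hA' : IsHarm (k + 4) A' := isHarm_sum _ fun i _ => hA i
  have hB' : IsHarm (k + 2) B' := isHarm_sum _ fun i _ =>
    isHarm_smul _ ((hY i).dderiv (b i))
  set Φ : E n → E n := fun x => ∑ i, Y i x • b i with hΦdef
  have hΦ : ContDiff ℝ 1 Φ := ContDiff.sum fun i _ =>
    ((polyHom_contDiff (hY i).1).of_le (by simp)).smul contDiff_const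
  have hΦh : ∀ (r : ℝ) (x : E n), 0 < r → Φ (r • x) = r ^ (k + 3) • Φ x := fun r x _ => by
    simp only [hΦdef, Finset.smul_sum, polyHom_homog (hY _).1, smul_smul]
  have hdiv : ∀ x, divg Φ x = c * B' x := fun x => by
    rw [hΦdef, divg_sum_smul _ (fun i => polyHom_differentiable (hY i).1)]
    simp only [hB'def, Finset.sum_apply, Pi.smul_apply, smul_eq_mul, Finset.mul_sum, dd]
    exact Finset.sum_congr rfl fun i _ => by rw [← mul_assoc, mul_inv_cancel₀ hc, one_mul]
  have hxΦ : ∀ x : E n, ‖x‖ = 1 → ⟪x, Φ x⟫ = A' x + B' x := fun x hx => by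
    simp only [hΦdef, hA'def, hB'def, inner_sum, real_inner_smul_right, Finset.sum_apply,
      Pi.smul_apply, smul_eq_mul, ← Finset.sum_add_distrib, dd]
    refine Finset.sum_congr rfl fun i _ => ?_
    rw [real_inner_comm, mul_comm (Y i x), hAeq i x, hx, hcdef]
    push_cast; ring
  have hae := sphM_ae_norm hn
  have hcA : Continuous A' := polyHom_continuous hA'.1
  have hcB : Continuous B' := polyHom_continuous hB'.1
  refine ⟨A', B', hA', hB', ?_, fun f C hf hfh => ?_⟩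
  · -- the norm bound
    obtain ⟨s, hs⟩ : ∃ s : ℝ, s = 1 / ((k : ℝ) + 4) := ⟨_, rfl⟩
    obtain ⟨e, hedef⟩ : ∃ e : ℝ, e = (n : ℝ) + 2 * k + 2 := ⟨_, rfl⟩
    have he : e ≠ 0 := by rw [hedef]; positivity
    obtain ⟨t, ht⟩ : ∃ t : ℝ, t = e / ((n : ℝ) + k) := ⟨_, rfl⟩
    have hnn : (0 : ℝ) ≤ ∫ θ, ‖Φ θ - s • gP A' θ - t • (B' θ • θ - e⁻¹ • gP B' θ)‖ ^ 2 ∂sphM n :=
      integral_nonneg fun θ => sq_nonneg _
    have hpw : ∀ θ : E n, ‖θ‖ = 1 →
        ‖Φ θ - s • gP A' θ - t • (B' θ • θ - e⁻¹ • gP B' θ)‖ ^ 2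
          = ‖Φ θ‖ ^ 2 - 2 * s * fderiv ℝ A' θ (Φ θ) + s ^ 2 * ⟪gP A' θ, gP A' θ⟫
            - 2 * t * (B' θ * A' θ + B' θ * B' θ) + 2 * t / e * fderiv ℝ B' θ (Φ θ)
            + t ^ 2 * (1 - 2 * ((k : ℝ) + 2) / e) * (B' θ * B' θ)
            + t ^ 2 / e ^ 2 * ⟪gP B' θ, gP B' θ⟫
            + 2 * s * t * ((k : ℝ) + 4) * (B' θ * A' θ)
            - 2 * s * t / e * ⟪gP A' θ, gP B' θ⟫ := by
      intro θ hθ
      have e1 : ⟪gP A' θ, Φ θ⟫ = fderiv ℝ A' θ (Φ θ) := inner_gP _ _ _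
      have e2 : ⟪gP B' θ, Φ θ⟫ = fderiv ℝ B' θ (Φ θ) := inner_gP _ _ _
      have e3 : ⟪gP A' θ, θ⟫ = ((k : ℝ) + 4) * A' θ := by
        rw [inner_gP, euler hA'.1]; push_cast; ring
      have e4 : ⟪gP B' θ, θ⟫ = ((k : ℝ) + 2) * B' θ := by
        rw [inner_gP, euler hB'.1]; push_cast; ring
      have e5 : ⟪θ, θ⟫ = (1 : ℝ) := by rw [real_inner_self_eq_norm_sq, hθ, one_pow]
      rw [← real_inner_self_eq_norm_sq, ← real_inner_self_eq_norm_sq (Φ θ)]
      simp only [inner_sub_left, inner_sub_right, real_inner_smul_left, real_inner_smul_right,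
        real_inner_comm (gP A' θ) (Φ θ), real_inner_comm (gP B' θ) (Φ θ),
        real_inner_comm (gP A' θ) θ, real_inner_comm (gP B' θ) θ, real_inner_comm θ (Φ θ),
        real_inner_comm (gP A' θ) (gP B' θ), e1, e2, e3, e4, e5, hxΦ θ hθ]
      ring
    rw [integral_congr_ae (hae.mono hpw)] at hnn
    have cgA : Continuous (gP A') := (gP_contDiff hA'.1).continuous
    have cgB : Continuous (gP B') := (gP_contDiff hB'.1).continuous
    have cDA : Continuous fun θ => fderiv ℝ A' θ (Φ θ) :=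
      ((polyHom_contDiff hA'.1).continuous_fderiv (by simp)).clm_apply hΦ.continuous
    have cDB : Continuous fun θ => fderiv ℝ B' θ (Φ θ) :=
      ((polyHom_contDiff hB'.1).continuous_fderiv (by simp)).clm_apply hΦ.continuous
    have cΦ : Continuous Φ := hΦ.continuous
    repeat' first
      | rw [integral_add (integrable_sphM hn (by fun_prop)) (integrable_sphM hn (by fun_prop))] at hnn
      | rw [integral_sub (integrable_sphM hn (by fun_prop)) (integrable_sphM hn (by fun_prop))] at hnn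
    simp only [integral_const_mul] at hnn
    rw [integral_add (integrable_sphM hn (f := fun θ => B' θ * A' θ) (by fun_prop))
      (integrable_sphM hn (f := fun θ => B' θ * B' θ) (by fun_prop))] at hnn
    have hAB : ∫ θ, B' θ * A' θ ∂sphM n = 0 := harm_orth hn (by omega) hB' hA'
    have hpA := poly_ibp hn hA'.1 hΦ hΦh
    have hpB := poly_ibp hn hB'.1 hΦ hΦh
    have hm : ∀ G : E n → ℝ, Continuous G → (fun θ => G θ * ⟪θ, Φ θ⟫)
        =ᵐ[sphM n] fun θ => G θ * A' θ + G θ * B' θ := fun G _ =>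
      hae.mono fun θ hθ => by simp only [hxΦ θ hθ]; ring
    rw [integral_congr_ae (hm A' hcA), integral_add (integrable_sphM hn (by fun_prop))
      (integrable_sphM hn (by fun_prop))] at hpA
    rw [integral_congr_ae (hm B' hcB), integral_add (integrable_sphM hn (by fun_prop))
      (integrable_sphM hn (by fun_prop))] at hpB
    simp only [hdiv, mul_left_comm (A' _) c, mul_left_comm (B' _) c, integral_const_mul,
      mul_comm (A' _) (B' _), hAB] at hpA hpB
    have hdA := harm_dir hn hA' hA'.1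
    have hdB := harm_dir hn hB' hB'.1
    have hdAB := harm_dir hn hA' hB'.1
    have hnorm : ∫ θ, ‖Φ θ‖ ^ 2 ∂sphM n = ∑ i, ‖b i‖ ^ 2 := by
      have hpt : ∀ θ, ‖Φ θ‖ ^ 2 = ∑ i, ∑ j, ⟪b i, b j⟫ * (Y i θ * Y j θ) := fun θ => by
        rw [← real_inner_self_eq_norm_sq]
        simp only [hΦdef, sum_inner, inner_sum, real_inner_smul_left, real_inner_smul_right]
        exact Finset.sum_congr rfl fun i _ => Finset.sum_congr rfl fun j _ => by
          rw [real_inner_comm (b i) (b j)]; ring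
      have hcY : ∀ i j, Integrable (fun θ => ⟪b i, b j⟫ * (Y i θ * Y j θ)) (sphM n) := fun i j =>
        integrable_sphM hn (continuous_const.mul
          ((polyHom_continuous (hY i).1).mul (polyHom_continuous (hY j).1)))
      simp only [hpt]
      rw [integral_finsetSum _ fun i _ => integrable_finsetSum _ fun j _ => hcY i j]
      refine Finset.sum_congr rfl fun i _ => ?_
      rw [integral_finsetSum _ fun j _ => hcY i j]
      simp [integral_const_mul, ho]
    simp only [hpA, hpB, hdA, hdB, hdAB, hnorm, hAB] at hnn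
    simp only [← pow_two] at hnn
    rw [hcdef, hs, ht, hedef] at hnn
    push_cast at hnn
    have : (n : ℝ) + k ≠ 0 := by positivity
    field_simp at hnn
    rw [div_mul_eq_mul_div, div_mul_eq_mul_div, div_add_div _ _ (by positivity) this,
      div_le_iff₀ (by positivity)]
    refine le_of_mul_le_mul_left ?_ (show (0 : ℝ) < n + k by positivity)
    linarith [hnn]
  · have key := sph_ibp hn (b := 1) hf
      (fun r θ hr hθ => by rw [pow_one]; exact hfh r θ hr hθ) hΦ hΦh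
    have e1 : (fun θ => f θ * ⟪θ, Φ θ⟫) =ᵐ[sphM n] fun θ => f θ * A' θ + f θ * B' θ :=
      hae.mono fun θ hθ => by simp only [hxΦ θ hθ]; ring
    rw [integral_congr_ae e1, integral_add (integrable_sphM hn (hf.continuous.fun_mul hcA))
      (integrable_sphM hn (hf.continuous.fun_mul hcB))] at key
    simp only [hdiv, mul_left_comm (f _) c, integral_const_mul] at key
    rw [key, hcdef]
    push_cast; ring

lemma rr_pos (hn : 2 ≤ n) : ∀ m, 0 < rr n (m + 1)
  | 0 => by simp only [rr]; positivity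
  | m + 1 => by
    simp only [rr]
    exact mul_pos (by positivity) (rr_pos hn m)

/-- The gradient of a degree one function against a field of odd degrees. -/
theorem harm_pair (hn : 4 ≤ n) (B : HBasis n) {N : ℕ} (b : Idx B N → E n) :
    ∃ (Y : ℕ → E n → ℝ) (Qp : ℕ → ℝ),
      (∀ m, IsHarm (2 * m + 2) (Y m)) ∧ (∀ m, 0 ≤ Qp m) ∧
      (∑ m ∈ Finset.range (N + 2), Qp m ≤ qNorm B b) ∧
      (∀ m, ∫ θ, Y m θ ^ 2 ∂sphM n ≤ tauJ n m * Qp m) ∧
      ∀ (f : E n → ℝ) (C : ℝ≥0), LipschitzWith C f →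
        (∀ (r : ℝ) (θ : E n), 1 / 2 ≤ r → ‖θ‖ = 1 → f (r • θ) = r * f θ) →
        ∫ θ, fderiv ℝ f θ (fieldOf B b θ) ∂sphM n
          = ∑ m ∈ Finset.range (N + 2), ∫ θ, f θ * Y m θ ∂sphM n := by
  have hn2 : 2 ≤ n := by omega
  have hnR : (4 : ℝ) ≤ n := by exact_mod_cast hn
  choose A D hA hD hbd hint using fun m : Fin N =>
    field_split hn2 (k := 2 * (m : ℕ)) (B.Y (2 * (m : ℕ) + 3)) (fun i => B.harm _ i)
      (fun i j => B.orth _ i j) (fun i => b ⟨m, i⟩)
  set A0 : ℕ → E n → ℝ := fun m => if h : 1 ≤ m ∧ m - 1 < N then A ⟨m - 1, h.2⟩ else 0 with hA0def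
  set D0 : ℕ → E n → ℝ := fun m => if h : m < N then D ⟨m, h⟩ else 0 with hD0def
  have hA0 : ∀ m, IsHarm (2 * m + 2) (A0 m) := fun m => by
    simp only [hA0def]
    split_ifs with h
    · have := hA ⟨m - 1, h.2⟩
      rwa [show 2 * (m - 1) + 4 = 2 * m + 2 by omega] at this
    · exact isHarm_zero _
  have hD0 : ∀ m, IsHarm (2 * m + 2) (D0 m) := fun m => by
    simp only [hD0def]
    split_ifs with h
    · exact hD ⟨m, h⟩
    · exact isHarm_zero _
  have hA00 : A0 0 = 0 := by simp [hA0def]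
  have hA0s : ∀ m : Fin N, A0 ((m : ℕ) + 1) = A m := fun m => by
    simp [hA0def]
  have hD0s : ∀ m : Fin N, D0 m = D m := fun m => by simp [hD0def]
  set α : ℕ → ℝ := fun m => (n : ℝ) + 2 * m + 1 with hα
  set γ : ℕ → ℝ := fun m => 2 * (m : ℝ) + 1 with hγ
  set u : ℕ → ℝ := fun m => ((n : ℝ) + 4 * m + 2) / (2 * m + 2) / rr n m with hu
  set w : ℕ → ℝ := fun m => ((n : ℝ) + 4 * m + 2) / (n + 2 * m) / rr n (m + 1) with hw
  have hrr0 : ∀ m, 0 ≤ rr n m := fun m => by
    cases m with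
    | zero => simp [rr]
    | succ m => exact (rr_pos hn2 m).le
  have hu0 : ∀ m, 0 ≤ u m := fun m => by
    have := hrr0 m
    simp only [hu]; positivity
  have hw0 : ∀ m, 0 < w m := fun m => by
    have := rr_pos hn2 m
    simp only [hw]; positivity
  refine ⟨fun m => α m • A0 m + (-γ m) • D0 m,
    fun m => u m * ∫ θ, A0 m θ ^ 2 ∂sphM n + w m * ∫ θ, D0 m θ ^ 2 ∂sphM n,
    fun m => isHarm_add (isHarm_smul _ (hA0 m)) (isHarm_smul _ (hD0 m)), fun m => ?_, ?_,
    fun m => ?_, fun f C hf hfh => ?_⟩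
  · exact add_nonneg (mul_nonneg (hu0 m) (integral_nonneg fun θ => sq_nonneg _))
      (mul_nonneg (hw0 m).le (integral_nonneg fun θ => sq_nonneg _))
  · rw [Finset.sum_add_distrib, Finset.sum_range_succ' _ (N + 1), Finset.sum_range_succ _ N,
      Finset.sum_range_succ _ (N + 1), Finset.sum_range_succ _ N]
    have z1 : ∫ θ, A0 0 θ ^ 2 ∂sphM n = 0 := by simp [hA00]
    have z2 : ∫ θ, A0 (N + 1) θ ^ 2 ∂sphM n = 0 := by simp [hA0def]
    have z3 : ∀ m, N ≤ m → ∫ θ, D0 m θ ^ 2 ∂sphM n = 0 := fun m hm => by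
      simp [hD0def, not_lt.2 hm]
    rw [z1, z2, z3 N le_rfl, z3 (N + 1) (Nat.le_succ N)]
    simp only [mul_zero, add_zero]
    rw [← Fin.sum_univ_eq_sum_range, ← Fin.sum_univ_eq_sum_range, ← Finset.sum_add_distrib,
      qNorm, Fintype.sum_sigma]
    refine Finset.sum_le_sum fun m _ => ?_
    simp only [hA0s, hD0s]
    rw [← Finset.sum_div]
    have hr := rr_pos hn2 (m : ℕ)
    refine le_trans (le_of_eq ?_) (div_le_div_of_nonneg_right (hbd m) hr.le)
    simp only [hu, hw]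
    push_cast
    field_simp
    ring
  · have c1 := polyHom_continuous (hA0 m).1
    have c2 := polyHom_continuous (hD0 m).1
    have hpt : ∀ θ, (α m • A0 m + (-γ m) • D0 m) θ ^ 2
        ≤ tauJ n m * (u m * A0 m θ ^ 2 + w m * D0 m θ ^ 2) := by
      intro θ
      simp only [Pi.add_apply, Pi.smul_apply, smul_eq_mul]
      rcases Nat.eq_zero_or_pos m with rfl | hm
      · rw [hA00]
        have h1 : (n : ℝ) + 1 ≠ 0 := by positivity
        have h2 : (n : ℝ) + 2 ≠ 0 := by positivity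
        have h3 : (n : ℝ) ≠ 0 := by positivity
        simp only [hα, hγ, hu, hw, tauJ, rr, Nat.cast_zero, Pi.zero_apply]
        apply le_of_eq
        field_simp
        ring
      · obtain ⟨p, rfl⟩ : ∃ p, m = p + 1 := ⟨m - 1, by omega⟩
        have hr1 := rr_pos hn2 p
        have hr2 := rr_pos hn2 (p + 1)
        have hpu : 0 < u (p + 1) := by simp only [hu]; positivity
        have hτ : tauJ n (p + 1) = α (p + 1) ^ 2 / u (p + 1) + γ (p + 1) ^ 2 / w (p + 1) := by
          simp only [hα, hγ, hu, hw, tauJ]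
          field_simp
        rw [hτ]
        have := hw0 (p + 1)
        generalize α (p + 1) = a, γ (p + 1) = g, u (p + 1) = u', w (p + 1) = w',
          A0 (p + 1) θ = x, D0 (p + 1) θ = y at hpu this ⊢
        rw [div_add_div _ _ hpu.ne' this.ne', div_mul_eq_mul_div, le_div_iff₀ (by positivity)]
        nlinarith [sq_nonneg (a * w' * y + g * u' * x)]
    refine (integral_mono (integrable_sphM hn2 ?_) (integrable_sphM hn2 ?_) hpt).trans (le_of_eq ?_)
    · exact ((c1.const_smul (α m)).add (c2.const_smul (-γ m))).pow 2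
    · fun_prop
    · rw [integral_const_mul, integral_add (integrable_sphM hn2 (by fun_prop))
        (integrable_sphM hn2 (by fun_prop)), integral_const_mul, integral_const_mul]
  · have hcY : ∀ ι : Idx B N, Continuous (B.fn ι) := fun ι => polyHom_continuous (B.harm _ _).1
    have hi : ∀ ι : Idx B N, Integrable (fun θ => fderiv ℝ f θ (B.fn ι θ • b ι)) (sphM n) := by
      intro ι
      simp only [map_smul, smul_eq_mul]
      refine Integrable.mul_bdd (c := (C : ℝ) * ‖b ι‖) (integrable_sphM hn2 (hcY ι))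
        (measurable_fderiv_apply_const ℝ f (b ι)).aestronglyMeasurable
        (Filter.Eventually.of_forall fun θ => ?_)
      exact ((fderiv ℝ f θ).le_opNorm _).trans
        (mul_le_mul_of_nonneg_right (norm_fderiv_le_of_lipschitz ℝ hf) (norm_nonneg _))
    have hsum : ∫ θ, fderiv ℝ f θ (fieldOf B b θ) ∂sphM n
        = ∑ m : Fin N, ∫ θ, fderiv ℝ f θ (∑ i, B.Y (2 * (m : ℕ) + 3) i θ • b ⟨m, i⟩) ∂sphM n := by
      simp only [fieldOf, Fintype.sum_sigma, map_sum]
      rw [integral_finsetSum _ fun m _ => integrable_finsetSum _ fun i _ => hi ⟨m, i⟩]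
      rfl
    rw [hsum, Finset.sum_congr rfl fun m _ => hint m f C hf hfh]
    have hR : ∀ m, ∫ θ, f θ * (α m • A0 m + (-γ m) • D0 m) θ ∂sphM n
        = α m * ∫ θ, f θ * A0 m θ ∂sphM n - γ m * ∫ θ, f θ * D0 m θ ∂sphM n := fun m => by
      simp only [Pi.add_apply, Pi.smul_apply, smul_eq_mul, mul_add, mul_left_comm (f _)]
      rw [integral_add ((integrable_sphM hn2 (hf.continuous.fun_mul (polyHom_continuous (hA0 m).1))).const_mul _)
        ((integrable_sphM hn2 (hf.continuous.fun_mul (polyHom_continuous (hD0 m).1))).const_mul _),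
        integral_const_mul, integral_const_mul]
      ring
    rw [Finset.sum_congr rfl fun m _ => hR m, Finset.sum_sub_distrib, Finset.sum_sub_distrib,
      Finset.sum_range_succ' _ (N + 1), Finset.sum_range_succ _ N,
      Finset.sum_range_succ _ (N + 1), Finset.sum_range_succ _ N]
    have z1 : ∫ θ, f θ * A0 0 θ ∂sphM n = 0 := by simp [hA00]
    have z2 : ∫ θ, f θ * A0 (N + 1) θ ∂sphM n = 0 := by simp [hA0def]
    have z3 : ∀ m, N ≤ m → ∫ θ, f θ * D0 m θ ∂sphM n = 0 := fun m hm => by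
      simp [hD0def, not_lt.2 hm]
    rw [z1, z2, z3 N le_rfl, z3 (N + 1) (Nat.le_succ N)]
    simp only [mul_zero, add_zero]
    rw [← Fin.sum_univ_eq_sum_range, ← Fin.sum_univ_eq_sum_range]
    simp only [hA0s, hD0s, hα, hγ]
    push_cast
    ring_nf

/-- A degree zero function against a harmonic function is seen by the tangential gradient. -/
theorem harm_pair_grad (hn : 2 ≤ n) {f : E n → ℝ} {C : ℝ≥0} (hf : LipschitzWith C f)
    (hfh : ∀ (r : ℝ) (θ : E n), 1 / 2 ≤ r → ‖θ‖ = 1 → f (r • θ) = f θ)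
    (M : Finset ℕ) (Y : ℕ → E n → ℝ) (hY : ∀ m, IsHarm (2 * m + 2) (Y m)) :
    (∑ m ∈ M, ∫ θ, f θ * Y m θ ∂sphM n) ^ 2
      ≤ (∫ θ, tangSq f θ ∂sphM n) * ∑ m ∈ M, (∫ θ, Y m θ ^ 2 ∂sphM n) / lamJ n m := by
  have := isProb_sphM hn
  have hnR : (2 : ℝ) ≤ n := by exact_mod_cast hn
  have hlam : ∀ m, 0 < lamJ n m := fun m => by unfold lamJ; positivity
  have hfh0 : ∀ (r : ℝ) (θ : E n), 1 / 2 ≤ r → ‖θ‖ = 1 → f (r • θ) = r ^ 0 * f θ :=
    fun r θ hr hθ => by rw [pow_zero, one_mul]; exact hfh r θ hr hθ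
  set g : ℕ → E n → E n := fun m θ => gP (Y m) θ with hg
  have hgc : ∀ m, Continuous (g m) := fun m => (gP_contDiff (hY m).1).continuous
  have hS : ∀ m, ∫ θ, fderiv ℝ f θ (g m θ) ∂sphM n = lamJ n m * ∫ θ, f θ * Y m θ ∂sphM n := by
    intro m
    have key := sph_ibp hn (b := 0) hf hfh0 (a := 2 * m + 1)
      ((gP_contDiff (hY m).1).of_le (by simp)) fun r x _ => gP_homog (hY m).1 r x
    have h2 : (fun θ => f θ * ⟪θ, gP (Y m) θ⟫)
        = fun θ => ((2 * m + 2 : ℕ) : ℝ) * (f θ * Y m θ) := by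
      funext θ; rw [real_inner_comm, inner_gP, euler (hY m).1]; ring
    have h3 : (fun θ => f θ * divg (gP (Y m)) θ) = fun _ => 0 := by
      funext θ; rw [divg_gP (hY m).1, (hY m).2, mul_zero]
    rw [h2, h3, integral_const_mul, integral_zero] at key
    rw [hg, key, lamJ]; push_cast; ring
  set G : E n → E n := fun θ => ∑ m ∈ M, (lamJ n m)⁻¹ • g m θ with hG
  have hGc : Continuous G := by
    simp only [hG]; exact continuous_finsetSum _ fun m _ => (hgc m).fun_const_smul _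
  have hbd : ∀ θ, ‖fderiv ℝ f θ‖ ≤ C := fun θ => norm_fderiv_le_of_lipschitz ℝ hf
  have iD : ∀ {v : E n → E n}, Continuous v → Integrable (fun θ => fderiv ℝ f θ (v θ)) (sphM n) := by
    intro v hv
    refine ((integrable_sphM hn hv.norm).const_mul (C : ℝ)).mono' ?_
      (Filter.Eventually.of_forall fun θ => ((fderiv ℝ f θ).le_opNorm _).trans
        (mul_le_mul_of_nonneg_right (hbd θ) (norm_nonneg _)))
    have : (fun θ => fderiv ℝ f θ (v θ)) = fun θ => ∑ i, v θ i * fderiv ℝ f θ (bv i) := by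
      funext θ
      conv_lhs => rw [← sum_coord_bv (v θ)]
      simp only [map_sum, map_smul, smul_eq_mul]
    rw [this]
    exact (Finset.measurable_fun_sum _ fun i _ =>
      (((PiLp.continuous_apply 2 _ i).comp hv).measurable).mul
        (measurable_fderiv_apply_const ℝ f (bv i))).aestronglyMeasurable
  have hsum : ∫ θ, fderiv ℝ f θ (G θ) ∂sphM n = ∑ m ∈ M, ∫ θ, f θ * Y m θ ∂sphM n := by
    simp only [hG, map_sum, map_smul, smul_eq_mul]
    rw [integral_finsetSum _ fun m _ => (iD (hgc m)).const_mul _]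
    refine Finset.sum_congr rfl fun m _ => ?_
    rw [integral_const_mul, hS, ← mul_assoc, inv_mul_cancel₀ (hlam m).ne', one_mul]
  have iT : Integrable (tangSq f) (sphM n) := by
    have hm1 : Measurable fun θ : E n => fderiv ℝ f θ θ := by
      have : (fun θ : E n => fderiv ℝ f θ θ) = fun θ => ∑ i, θ i * fderiv ℝ f θ (bv i) := by
        funext θ
        conv_lhs => rw [← sum_coord_bv θ]
        rw [sum_coord_bv θ]
        conv_lhs => arg 2; rw [← sum_coord_bv θ]
        simp only [map_sum, map_smul, smul_eq_mul]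
      rw [this]
      exact Finset.measurable_fun_sum _ fun i _ =>
        ((PiLp.continuous_apply 2 _ i).measurable).mul (measurable_fderiv_apply_const ℝ f (bv i))
    refine (integrable_const ((C : ℝ) ^ 2)).mono'
      (((measurable_fderiv ℝ f).norm.pow_const 2).sub (hm1.pow_const 2)).aestronglyMeasurable ?_
    filter_upwards [sphM_ae_norm hn] with θ hθ
    have h1 : |fderiv ℝ f θ θ| ≤ ‖fderiv ℝ f θ‖ := by
      simpa [hθ] using (fderiv ℝ f θ).le_opNorm θ
    have h2 : (fderiv ℝ f θ θ) ^ 2 ≤ ‖fderiv ℝ f θ‖ ^ 2 := by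
      rw [← sq_abs]; exact pow_le_pow_left₀ (abs_nonneg _) h1 2
    rw [tangSq, Real.norm_eq_abs, abs_of_nonneg (by linarith)]
    nlinarith [hbd θ, norm_nonneg (fderiv ℝ f θ)]
  set T : ℝ := ∫ θ, tangSq f θ ∂sphM n with hT
  set W : ℝ := ∫ θ, (‖G θ‖ ^ 2 - ⟪θ, G θ⟫ ^ 2) ∂sphM n with hW
  have iW : Integrable (fun θ => ‖G θ‖ ^ 2 - ⟪θ, G θ⟫ ^ 2) (sphM n) :=
    integrable_sphM hn (by fun_prop)
  have hq : ∀ s : ℝ, 0 ≤ T * (s * s) + 2 * (∑ m ∈ M, ∫ θ, f θ * Y m θ ∂sphM n) * s + W := by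
    intro s
    have i1 : Integrable (fun θ => tangSq f θ * (s * s)) (sphM n) := iT.mul_const _
    have i2 : Integrable (fun θ => 2 * s * fderiv ℝ f θ (G θ)) (sphM n) := (iD hGc).const_mul _
    have hpos : 0 ≤ ∫ θ, (tangSq f θ * (s * s) + 2 * s * fderiv ℝ f θ (G θ)
        + (‖G θ‖ ^ 2 - ⟪θ, G θ⟫ ^ 2)) ∂sphM n := by
      refine integral_nonneg_of_ae ?_
      filter_upwards [sphM_ae_norm hn, sph_ae_diff hn hf hfh0] with θ hθ hd
      have hz : fderiv ℝ f θ θ = 0 := by rw [hd.2]; simp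
      set w : E n := G θ - ⟪θ, G θ⟫ • θ with hwdef
      have hwn : ‖w‖ ^ 2 = ‖G θ‖ ^ 2 - ⟪θ, G θ⟫ ^ 2 := by
        rw [hwdef, norm_sub_sq_real, real_inner_smul_right, norm_smul, hθ, Real.norm_eq_abs,
          mul_one, sq_abs, real_inner_comm θ]
        ring
      have hDw : fderiv ℝ f θ (G θ) = fderiv ℝ f θ w := by
        rw [hwdef, map_sub, map_smul, hz, smul_zero, sub_zero]
      simp only [Pi.zero_apply, tangSq, hz, hDw, ← hwn]
      have hop : |s * fderiv ℝ f θ w| ≤ |s| * (‖fderiv ℝ f θ‖ * ‖w‖) := by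
        rw [abs_mul]
        exact mul_le_mul_of_nonneg_left ((fderiv ℝ f θ).le_opNorm w) (abs_nonneg s)
      nlinarith [neg_abs_le (s * fderiv ℝ f θ w), sq_nonneg (|s| * ‖fderiv ℝ f θ‖ - ‖w‖), sq_abs s]
    rw [integral_add (i1.fun_add i2) iW, integral_add i1 i2, integral_mul_const,
      integral_const_mul, hsum] at hpos
    linarith [show T * (s * s) + 2 * (∑ m ∈ M, ∫ θ, f θ * Y m θ ∂sphM n) * s
      = T * (s * s) + 2 * s * (∑ m ∈ M, ∫ θ, f θ * Y m θ ∂sphM n) by ring]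
  have hdisc := discrim_le_zero hq
  have hWeq : W = ∑ m ∈ M, (∫ θ, Y m θ ^ 2 ∂sphM n) / lamJ n m := by
    set L : ℕ → ℝ := fun m => ((2 * m + 2 : ℕ) : ℝ) with hL
    have hpt : ∀ θ, ‖G θ‖ ^ 2 - ⟪θ, G θ⟫ ^ 2 = ∑ m ∈ M, ∑ p ∈ M, (lamJ n m)⁻¹ * (lamJ n p)⁻¹ *
        (⟪g m θ, g p θ⟫ - L m * L p * (Y m θ * Y p θ)) := by
      intro θ
      have he : ∀ m, ⟪θ, g m θ⟫ = L m * Y m θ := fun m => by
        rw [hg, real_inner_comm, inner_gP, euler (hY m).1]
      rw [← real_inner_self_eq_norm_sq]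
      simp only [hG, sum_inner, inner_sum, real_inner_smul_left,
        real_inner_smul_right, he, pow_two, Finset.sum_mul, Finset.mul_sum,
        ← Finset.sum_sub_distrib]
      refine Finset.sum_congr rfl fun m _ => Finset.sum_congr rfl fun p _ => ?_
      rw [real_inner_comm (g m θ) (g p θ)]; ring
    have hint : ∀ m p, Integrable (fun θ => (lamJ n m)⁻¹ * (lamJ n p)⁻¹ *
        (⟪g m θ, g p θ⟫ - L m * L p * (Y m θ * Y p θ))) (sphM n) := fun m p =>
      integrable_sphM hn (continuous_const.mul (((hgc m).inner (hgc p)).sub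
        (continuous_const.mul ((polyHom_continuous (hY m).1).mul (polyHom_continuous (hY p).1)))))
    rw [hW]
    simp only [hpt]
    rw [integral_finsetSum _ fun m _ => integrable_finsetSum _ fun p _ => hint m p]
    refine Finset.sum_congr rfl fun m hm => ?_
    rw [integral_finsetSum _ fun p _ => hint m p]
    rw [Finset.sum_eq_single m]
    · rw [integral_const_mul, integral_sub (integrable_sphM hn ((hgc m).inner (hgc m)))
        ((integrable_sphM hn ((polyHom_continuous (hY m).1).fun_mul (polyHom_continuous (hY m).1))).const_mul _),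
        integral_const_mul, harm_dir hn (hY m) (hY m).1]
      have := hlam m
      simp only [pow_two, hL, lamJ] at this ⊢
      field_simp
      push_cast
      ring
    · intro p _ hp
      rw [integral_const_mul, integral_sub (integrable_sphM hn ((hgc m).inner (hgc p)))
        ((integrable_sphM hn ((polyHom_continuous (hY m).1).fun_mul (polyHom_continuous (hY p).1))).const_mul _),
        integral_const_mul, harm_dir hn (hY m) (hY p).1,
        harm_orth hn (by omega) (hY m) (hY p), harm_orth hn (by omega) (hY p) (hY m)]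
      ring
    · exact fun h => absurd hm h
  rw [← hWeq]
  rw [discrim] at hdisc
  nlinarith [hdisc]

end Vale.Agent.P237H
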