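import Vale.Agent.P237H.Sphere

/-!
# Polynomial functions: derivatives and the Laplacian
-/

namespace Vale.Agent.P237H

open MeasureTheory Set Metric Vale.Agent.P237 Vale.Agent.P237R
open scoped RealInnerProductSpace NNReal

variable {n : ℕ}

/-- Directional derivative. -/
noncomputable def dd (v : E n) (P : E n → ℝ) : E n → ℝ := fun x => fderiv ℝ P x v

/-- The vector of partial derivatives. -/
noncomputable def gP (P : E n → ℝ) (x : E n) : E n := ∑ i, fderiv ℝ P x (bv i) • bv i

lemma inner_bv (i : Fin n) (x : E n) : ⟪bv i, x⟫ = x i := by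
  simp [bv, EuclideanSpace.inner_single_left]

lemma sum_coord_bv (v : E n) : ∑ i, v i • bv i = v := by
  ext j
  simp [bv, Pi.single_apply]

lemma inner_bv_bv (i j : Fin n) : ⟪bv i, bv j⟫ = if i = j then (1 : ℝ) else 0 := by
  rw [inner_bv]; simp [bv]

lemma inner_gP (P : E n → ℝ) (x v : E n) : ⟪gP P x, v⟫ = fderiv ℝ P x v := by
  conv_rhs => rw [← sum_coord_bv v]
  simp only [gP, sum_inner, real_inner_smul_left, inner_bv, map_sum, map_smul, smul_eq_mul]
  exact Finset.sum_congr rfl fun i _ => mul_comm _ _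

lemma polyHom_const (c : ℝ) : (fun _ : E n => c) ∈ polyHom n 0 := by
  rw [polyHom]
  exact Submodule.mem_span_singleton.2 ⟨c, by funext x; simp⟩

lemma polyHom_coord {l : ℕ} {p : E n → ℝ} (i : Fin n) (hp : p ∈ polyHom n l) :
    (fun x => x i * p x) ∈ polyHom n (l + 1) := by
  rw [polyHom]
  exact Submodule.subset_span ⟨i, p, hp, rfl⟩

theorem polyHom_induction {motive : (l : ℕ) → (E n → ℝ) → Prop}
    (const : ∀ c : ℝ, motive 0 fun _ => c) (zero : ∀ l, motive l 0)
    (coord : ∀ l i p, p ∈ polyHom n l → motive l p → motive (l + 1) fun x => x i * p x)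
    (add : ∀ l p q, p ∈ polyHom n l → q ∈ polyHom n l → motive l p → motive l q → motive l (p + q))
    (smul : ∀ l (c : ℝ) p, p ∈ polyHom n l → motive l p → motive l (c • p)) :
    ∀ {l : ℕ} {P : E n → ℝ}, P ∈ polyHom n l → motive l P := by
  intro l
  induction l with
  | zero =>
    intro P hP
    rw [polyHom, Submodule.mem_span_singleton] at hP
    obtain ⟨c, rfl⟩ := hP
    have : (c • fun _ : E n => (1 : ℝ)) = fun _ => c := by funext x; simp
    rw [this]
    exact const c
  | succ l ih =>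
    intro P hP
    rw [polyHom] at hP
    induction hP using Submodule.span_induction with
    | mem g hg =>
      obtain ⟨i, p, hp, rfl⟩ := hg
      exact coord l i p hp (ih hp)
    | zero => exact zero _
    | add p q hp hq h1 h2 =>
      exact add _ p q (by rw [polyHom]; exact hp) (by rw [polyHom]; exact hq) h1 h2
    | smul c p hp h => exact smul _ c p (by rw [polyHom]; exact hp) h

lemma polyHom_contDiff {l : ℕ} {P : E n → ℝ} (hP : P ∈ polyHom n l) :
    ContDiff ℝ (⊤ : ℕ∞) P := by
  refine polyHom_induction (motive := fun _ P => ContDiff ℝ (⊤ : ℕ∞) P)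
    (fun c => contDiff_const) (fun l => contDiff_const) (fun l i p _ hp => ?_)
    (fun l p q _ _ hp hq => hp.add hq) (fun l c p _ hp => hp.const_smul c) hP
  exact (contDiff_piLp_apply (p := 2)).mul hp

lemma polyHom_differentiable {l : ℕ} {P : E n → ℝ} (hP : P ∈ polyHom n l) : Differentiable ℝ P :=
  (polyHom_contDiff hP).differentiable (by simp)

lemma polyHom_continuous {l : ℕ} {P : E n → ℝ} (hP : P ∈ polyHom n l) : Continuous P :=
  (polyHom_contDiff hP).continuous

lemma polyHom_homog {l : ℕ} {P : E n → ℝ} (hP : P ∈ polyHom n l) (r : ℝ) (x : E n) :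
    P (r • x) = r ^ l * P x := by
  refine polyHom_induction (motive := fun l P => P (r • x) = r ^ l * P x)
    (fun c => by simp) (fun l => by simp) (fun l i p _ hp => ?_) (fun l p q _ _ hp hq => ?_)
    (fun l c p _ hp => ?_) hP
  · simp only [PiLp.smul_apply, smul_eq_mul, hp, pow_succ]; ring
  · simp only [Pi.add_apply, hp, hq]; ring
  · simp only [Pi.smul_apply, smul_eq_mul, hp]; ring

lemma polyHom_inner_mul {l : ℕ} {P : E n → ℝ} (hP : P ∈ polyHom n l) (v : E n) :
    (fun x => ⟪v, x⟫ * P x) ∈ polyHom n (l + 1) := by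
  have : (fun x => ⟪v, x⟫ * P x) = ∑ i, v i • fun x : E n => x i * P x := by
    funext x
    conv_lhs => rw [← sum_coord_bv v]
    simp only [sum_inner, real_inner_smul_left, inner_bv, Finset.sum_apply, Pi.smul_apply,
      smul_eq_mul, Finset.sum_mul]
    exact Finset.sum_congr rfl fun i _ => by ring
  rw [this]
  exact Submodule.sum_mem _ fun i _ => Submodule.smul_mem _ _ (polyHom_coord i hP)

lemma polyHom_normSq_mul {l : ℕ} {P : E n → ℝ} (hP : P ∈ polyHom n l) :
    (fun x => ‖x‖ ^ 2 * P x) ∈ polyHom n (l + 2) := by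
  have : (fun x => ‖x‖ ^ 2 * P x) = ∑ i, fun x : E n => x i * (x i * P x) := by
    funext x
    rw [EuclideanSpace.norm_sq_eq, Finset.sum_apply, Finset.sum_mul]
    refine Finset.sum_congr rfl fun i _ => ?_
    rw [Real.norm_eq_abs, sq_abs]; ring
  rw [this]
  exact Submodule.sum_mem _ fun i _ => polyHom_coord i (polyHom_coord i hP)

lemma dd_const (v : E n) (c : ℝ) : dd v (fun _ => c) = fun _ => 0 := by
  funext x; simp [dd]

lemma dd_coord (v : E n) (i : Fin n) {p : E n → ℝ} (hp : Differentiable ℝ p) :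
    dd v (fun x => x i * p x) = fun x => v i * p x + x i * dd v p x := by
  funext x
  have h1 : HasFDerivAt (fun x : E n => x i) (PiLp.proj 2 (fun _ : Fin n => ℝ) i : E n →L[ℝ] ℝ) x :=
    PiLp.hasFDerivAt_apply 2 x i
  rw [dd, (h1.fun_mul (hp x).hasFDerivAt).fderiv]
  simp only [_root_.add_apply, _root_.smul_apply, smul_eq_mul,
    PiLp.proj_apply, dd]
  ring

lemma dd_add (v : E n) {p q : E n → ℝ} (hp : Differentiable ℝ p) (hq : Differentiable ℝ q) :
    dd v (p + q) = dd v p + dd v q := by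
  funext x; simp [dd, fderiv_add (hp x) (hq x)]

lemma dd_smul (v : E n) (c : ℝ) {p : E n → ℝ} (hp : Differentiable ℝ p) :
    dd v (c • p) = c • dd v p := by
  funext x; simp [dd, fderiv_const_smul (hp x) c]

lemma dd_mem_aux (v : E n) {l : ℕ} {P : E n → ℝ} (hP : P ∈ polyHom n l) :
    (l = 0 → dd v P = 0) ∧ ∀ k, l = k + 1 → dd v P ∈ polyHom n k := by
  refine polyHom_induction (motive := fun l P =>
      (l = 0 → dd v P = 0) ∧ ∀ k, l = k + 1 → dd v P ∈ polyHom n k)
    (fun c => ⟨fun _ => dd_const v c, fun k hk => by omega⟩) (fun l => ?_) (fun l i p hm hp => ?_)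
    (fun l p q hpm hqm hp hq => ?_) (fun l c p hpm hp => ?_) hP
  · have : dd v (0 : E n → ℝ) = 0 := dd_const v 0
    exact ⟨fun _ => this, fun k _ => by rw [this]; exact Submodule.zero_mem _⟩
  · refine ⟨fun h => by omega, fun k hk => ?_⟩
    obtain rfl : l = k := by omega
    rw [dd_coord v i (polyHom_differentiable hm)]
    have h1 : (fun x : E n => v i * p x) ∈ polyHom n l := Submodule.smul_mem _ (v i) hm
    refine Submodule.add_mem _ h1 ?_
    cases l with
    | zero =>
      rw [hp.1 rfl]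
      simp only [Pi.zero_apply, mul_zero]
      exact Submodule.zero_mem _
    | succ l => exact polyHom_coord i (hp.2 l rfl)
  · rw [dd_add v (polyHom_differentiable hpm) (polyHom_differentiable hqm)]
    exact ⟨fun h => by rw [hp.1 h, hq.1 h, add_zero],
      fun k hk => Submodule.add_mem _ (hp.2 k hk) (hq.2 k hk)⟩
  · rw [dd_smul v c (polyHom_differentiable hpm)]
    exact ⟨fun h => by rw [hp.1 h, smul_zero], fun k hk => Submodule.smul_mem _ c (hp.2 k hk)⟩

lemma dd_mem (v : E n) {l : ℕ} {P : E n → ℝ} (hP : P ∈ polyHom n (l + 1)) :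
    dd v P ∈ polyHom n l := (dd_mem_aux v hP).2 l rfl

lemma dd_zero_deg (v : E n) {P : E n → ℝ} (hP : P ∈ polyHom n 0) : dd v P = 0 :=
  (dd_mem_aux v hP).1 rfl

lemma dd_mem_pred (v : E n) {l : ℕ} {P : E n → ℝ} (hP : P ∈ polyHom n l) :
    dd v P ∈ polyHom n (l - 1) := by
  cases l with
  | zero => rw [dd_zero_deg v hP]; exact Submodule.zero_mem _
  | succ l => exact dd_mem v hP

lemma euler {l : ℕ} {P : E n → ℝ} (hP : P ∈ polyHom n l) (x : E n) :
    fderiv ℝ P x x = (l : ℝ) * P x := by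
  refine polyHom_induction (motive := fun l P => fderiv ℝ P x x = (l : ℝ) * P x)
    (fun c => by simp) (fun l => by simp) (fun l i p hm hp => ?_)
    (fun l p q hpm hqm hp hq => ?_) (fun l c p hpm hp => ?_) hP
  · have := congrFun (dd_coord x i (polyHom_differentiable hm)) x
    simp only [dd] at this
    rw [this, hp]; push_cast; ring
  · rw [fderiv_add (polyHom_differentiable hpm x) (polyHom_differentiable hqm x)]
    simp only [_root_.add_apply, Pi.add_apply, hp, hq]; ring
  · rw [fderiv_const_smul (polyHom_differentiable hpm x)]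
    simp only [_root_.smul_apply, Pi.smul_apply, smul_eq_mul, hp]; ring

lemma dd_comm (v w : E n) {P : E n → ℝ} (hP : ContDiff ℝ (⊤ : ℕ∞) P) :
    dd v (dd w P) = dd w (dd v P) := by
  funext x
  have hd : DifferentiableAt ℝ (fderiv ℝ P) x :=
    ((hP.fderiv_right (m := (⊤ : ℕ∞)) (by simp)).differentiable (by simp)) x
  have h : ∀ a b : E n, dd a (dd b P) x = fderiv ℝ (fderiv ℝ P) x a b := fun a b => by
    change fderiv ℝ (fun y => fderiv ℝ P y b) x a = _
    rw [fderiv_clm_apply hd (differentiableAt_const b)]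
    simp
  rw [h, h]
  exact (hP.contDiffAt.isSymmSndFDerivAt (by rw [minSmoothness_of_isRCLikeNormedField]; exact WithTop.coe_le_coe.2 le_top)) v w

lemma lap_eq (P : E n → ℝ) (x : E n) : lap P x = ∑ i, dd (bv i) (dd (bv i) P) x := rfl

lemma dd_differentiable {l : ℕ} {P : E n → ℝ} (hP : P ∈ polyHom n l) (v : E n) :
    Differentiable ℝ (dd v P) := polyHom_differentiable (dd_mem_pred v hP)

lemma lap_add {k l : ℕ} {P R : E n → ℝ} (hP : P ∈ polyHom n k) (hR : R ∈ polyHom n l) (x : E n) :
    lap (P + R) x = lap P x + lap R x := by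
  simp only [lap_eq, ← Finset.sum_add_distrib]
  refine Finset.sum_congr rfl fun i _ => ?_
  rw [dd_add _ (polyHom_differentiable hP) (polyHom_differentiable hR),
    dd_add _ (dd_differentiable hP _) (dd_differentiable hR _)]
  rfl

lemma lap_smul {k : ℕ} {P : E n → ℝ} (hP : P ∈ polyHom n k) (c : ℝ) (x : E n) :
    lap (c • P) x = c * lap P x := by
  simp only [lap_eq, Finset.mul_sum]
  refine Finset.sum_congr rfl fun i _ => ?_
  rw [dd_smul _ c (polyHom_differentiable hP), dd_smul _ c (dd_differentiable hP _)]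
  rfl

lemma dd_mul (v : E n) {p q : E n → ℝ} (hp : Differentiable ℝ p) (hq : Differentiable ℝ q) :
    dd v (fun x => p x * q x) = fun x => dd v p x * q x + p x * dd v q x := by
  funext x
  rw [dd, fderiv_fun_mul (hp x) (hq x)]
  simp only [_root_.add_apply, _root_.smul_apply, smul_eq_mul, dd]
  ring

lemma lap_mul {p q : E n → ℝ} (hp : ContDiff ℝ (⊤ : ℕ∞) p) (hq : ContDiff ℝ (⊤ : ℕ∞) q) (x : E n) :
    lap (fun y => p y * q y) x
      = lap p x * q x + 2 * ∑ i, dd (bv i) p x * dd (bv i) q x + p x * lap q x := by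
  have hdp : ∀ v, Differentiable ℝ (dd v p) := fun v =>
    (hp.fderiv_right (m := (⊤ : ℕ∞)) (by simp) |>.differentiable (by simp)).clm_apply
      (differentiable_const v)
  have hdq : ∀ v, Differentiable ℝ (dd v q) := fun v =>
    (hq.fderiv_right (m := (⊤ : ℕ∞)) (by simp) |>.differentiable (by simp)).clm_apply
      (differentiable_const v)
  have hp1 : Differentiable ℝ p := hp.differentiable (by simp)
  have hq1 : Differentiable ℝ q := hq.differentiable (by simp)
  simp only [lap_eq, Finset.sum_mul, Finset.mul_sum, ← Finset.sum_add_distrib]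
  refine Finset.sum_congr rfl fun i _ => ?_
  rw [dd_mul _ hp1 hq1]
  have h := dd_add (bv i) (p := fun y => dd (bv i) p y * q y) (q := fun y => p y * dd (bv i) q y)
    ((hdp _).mul hq1) (hp1.mul (hdq _))
  have h' : (fun y => dd (bv i) p y * q y + p y * dd (bv i) q y)
      = (fun y => dd (bv i) p y * q y) + fun y => p y * dd (bv i) q y := rfl
  rw [h', h, dd_mul _ (hdp _) hq1, dd_mul _ hp1 (hdq _)]
  simp only [Pi.add_apply]
  ring

lemma dd_inner (v w : E n) : dd v (fun x => ⟪w, x⟫) = fun _ => ⟪w, v⟫ := by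
  funext x
  have h : HasFDerivAt (fun x => ⟪w, x⟫) (innerSL ℝ w) x := (innerSL ℝ w).hasFDerivAt
  rw [dd, h.fderiv]
  rfl

lemma lap_inner (w : E n) (x : E n) : lap (fun y => ⟪w, y⟫) x = 0 := by
  simp [lap_eq, dd_inner, dd_const]

lemma lap_inner_mul (v : E n) {P : E n → ℝ} (hP : ContDiff ℝ (⊤ : ℕ∞) P) (x : E n) :
    lap (fun y => ⟪v, y⟫ * P y) x = 2 * fderiv ℝ P x v + ⟪v, x⟫ * lap P x := by
  have hv : ContDiff ℝ (⊤ : ℕ∞) (fun y : E n => ⟪v, y⟫) := (innerSL ℝ v).contDiff
  rw [lap_mul hv hP, lap_inner]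
  simp only [dd_inner, zero_mul, zero_add]
  congr 2
  conv_rhs => rw [← sum_coord_bv v]
  simp only [map_sum, map_smul, smul_eq_mul, dd]
  refine Finset.sum_congr rfl fun i _ => ?_
  rw [real_inner_comm, inner_bv]

lemma dd_normSq (v : E n) : dd v (fun x : E n => ‖x‖ ^ 2) = fun x => 2 * ⟪x, v⟫ := by
  funext x
  have h : HasFDerivAt (fun y : E n => ‖y‖ ^ 2) _ x := (hasFDerivAt_id x).norm_sq
  rw [dd, h.fderiv]
  simp [two_mul]

lemma lap_normSq (x : E n) : lap (fun y : E n => ‖y‖ ^ 2) x = 2 * n := by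
  have h : ∀ i : Fin n, dd (bv i) (dd (bv i) (fun y : E n => ‖y‖ ^ 2)) x = 2 := fun i => by
    rw [dd_normSq]
    have : (fun y : E n => 2 * ⟪y, bv i⟫) = fun y => ⟪(2 : ℝ) • bv i, y⟫ := by
      funext y; rw [real_inner_smul_left, real_inner_comm y]
    rw [this, dd_inner]
    simp only [real_inner_smul_left]
    rw [inner_bv_bv, if_pos rfl, mul_one]
  rw [lap_eq, Finset.sum_congr rfl fun i _ => h i]
  simp [mul_comm]

lemma lap_normSq_mul {k : ℕ} {R : E n → ℝ} (hR : R ∈ polyHom n k) (x : E n) :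
    lap (fun y => ‖y‖ ^ 2 * R y) x = (2 * n + 4 * k) * R x + ‖x‖ ^ 2 * lap R x := by
  rw [lap_mul (contDiff_norm_sq ℝ) (polyHom_contDiff hR), lap_normSq]
  have : ∑ i, dd (bv i) (fun y : E n => ‖y‖ ^ 2) x * dd (bv i) R x = 2 * (k * R x) := by
    rw [← euler hR]
    conv_rhs => enter [2]; arg 2; rw [← sum_coord_bv x]
    simp only [map_sum, map_smul, smul_eq_mul, Finset.mul_sum]
    refine Finset.sum_congr rfl fun i _ => ?_
    rw [dd_normSq]
    change 2 * ⟪x, bv i⟫ * fderiv ℝ R x (bv i) = _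
    rw [real_inner_comm, inner_bv]; ring
  rw [this]; ring

lemma gP_contDiff {l : ℕ} {P : E n → ℝ} (hP : P ∈ polyHom n l) :
    ContDiff ℝ (⊤ : ℕ∞) (gP P) :=
  ContDiff.sum fun i _ => (polyHom_contDiff (dd_mem_pred (bv i) hP)).smul contDiff_const

lemma gP_homog {l : ℕ} {P : E n → ℝ} (hP : P ∈ polyHom n l) (r : ℝ) (x : E n) :
    gP P (r • x) = r ^ (l - 1) • gP P x := by
  simp only [gP, Finset.smul_sum, smul_smul]
  refine Finset.sum_congr rfl fun i _ => ?_
  congr 1
  exact polyHom_homog (dd_mem_pred (bv i) hP) r x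

lemma divg_sum_smul {ι : Type*} (s : Finset ι) {p : ι → E n → ℝ} (hp : ∀ k, Differentiable ℝ (p k))
    (b : ι → E n) (x : E n) :
    divg (fun y => ∑ k ∈ s, p k y • b k) x = ∑ k ∈ s, fderiv ℝ (p k) x (b k) := by
  have hd : HasFDerivAt (fun y => ∑ k ∈ s, p k y • b k)
      (∑ k ∈ s, (fderiv ℝ (p k) x).smulRight (b k)) x :=
    HasFDerivAt.fun_sum fun k _ => (hp k x).hasFDerivAt.smul_const (b k)
  rw [divg, hd.fderiv]
  simp only [FunLike.coe_sum, Finset.sum_apply, ContinuousLinearMap.smulRight_apply, inner_sum,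
    real_inner_smul_right, inner_bv]
  rw [Finset.sum_comm]
  refine Finset.sum_congr rfl fun k _ => ?_
  conv_rhs => rw [← sum_coord_bv (b k)]
  simp only [map_sum, map_smul, smul_eq_mul]
  exact Finset.sum_congr rfl fun i _ => mul_comm _ _

lemma divg_gP {l : ℕ} {P : E n → ℝ} (hP : P ∈ polyHom n l) (x : E n) :
    divg (gP P) x = lap P x :=
  divg_sum_smul Finset.univ (p := fun i => dd (bv i) P) (fun _ => dd_differentiable hP _) bv x

instance finiteDimensional_polyHom (n : ℕ) : ∀ l, FiniteDimensional ℝ (polyHom n l)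
  | 0 => by rw [polyHom]; exact FiniteDimensional.span_of_finite ℝ (Set.finite_singleton _)
  | l + 1 => by
    have := finiteDimensional_polyHom n l
    refine Submodule.finiteDimensional_of_le (S₂ := ⨆ i : Fin n,
      (polyHom n l).map (LinearMap.mulLeft ℝ (fun x : E n => x i))) ?_
    rw [polyHom, Submodule.span_le]
    rintro _ ⟨i, p, hp, rfl⟩
    exact Submodule.mem_iSup_of_mem i ⟨p, hp, rfl⟩

end Vale.Agent.P237H
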