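import Vale.Agent.P237H.Harm

/-!
# A bounded polynomial kernel close to the sign of the inner product
-/

namespace Vale.Agent.P237H

open MeasureTheory Set Metric Filter Topology Vale.Agent.P237 Vale.Agent.P237R
open scoped RealInnerProductSpace NNReal

variable {n : ℕ}

/-- The sign of a real number. -/
noncomputable def sgn (t : ℝ) : ℝ := if t < 0 then -1 else if 0 < t then 1 else 0

lemma abs_sgn_le (t : ℝ) : |sgn t| ≤ 1 := by
  unfold sgn
  split_ifs <;> simp

lemma sgn_neg (t : ℝ) : sgn (-t) = -sgn t := by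
  rcases lt_trichotomy t 0 with h | h | h
  · simp [sgn, h, h.le.not_gt, neg_pos.2 h]
  · simp [sgn, h]
  · simp [sgn, h, h.le.not_gt, neg_neg_iff_pos.2 h]

lemma measurable_sgn : Measurable sgn :=
  Measurable.ite measurableSet_Iio measurable_const
    (Measurable.ite measurableSet_Ioi measurable_const measurable_const)

lemma hasDerivAt_abs_sgn {t : ℝ} (ht : t ≠ 0) : HasDerivAt (fun s : ℝ => |s|) (sgn t) t := by
  rcases lt_or_gt_of_ne ht with h | h
  · simpa [sgn, h] using hasDerivAt_abs_neg h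
  · simpa [sgn, h, h.le.not_gt] using hasDerivAt_abs_pos h

lemma sphM_neg (hn : 2 ≤ n) : (sphM n).map (fun x => -x) = sphM n := by
  have : Nonempty (Fin n) := ⟨⟨0, by omega⟩⟩
  rw [sphM, Measure.map_smul]
  congr 1
  have hv : Measurable (Subtype.val : sphere (0 : E n) 1 → E n) := measurable_subtype_coe
  refine Measure.ext fun s hs => ?_
  rw [Measure.map_map measurable_neg hv, Measure.map_apply (measurable_neg.comp hv) hs,
    Measure.map_apply hv hs, Measure.toSphere_apply' _ ((measurable_neg.comp hv) hs),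
    Measure.toSphere_apply' _ (hv hs)]
  congr 1
  have h1 : (Subtype.val '' ((fun x : E n => -x) ∘ Subtype.val ⁻¹' s : Set (sphere (0 : E n) 1)))
      = -(Subtype.val '' (Subtype.val ⁻¹' s : Set (sphere (0 : E n) 1))) := by
    ext x
    constructor
    · rintro ⟨y, hy, rfl⟩
      exact ⟨⟨-y.1, by simp⟩, hy, by simp⟩
    · rintro ⟨y, hy, hyx⟩
      refine ⟨⟨-y.1, by simp⟩, ?_, ?_⟩
      · simpa using hy
      · simp [hyx]
  rw [h1, Set.smul_neg, Measure.measure_neg]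

lemma sgn_mean (hn : 2 ≤ n) (x : E n) : ∫ θ, sgn ⟪x, θ⟫ ∂sphM n = 0 := by
  have hm : AEStronglyMeasurable (fun θ => sgn ⟪x, θ⟫) ((sphM n).map fun y => -y) :=
    (measurable_sgn.comp (by fun_prop : Measurable fun θ => ⟪x, θ⟫)).aestronglyMeasurable
  have h : ∫ θ, sgn ⟪x, θ⟫ ∂sphM n = -∫ θ, sgn ⟪x, θ⟫ ∂sphM n := by
    conv_lhs => rw [← sphM_neg hn, integral_map measurable_neg.aemeasurable hm]
    simp only [inner_neg_right, sgn_neg, integral_neg]
  linarith

lemma integrable_sgn_mul (hn : 2 ≤ n) (x : E n) {f : E n → ℝ} (hf : Continuous f) :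
    Integrable (fun θ => sgn ⟪x, θ⟫ * f θ) (sphM n) :=
  (integrable_sphM hn hf).bdd_mul (c := 1)
    (measurable_sgn.comp (by fun_prop : Measurable fun θ => ⟪x, θ⟫)).aestronglyMeasurable
    (Eventually.of_forall fun θ => abs_sgn_le _)

lemma rproj_norm_le (y : E n) : ‖rproj y‖ ≤ 1 := by
  rw [rproj, norm_smul, Real.norm_of_nonneg (by positivity), inv_mul_le_iff₀ (by positivity),
    mul_one]
  exact le_max_right _ _

lemma inner_rproj_mem {x : E n} (hx : ‖x‖ = 1) (y : E n) : ⟪x, rproj y⟫ ∈ Icc (-1 : ℝ) 1 := by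
  have h := abs_real_inner_le_norm x (rproj y)
  rw [hx, one_mul] at h
  exact abs_le.1 (h.trans (rproj_norm_le y))

lemma inner_rproj_fderiv {θ : E n} (hθ : ‖θ‖ = 1) (x : E n) :
    HasFDerivAt (fun y => ⟪x, rproj y⟫) (innerSL ℝ x - ⟪x, θ⟫ • innerSL ℝ θ) θ := by
  have h2 : ‖θ‖ ^ 2 = 1 := by rw [hθ]; norm_num
  have hs : HasFDerivAt (fun y : E n => √(‖y‖ ^ 2)) (innerSL ℝ θ) θ := by
    have h := (hasStrictFDerivAt_norm_sq θ).hasFDerivAt.sqrt (by rw [h2]; norm_num)
    have e : (1 / (2 * √(‖θ‖ ^ 2))) • ((2 : ℕ) • innerSL ℝ θ) = innerSL ℝ θ := by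
      ext w
      simp [h2]
    rw [e] at h
    exact h
  have hi : HasFDerivAt (fun y : E n => (√(‖y‖ ^ 2))⁻¹) (-(innerSL ℝ θ)) θ := by
    have h := (hasDerivAt_inv (x := √(‖θ‖ ^ 2)) (by rw [h2]; simp)).comp_hasFDerivAt θ hs
    have e : (-(√(‖θ‖ ^ 2) ^ 2)⁻¹) • innerSL ℝ θ = -(innerSL ℝ θ) := by
      ext w
      simp [h2]
    rw [e] at h
    exact h
  have hm := hi.mul (innerSL ℝ x).hasFDerivAt
  have he : (fun y => ⟪x, rproj y⟫) =ᶠ[𝓝 θ] fun y => (√(‖y‖ ^ 2))⁻¹ * innerSL ℝ x y := by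
    filter_upwards [(continuous_norm.tendsto θ).eventually
      (eventually_gt_nhds (show (1 / 2 : ℝ) < ‖θ‖ by rw [hθ]; norm_num))] with y hy
    rw [Real.sqrt_sq (norm_nonneg y), rproj, max_eq_right hy.le, real_inner_smul_right]
    simp
  refine HasFDerivAt.congr_of_eventuallyEq ?_ he
  have e : (√(‖θ‖ ^ 2))⁻¹ • innerSL ℝ x + innerSL ℝ x θ • -(innerSL ℝ θ)
      = innerSL ℝ x - ⟪x, θ⟫ • innerSL ℝ θ := by
    ext w
    simp [h2]
    ring
  rw [e] at hm
  exact hm

/-- The gradient field. -/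
noncomputable def gradF (P : E n → ℝ) (y : E n) : E n := ∑ i, fderiv ℝ P y (bv i) • bv i

lemma inner_gradF (P : E n → ℝ) (x y : E n) : ⟪x, gradF P y⟫ = fderiv ℝ P y x := by
  conv_rhs => rw [← sum_coord_bv x, map_sum]
  rw [gradF, inner_sum]
  refine Finset.sum_congr rfl fun i _ => ?_
  rw [real_inner_smul_right, map_smul, smul_eq_mul, bv, EuclideanSpace.inner_single_right]
  simp
  ring

lemma contDiff_dP {l : ℕ} {P : E n → ℝ} (hP : IsHarm (l + 1) P) (v : E n) :
    ContDiff ℝ 1 fun y => fderiv ℝ P y v :=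
  (polyHom_smooth (hP.dderiv v).1).of_le (mod_cast le_top)

lemma contDiff_gradF {l : ℕ} {P : E n → ℝ} (hP : IsHarm (l + 1) P) : ContDiff ℝ 1 (gradF P) := by
  unfold gradF
  exact ContDiff.sum fun i _ => (contDiff_dP hP _).smul contDiff_const

lemma gradF_smul {l : ℕ} {P : E n → ℝ} (hP : IsHarm (l + 1) P) (r : ℝ) (x : E n) :
    gradF P (r • x) = r ^ l • gradF P x := by
  simp only [gradF, Finset.smul_sum, smul_smul]
  exact Finset.sum_congr rfl fun i _ => by rw [polyHom_smul (hP.dderiv (bv i)).1 r x]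

lemma divg_gradF {l : ℕ} {P : E n → ℝ} (hP : IsHarm (l + 1) P) (x : E n) :
    divg (gradF P) x = 0 := by
  rw [← hP.2 x, divg, lap]
  refine Finset.sum_congr rfl fun i _ => ?_
  have h := ((innerSL ℝ (bv i)).hasFDerivAt.comp x
    ((contDiff_gradF hP).differentiable one_ne_zero x).hasFDerivAt).fderiv
  have e : (innerSL ℝ (bv i)) ∘ gradF P = fun y => fderiv ℝ P y (bv i) := by
    funext y
    simp [inner_gradF]
  rw [e] at h
  rw [h]
  simp

lemma euler_poly {l : ℕ} {P : E n → ℝ} (hP : P ∈ polyHom n l) (x : E n) :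
    fderiv ℝ P x x = l * P x := by
  have h1 : HasDerivAt (fun r : ℝ => P (r • x)) (fderiv ℝ P x x) 1 := by
    have hd : HasFDerivAt P (fderiv ℝ P x) ((1 : ℝ) • x) := by
      rw [one_smul]
      exact ((polyHom_smooth hP).differentiable (by simp) x).hasFDerivAt
    have := hd.comp_hasDerivAt (1 : ℝ) ((hasDerivAt_id (1 : ℝ)).smul_const x)
    simpa [Function.comp_def] using this
  have h2 : HasDerivAt (fun r : ℝ => P (r • x)) (l * P x) 1 := by
    simp only [polyHom_smul hP]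
    simpa using (hasDerivAt_pow l (1 : ℝ)).mul_const (P x)
  exact h1.unique h2

lemma inner_gradF_self {l : ℕ} {P : E n → ℝ} (hP : IsHarm (l + 1) P) (x : E n) :
    ⟪x, gradF P x⟫ = ((l : ℝ) + 1) * P x := by
  rw [inner_gradF, euler_poly hP.1]
  push_cast
  ring

lemma continuous_harm {l : ℕ} {P : E n → ℝ} (hP : IsHarm l P) : Continuous P :=
  (polyHom_smooth hP.1).continuous

/-- Integration by parts for a function of one coordinate made homogeneous of degree zero. -/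
lemma ibp_zero (hn : 2 ≤ n) {x : E n} (hx : ‖x‖ = 1) {φ φ' : ℝ → ℝ} {C : ℝ≥0}
    (hL : LipschitzOnWith C φ (Icc (-1) 1))
    (hd : ∀ᵐ θ ∂sphM n, HasDerivAt φ (φ' ⟪x, θ⟫) ⟪x, θ⟫)
    {l : ℕ} {P : E n → ℝ} (hP : IsHarm (l + 1) P) :
    ∫ θ, φ' ⟪x, θ⟫ * (fderiv ℝ P θ x - ((l : ℝ) + 1) * (⟪x, θ⟫ * P θ)) ∂sphM n
      = ((n : ℝ) + l - 1) * (((l : ℝ) + 1) * ∫ θ, φ ⟪x, θ⟫ * P θ ∂sphM n) := by
  have hI : LipschitzWith (‖innerSL ℝ x‖₊ * 4) fun y => ⟪x, rproj y⟫ := by
    simpa [Function.comp_def] using (innerSL ℝ x).lipschitz.comp (lipschitz_rproj (n := n))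
  have hLf : LipschitzWith (C * (‖innerSL ℝ x‖₊ * 4)) fun y => φ ⟪x, rproj y⟫ :=
    lipschitzOnWith_univ.1 (hL.comp hI.lipschitzOnWith fun y _ => inner_rproj_mem hx y)
  have h := sph_ibp (b := 0) (a := l) hn hLf
    (fun r θ hr hθ => by
      have e : rproj θ = θ := by
        simpa using rproj_smul (r := 1) (by norm_num) hθ
      rw [rproj_smul hr hθ, e, pow_zero, one_mul])
    (contDiff_gradF hP) (fun r y _ => gradF_smul hP r y)
  simp only [divg_gradF hP, mul_zero, integral_zero, sub_zero, Nat.cast_zero, add_zero] at h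
  rw [← integral_const_mul]
  refine (integral_congr_ae ?_).trans (h.trans (congrArg _ (integral_congr_ae ?_)))
  · filter_upwards [hd, sphM_ae_norm hn] with θ hθd hθ
    have e : rproj θ = θ := by
      simpa using rproj_smul (r := 1) (by norm_num) hθ
    have hf := HasDerivAt.comp_hasFDerivAt θ (e.symm ▸ hθd) (inner_rproj_fderiv hθ x)
    rw [HasFDerivAt.fderiv (f := fun y => φ ⟪x, rproj y⟫) hf, e]
    simp only [smul_apply, sub_apply, innerSL_apply_apply,
      smul_eq_mul, inner_gradF, euler_poly hP.1]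
    push_cast
    ring
  · filter_upwards [sphM_ae_norm hn] with θ hθ
    have e : rproj θ = θ := by
      simpa using rproj_smul (r := 1) (by norm_num) hθ
    rw [inner_gradF_self hP, e]
    ring

lemma ae_inner_ne_zero (hn : 2 ≤ n) {x : E n} (hx : ‖x‖ = 1) :
    ∀ᵐ θ ∂sphM n, ⟪x, θ⟫ ≠ 0 := by
  have hI : LipschitzWith (‖innerSL ℝ x‖₊ * 4) fun y => ⟪x, rproj y⟫ := by
    simpa [Function.comp_def] using (innerSL ℝ x).lipschitz.comp (lipschitz_rproj (n := n))
  have he : ∀ θ : E n, ‖θ‖ = 1 → rproj θ = θ := fun θ hθ => by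
    simpa using rproj_smul (r := 1) (by norm_num) hθ
  filter_upwards [sph_level hn hI
    (fun r θ hr hθ => by rw [rproj_smul hr hθ, he θ hθ]) 0, sphM_ae_norm hn] with θ hl hθ h0
  have h := hl (by rw [he θ hθ, h0])
  rw [(inner_rproj_fderiv hθ x).fderiv, h0] at h
  have := DFunLike.congr_fun h x
  simp [hx] at this

lemma abs_ibp (hn : 2 ≤ n) {x : E n} (hx : ‖x‖ = 1) {a : ℕ} {Φ : E n → E n}
    (hΦ : ContDiff ℝ 1 Φ) (hΦh : ∀ (r : ℝ) (y : E n), 0 < r → Φ (r • y) = r ^ a • Φ y) :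
    ∫ θ, sgn ⟪x, θ⟫ * ⟪x, Φ θ⟫ ∂sphM n
      = ((n : ℝ) + a) * ∫ θ, |⟪x, θ⟫| * ⟪θ, Φ θ⟫ ∂sphM n
        - ∫ θ, |⟪x, θ⟫| * divg Φ θ ∂sphM n := by
  have hL : LipschitzWith (1 * ‖innerSL ℝ x‖₊) fun y => |⟪x, y⟫| := by
    simpa [Function.comp_def] using
      (lipschitzWith_one_norm : LipschitzWith 1 fun t : ℝ => ‖t‖).comp (innerSL ℝ x).lipschitz
  have h := sph_ibp (b := 1) hn hL
    (fun r θ hr _ => by
      rw [real_inner_smul_right, abs_mul, abs_of_pos (by linarith), pow_one]) hΦ hΦh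
  simp only [Nat.cast_one, add_sub_cancel_right] at h
  refine (integral_congr_ae ?_).trans h
  filter_upwards [ae_inner_ne_zero hn hx] with θ hθ
  have hf := HasDerivAt.comp_hasFDerivAt θ (hasDerivAt_abs_sgn (show innerSL ℝ x θ ≠ 0 by simpa))
    (innerSL ℝ x).hasFDerivAt
  rw [HasFDerivAt.fderiv (f := fun y => |⟪x, y⟫|) hf]
  simp

/-- Eigenvalues of the sign kernel. -/
noncomputable def sgnEv (n : ℕ) : ℕ → ℝ
  | 0 => 0
  | 1 => absMom n
  | l + 2 => -(l : ℝ) / ((n : ℝ) + l) * sgnEv n l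

lemma sgnEv_even (m : ℕ) : sgnEv n (2 * m) = 0 := by
  induction m with
  | zero => rfl
  | succ m ih => rw [show 2 * (m + 1) = 2 * m + 2 by ring, sgnEv, ih, mul_zero]

lemma abs_sgnEv_odd (hn : 2 ≤ n) (m : ℕ) : |sgnEv n (2 * m + 3)| = absMom n * rr n (m + 1) := by
  induction m with
  | zero =>
    simp only [sgnEv, rr, Nat.cast_one, abs_mul, abs_div, abs_neg,
      abs_one, abs_of_pos (absMom_pos hn)]
    rw [abs_of_pos (by positivity), mul_comm]
  | succ m ih =>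
    rw [show 2 * (m + 1) + 3 = (2 * m + 3) + 2 by ring, sgnEv, abs_mul, ih, rr, abs_div, abs_neg,
      abs_of_nonneg (Nat.cast_nonneg _), abs_of_pos (by positivity)]
    push_cast
    ring

lemma lip_mul_abs : LipschitzOnWith 2 (fun t : ℝ => t * |t|) (Icc (-1) 1) := by
  refine LipschitzOnWith.of_dist_le_mul fun a ha b hb => ?_
  simp only [Real.dist_eq, NNReal.coe_ofNat]
  have h : a * |a| - b * |b| = (a - b) * |a| + b * (|a| - |b|) := by ring
  rw [h]
  refine (abs_add_le _ _).trans ?_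
  rw [abs_mul, abs_mul, abs_abs]
  have h1 : |a| ≤ 1 := abs_le.2 ha
  have h2 : |b| ≤ 1 := abs_le.2 hb
  nlinarith [abs_abs_sub_abs_le_abs_sub a b, abs_nonneg (a - b), abs_nonneg b,
    abs_nonneg (|a| - |b|)]

lemma sgn_step (hn : 2 ≤ n) {x : E n} (hx : ‖x‖ = 1) {l : ℕ} {P : E n → ℝ}
    (hP : IsHarm (l + 1) P) :
    ∫ θ, sgn ⟪x, θ⟫ * P θ ∂sphM n
      = (2 / ((l : ℝ) + 1) - 1) * ∫ θ, |⟪x, θ⟫| * fderiv ℝ P θ x ∂sphM n := by
  have hB := abs_ibp hn hx (a := l + 1) (Φ := fun y => P y • x)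
    (((polyHom_smooth hP.1).of_le (mod_cast le_top)).smul contDiff_const)
    (fun r y _ => by rw [polyHom_smul hP.1, smul_smul])
  have hdiv : ∀ θ, divg (fun y => P y • x) θ = fderiv ℝ P θ x := fun θ => by
    have hd : ∀ v, fderiv ℝ (fun y => P y • x) θ v = fderiv ℝ P θ v • x := fun v => by
      rw [((((polyHom_smooth hP.1).differentiable (by simp)) θ).hasFDerivAt.smul_const x).fderiv]
      rfl
    simp only [divg, hd, real_inner_smul_right]
    conv_rhs => rw [← sum_coord_bv x, map_sum]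
    exact Finset.sum_congr rfl fun i _ => by
      rw [map_smul, smul_eq_mul, bv, EuclideanSpace.inner_single_left]
      simp
      ring
  have hC := ibp_zero hn hx lip_mul_abs (φ' := fun t => 2 * |t|) (by
    filter_upwards [ae_inner_ne_zero hn hx] with θ hθ
    have h := (hasDerivAt_id ⟪x, θ⟫).mul (hasDerivAt_abs_sgn hθ)
    refine h.congr_deriv ?_
    rcases lt_or_gt_of_ne hθ with hs | hs
    · simp [sgn, hs, abs_of_neg hs]; ring
    · simp [sgn, hs, hs.le.not_gt, abs_of_pos hs]; ring) hP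
  have hB1 : ∀ θ, ⟪x, P θ • x⟫ = P θ := fun θ => by
    rw [real_inner_smul_right, real_inner_self_eq_norm_sq, hx]; ring
  have hB2 : ∀ θ, ⟪θ, P θ • x⟫ = P θ * ⟪x, θ⟫ := fun θ => by
    rw [real_inner_smul_right, real_inner_comm]
  simp only [hdiv, hB1, hB2] at hB
  have i1 : Integrable (fun θ => |⟪x, θ⟫| * fderiv ℝ P θ x) (sphM n) :=
    integrable_sphM hn ((by fun_prop : Continuous fun θ => |⟪x, θ⟫|).mul
      (contDiff_dP hP x).continuous)
  have i2 : Integrable (fun θ => |⟪x, θ⟫| * (⟪x, θ⟫ * P θ)) (sphM n) :=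
    integrable_sphM hn ((by fun_prop : Continuous fun θ => |⟪x, θ⟫|).mul
      ((by fun_prop : Continuous fun θ => ⟪x, θ⟫).mul (continuous_harm hP)))
  set J := ∫ θ, |⟪x, θ⟫| * fderiv ℝ P θ x ∂sphM n with hJ
  set U := ∫ θ, |⟪x, θ⟫| * (⟪x, θ⟫ * P θ) ∂sphM n with hU
  have e1 : ∫ θ, |⟪x, θ⟫| * (P θ * ⟪x, θ⟫) ∂sphM n = U :=
    integral_congr_ae (Eventually.of_forall fun θ => by ring)
  have e2 : ∫ θ, ⟪x, θ⟫ * |⟪x, θ⟫| * P θ ∂sphM n = U :=
    integral_congr_ae (Eventually.of_forall fun θ => by ring)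
  have e3 : ∫ θ, 2 * |⟪x, θ⟫| * (fderiv ℝ P θ x - ((l : ℝ) + 1) * (⟪x, θ⟫ * P θ)) ∂sphM n
      = 2 * J - 2 * ((l : ℝ) + 1) * U := by
    rw [hJ, hU, ← integral_const_mul, ← integral_const_mul,
      ← integral_sub (i1.const_mul _) (i2.const_mul _)]
    exact integral_congr_ae (Eventually.of_forall fun θ => by ring)
  rw [e1] at hB
  rw [e2, e3] at hC
  rw [hB]
  have hl : (0 : ℝ) < (l : ℝ) + 1 := by positivity
  push_cast
  field_simp
  linear_combination -hC

/-- The sign kernel acts diagonally on harmonic polynomials. -/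
theorem sgn_eig (hn : 2 ≤ n) {x : E n} (hx : ‖x‖ = 1) : ∀ (l : ℕ) (P : E n → ℝ), IsHarm l P →
    ∫ θ, sgn ⟪x, θ⟫ * P θ ∂sphM n = sgnEv n l * P x := by
  intro l
  induction l using Nat.twoStepInduction with
  | zero =>
    intro P hP
    simp only [harm_zero_deg hP, integral_mul_const, sgn_mean hn, sgnEv]
  | one =>
    intro P hP
    have hc : ∀ θ, fderiv ℝ P θ x = P x := fun θ => by
      have h0 := harm_zero_deg (hP.dderiv x)
      rw [show fderiv ℝ P θ x = fderiv ℝ P x x from (h0 θ).trans (h0 x).symm, euler_poly hP.1]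
      simp
    rw [sgn_step hn hx hP]
    simp only [hc, integral_mul_const, sph_abs_inner hn x, hx, sgnEv]
    norm_num
  | more l ih _ =>
    intro P hP
    have hQ := hP.dderiv x
    have hA := abs_ibp hn hx (a := l) (Φ := gradF fun y => fderiv ℝ P y x) (contDiff_gradF hQ)
      (fun r y _ => gradF_smul hQ r y)
    simp only [divg_gradF hQ, mul_zero, integral_zero, sub_zero, inner_gradF] at hA
    have hA2 : ∫ θ, |⟪x, θ⟫| * fderiv ℝ (fun y => fderiv ℝ P y x) θ θ ∂sphM n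
        = ((l : ℝ) + 1) * ∫ θ, |⟪x, θ⟫| * fderiv ℝ P θ x ∂sphM n := by
      rw [← integral_const_mul]
      refine integral_congr_ae (Eventually.of_forall fun θ => ?_)
      simp only [euler_poly hQ.1 θ]
      push_cast
      ring
    rw [hA2, ih _ (hQ.dderiv x), euler_poly hQ.1 x, euler_poly hP.1 x] at hA
    rw [sgn_step hn hx hP, sgnEv]
    have h1 : (0 : ℝ) < (l : ℝ) + 1 := by positivity
    have h2 : (0 : ℝ) < (l : ℝ) + 2 := by positivity
    have h3 : (0 : ℝ) < (n : ℝ) + l := by positivity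
    have hA' : sgnEv n l * (((l : ℝ) + 2) * P x) = ((n : ℝ) + l) *
        ∫ θ, |⟪x, θ⟫| * fderiv ℝ P θ x ∂sphM n := by
      refine mul_left_cancel₀ h1.ne' ?_
      push_cast at hA
      linear_combination hA
    push_cast at hA' ⊢
    field_simp
    linear_combination (l : ℝ) * hA'

/-- Moments of one coordinate against harmonic polynomials. -/
theorem moment_eig (hn : 2 ≤ n) : ∀ (l k : ℕ), ∃ κ : ℝ, ∀ (x : E n), ‖x‖ = 1 →
    ∀ P : E n → ℝ, IsHarm l P → ∫ θ, ⟪x, θ⟫ ^ k * P θ ∂sphM n = κ * P x := by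
  have hLp : ∀ k : ℕ, ∃ C, LipschitzOnWith C (fun t : ℝ => t ^ k) (Icc (-1) 1) := fun k =>
    ((contDiff_id.pow k : ContDiff ℝ 1 fun t : ℝ => t ^ k).contDiffOn).exists_lipschitzOnWith
      one_ne_zero (convex_Icc _ _) isCompact_Icc
  have hmom : ∀ k : ℕ, ∃ c : ℝ, ∀ x : E n, ‖x‖ = 1 → ∫ θ, ⟪x, θ⟫ ^ k ∂sphM n = c := by
    intro k
    induction k using Nat.twoStepInduction with
    | zero =>
      have := isProb_sphM (n := n) hn
      exact ⟨1, fun x _ => by simp⟩
    | one => exact ⟨0, fun x _ => by simpa using harm_mean hn one_ne_zero (harm_linear x)⟩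
    | more k ih _ =>
      obtain ⟨c, hc⟩ := ih
      obtain ⟨C, hC⟩ := hLp (k + 1)
      refine ⟨((k : ℝ) + 1) * c / ((n : ℝ) + k), fun x hx => ?_⟩
      have h := ibp_zero hn hx hC (φ' := fun t => ((k : ℝ) + 1) * t ^ k)
        (Eventually.of_forall fun θ => by simpa using hasDerivAt_pow (k + 1) ⟪x, θ⟫)
        (l := 0) (harm_linear x)
      have e : ∀ θ : E n, fderiv ℝ (fun y => ⟪x, y⟫) θ x = 1 := fun θ => by
        rw [HasFDerivAt.fderiv (f := fun y => ⟪x, y⟫) (innerSL ℝ x).hasFDerivAt]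
        simp [hx]
      have i1 : Integrable (fun θ => ⟪x, θ⟫ ^ k) (sphM n) := integrable_sphM hn (by fun_prop)
      have i2 : Integrable (fun θ => ⟪x, θ⟫ ^ (k + 2)) (sphM n) := integrable_sphM hn (by fun_prop)
      have e1 : ∫ θ, ((k : ℝ) + 1) * ⟪x, θ⟫ ^ k *
          (fderiv ℝ (fun y => ⟪x, y⟫) θ x - (((0 : ℕ) : ℝ) + 1) * (⟪x, θ⟫ * ⟪x, θ⟫)) ∂sphM n
          = ((k : ℝ) + 1) * (c - ∫ θ, ⟪x, θ⟫ ^ (k + 2) ∂sphM n) := by
        rw [← hc x hx, ← integral_sub i1 i2, ← integral_const_mul]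
        exact integral_congr_ae (Eventually.of_forall fun θ => by simp only [e]; simp; ring)
      have e2 : ∫ θ, ⟪x, θ⟫ ^ (k + 1) * ⟪x, θ⟫ ∂sphM n = ∫ θ, ⟪x, θ⟫ ^ (k + 2) ∂sphM n :=
        integral_congr_ae (Eventually.of_forall fun θ => by ring)
      rw [e1, e2] at h
      rw [eq_div_iff (by positivity)]
      push_cast at h
      linear_combination -h
  intro l
  induction l with
  | zero =>
    intro k
    obtain ⟨c, hc⟩ := hmom k
    exact ⟨c, fun x hx P hP => by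
      simp only [harm_zero_deg hP, integral_mul_const, hc x hx]⟩
  | succ l ih =>
    intro k
    rcases k with _ | j
    · exact ⟨0, fun x _ P hP => by simpa using harm_mean hn l.succ_ne_zero hP⟩
    obtain ⟨κ, hκ⟩ := ih j
    obtain ⟨C, hC⟩ := hLp (j + 1)
    refine ⟨((j : ℝ) + 1) * κ / ((n : ℝ) + l + j), fun x hx P hP => ?_⟩
    have h := ibp_zero hn hx hC (φ' := fun t => ((j : ℝ) + 1) * t ^ j)
      (Eventually.of_forall fun θ => by simpa using hasDerivAt_pow (j + 1) ⟪x, θ⟫) hP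
    have hQ := hP.dderiv x
    have i1 : Integrable (fun θ => ⟪x, θ⟫ ^ j * fderiv ℝ P θ x) (sphM n) :=
      integrable_sphM hn ((by fun_prop : Continuous fun θ => ⟪x, θ⟫ ^ j).mul (continuous_harm hQ))
    have i2 : Integrable (fun θ => ⟪x, θ⟫ ^ (j + 1) * P θ) (sphM n) :=
      integrable_sphM hn
        ((by fun_prop : Continuous fun θ => ⟪x, θ⟫ ^ (j + 1)).mul (continuous_harm hP))
    set U := ∫ θ, ⟪x, θ⟫ ^ (j + 1) * P θ ∂sphM n with hU
    have e1 : ∫ θ, ((j : ℝ) + 1) * ⟪x, θ⟫ ^ j *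
        (fderiv ℝ P θ x - ((l : ℝ) + 1) * (⟪x, θ⟫ * P θ)) ∂sphM n
        = ((j : ℝ) + 1) * (κ * (((l : ℝ) + 1) * P x) - ((l : ℝ) + 1) * U) := by
      rw [← inner_gradF_self hP, inner_gradF, ← hκ x hx _ hQ, hU, ← integral_const_mul,
        ← integral_sub i1 (i2.const_mul _), ← integral_const_mul]
      exact integral_congr_ae (Eventually.of_forall fun θ => by ring)
    rw [e1] at h
    have h1 : (0 : ℝ) < (l : ℝ) + 1 := by positivity
    have h2 : (0 : ℝ) < (n : ℝ) + l + j := by positivity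
    rw [div_mul_eq_mul_div, eq_div_iff h2.ne']
    refine mul_left_cancel₀ h1.ne' ?_
    linear_combination -h

/-- The power kernel. -/
noncomputable def wker (p : ℕ) (t : ℝ) : ℝ := ((1 + t) / 2) ^ p

lemma wker_eig (hn : 2 ≤ n) (p l : ℕ) : ∃ κ : ℝ, ∀ (x : E n), ‖x‖ = 1 →
    ∀ P : E n → ℝ, IsHarm l P → ∫ θ, wker p ⟪x, θ⟫ * P θ ∂sphM n = κ * P x := by
  choose κ hκ using moment_eig (n := n) hn l
  refine ⟨(∑ k ∈ Finset.range (p + 1), (p.choose k : ℝ) * κ k) / 2 ^ p, fun x hx P hP => ?_⟩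
  have e : ∀ θ : E n, wker p ⟪x, θ⟫ * P θ
      = ∑ k ∈ Finset.range (p + 1), ((p.choose k : ℝ) / 2 ^ p) * (⟪x, θ⟫ ^ k * P θ) := fun θ => by
    rw [wker, div_pow, add_comm (1 : ℝ), add_pow, Finset.sum_div, Finset.sum_mul]
    exact Finset.sum_congr rfl fun k _ => by ring
  simp only [e]
  have hc : ∀ k : ℕ, Continuous fun θ => ⟪x, θ⟫ ^ k * P θ := fun k =>
    (by fun_prop : Continuous fun θ => ⟪x, θ⟫ ^ k).mul (continuous_harm hP)
  rw [integral_finsetSum _ fun k _ => (integrable_sphM hn (hc k)).const_mul _]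
  rw [Finset.sum_div, Finset.sum_mul]
  exact Finset.sum_congr rfl fun k _ => by rw [integral_const_mul, hκ k x hx P hP]; ring

/-- Functions agreeing on the sphere with a sum of harmonic polynomials of degree at most `k`. -/
def InHS (k : ℕ) (f : E n → ℝ) : Prop :=
  ∃ H : ℕ → E n → ℝ, (∀ l, IsHarm l (H l)) ∧
    ∀ θ, ‖θ‖ = 1 → f θ = ∑ l ∈ Finset.range (k + 1), H l θ

lemma isHarm_zero_fun (l : ℕ) : IsHarm l (fun _ : E n => (0 : ℝ)) :=
  ⟨(polyHom n l).zero_mem, fun x => by simp [lap]⟩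

lemma InHS.single {l k : ℕ} (hlk : l ≤ k) {P : E n → ℝ} (hP : IsHarm l P) : InHS k P := by
  refine ⟨fun j => if j = l then P else fun _ => 0, fun j => ?_, fun θ _ => ?_⟩
  · by_cases h : j = l
    · subst h; simpa using hP
    · simpa [h] using isHarm_zero_fun j
  · rw [Finset.sum_eq_single l]
    · simp
    · intro j _ hj; simp [hj]
    · intro hl; simp at hl; omega

lemma InHS.add {k : ℕ} {f g : E n → ℝ} (hf : InHS k f) (hg : InHS k g) :
    InHS k fun θ => f θ + g θ := by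
  obtain ⟨H, hH, hfH⟩ := hf
  obtain ⟨G, hG, hgG⟩ := hg
  exact ⟨fun l => H l + G l, fun l => isHarm_add (hH l) (hG l), fun θ hθ => by
    simp only [Pi.add_apply]
    rw [hfH θ hθ, hgG θ hθ, ← Finset.sum_add_distrib]⟩

lemma InHS.sum {k : ℕ} {ι : Type} (s : Finset ι) {f : ι → E n → ℝ} (hf : ∀ i ∈ s, InHS k (f i)) :
    InHS k fun θ => ∑ i ∈ s, f i θ := by
  classical
  induction s using Finset.induction with
  | empty => simpa using InHS.single (Nat.zero_le k) (isHarm_zero_fun (n := n) 0)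
  | insert a s ha ih =>
    simp only [Finset.sum_insert ha]
    exact (hf a (Finset.mem_insert_self _ _)).add
      (ih fun i hi => hf i (Finset.mem_insert_of_mem hi))

lemma InHS.congr {k : ℕ} {f g : E n → ℝ} (hf : InHS k f) (h : ∀ θ, ‖θ‖ = 1 → g θ = f θ) :
    InHS k g := by
  obtain ⟨H, hH, hfH⟩ := hf
  exact ⟨H, hH, fun θ hθ => (h θ hθ).trans (hfH θ hθ)⟩

lemma InHS.mul_one_add (hn : 2 ≤ n) {k : ℕ} {f : E n → ℝ} (hf : InHS k f) (v : E n) :
    InHS (k + 1) fun θ => (1 + ⟪v, θ⟫) / 2 * f θ := by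
  obtain ⟨H, hH, hfH⟩ := hf
  refine InHS.congr (InHS.sum (Finset.range (k + 1)) fun l hl => ?_)
    (fun θ hθ => by rw [hfH θ hθ, Finset.mul_sum])
  have hlk := Finset.mem_range.1 hl
  refine InHS.congr (f := fun θ => ((1 / 2 : ℝ) • H l) θ + ⟪v, θ⟫ * ((1 / 2 : ℝ) • H l) θ) ?_
    (fun θ _ => by simp only [Pi.smul_apply, smul_eq_mul]; ring)
  have hh := isHarm_smul (1 / 2) (hH l)
  refine (InHS.single (by omega) hh).add ?_
  generalize (1 / 2 : ℝ) • H l = P at hh ⊢
  rcases l with _ | l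
  · refine InHS.congr (InHS.single (by omega) (isHarm_smul (P 0) (harm_linear v)))
      (fun θ _ => ?_)
    rw [harm_zero_deg hh θ, Pi.smul_apply, smul_eq_mul]
    ring
  · obtain ⟨A, hA, hAe⟩ := harm_mul_linear hn hh v
    refine InHS.congr ((InHS.single (show l + 2 ≤ k + 1 by omega) hA).add
      (InHS.single (show l ≤ k + 1 by omega)
        (isHarm_smul (((n : ℝ) + 2 * l)⁻¹) (hh.dderiv v)))) (fun θ hθ => ?_)
    rw [hAe θ, hθ, Pi.smul_apply, smul_eq_mul]
    ring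

lemma wker_inHS (hn : 2 ≤ n) (v : E n) (p : ℕ) : InHS p fun θ => wker p ⟪v, θ⟫ := by
  induction p with
  | zero =>
    have h : IsHarm 0 (fun _ : E n => (1 : ℝ)) :=
      ⟨Submodule.subset_span rfl, fun x => by simp [lap]⟩
    exact InHS.congr (InHS.single le_rfl h) fun θ _ => by simp [wker]
  | succ p ih =>
    exact InHS.congr (ih.mul_one_add hn v) fun θ _ => by rw [wker, pow_succ', wker]

lemma exists_concentrated (hn : 2 ≤ n) {θ0 : E n} (hθ0 : ‖θ0‖ = 1) {ε : ℝ} (hε : 0 < ε) :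
    ∃ p0 : ℕ, ∀ p ≥ p0, 0 < ∫ z, wker p ⟪θ0, z⟫ ∂sphM n ∧
      ∫ z, (1 - ⟪θ0, z⟫) * wker p ⟪θ0, z⟫ ∂sphM n ≤ ε * ∫ z, wker p ⟪θ0, z⟫ ∂sphM n := by
  have := isProb_sphM (n := n) hn
  set δ := min ε 1 / 4 with hδ
  have hδ0 : 0 < δ := by positivity
  have hδε : 4 * δ ≤ ε := by rw [hδ]; linarith [min_le_left ε 1]
  have hδ1 : δ ≤ 1 / 4 := by rw [hδ]; linarith [min_le_right ε 1]
  set g : E n → ℝ := fun z => max 0 (⟪θ0, z⟫ - (1 - δ)) with hg
  have hgc : Continuous g := by fun_prop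
  have hg0 : 0 < ∫ z, g z ∂sphM n := by
    refine lt_of_le_of_ne (integral_nonneg fun z => le_max_left _ _) fun h => ?_
    have := sphM_eq_zero hn hgc (fun z => le_max_left _ _) h.symm hθ0
    simp only [hg, real_inner_self_eq_norm_sq, hθ0] at this
    have h2 := le_max_right (0 : ℝ) (1 ^ 2 - (1 - δ))
    rw [this] at h2
    linarith
  set u := (∫ z, g z ∂sphM n) / δ
  have hu : 0 < u := div_pos hg0 hδ0
  obtain ⟨p0, hp0⟩ := exists_pow_lt_of_lt_one
    (show 0 < ε / 2 * u / 2 by positivity)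
    (show (1 - δ) / (1 - δ / 2) < 1 by rw [div_lt_one (by linarith)]; linarith)
  refine ⟨p0, fun p hp => ?_⟩
  have hA : 0 < 1 - δ / 2 := by linarith
  have hlow : (1 - δ / 2) ^ p * u ≤ ∫ z, wker p ⟪θ0, z⟫ ∂sphM n := by
    rw [show u = ∫ z, g z / δ ∂sphM n from (integral_div _ _).symm, ← integral_const_mul]
    refine integral_mono_ae ((integrable_sphM hn hgc).div_const _ |>.const_mul _)
      (integrable_sphM hn (by unfold wker; fun_prop)) ?_
    filter_upwards [sphM_ae_norm hn] with z hz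
    have ht := abs_le.1 (abs_real_inner_le_norm θ0 z)
    rw [hθ0, hz, one_mul] at ht
    have hnn : (0 : ℝ) ≤ (1 + ⟪θ0, z⟫) / 2 := by linarith [ht.1]
    by_cases hc : 1 - δ ≤ ⟪θ0, z⟫
    · have h1 : g z / δ ≤ 1 := by
        rw [div_le_one hδ0, hg]; exact max_le hδ0.le (by linarith [ht.2])
      calc (1 - δ / 2) ^ p * (g z / δ) ≤ (1 - δ / 2) ^ p * 1 :=
            mul_le_mul_of_nonneg_left h1 (pow_nonneg hA.le _)
        _ ≤ _ := by rw [mul_one]; exact pow_le_pow_left₀ hA.le (by linarith) p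
    · have h1 : g z = 0 := by rw [hg]; exact max_eq_left (by linarith [not_le.1 hc])
      simpa [h1, wker] using pow_nonneg hnn p
  have hZ : 0 < ∫ z, wker p ⟪θ0, z⟫ ∂sphM n := lt_of_lt_of_le (by positivity) hlow
  refine ⟨hZ, ?_⟩
  have hup : ∫ z, (1 - ⟪θ0, z⟫) * wker p ⟪θ0, z⟫ ∂sphM n
      ≤ 2 * δ * (∫ z, wker p ⟪θ0, z⟫ ∂sphM n) + 2 * (1 - δ) ^ p := by
    rw [← integral_const_mul]
    have hi : Integrable (fun z => 2 * δ * wker p ⟪θ0, z⟫) (sphM n) :=
      (integrable_sphM hn (by unfold wker; fun_prop)).const_mul _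
    calc _ ≤ ∫ z, (2 * δ * wker p ⟪θ0, z⟫ + 2 * (1 - δ) ^ p) ∂sphM n := by
          refine integral_mono_ae (integrable_sphM hn (by unfold wker; fun_prop))
            (hi.add (integrable_const _)) ?_
          filter_upwards [sphM_ae_norm hn] with z hz
          have ht := abs_le.1 (abs_real_inner_le_norm θ0 z)
          rw [hθ0, hz, one_mul] at ht
          have hnn : (0 : ℝ) ≤ (1 + ⟪θ0, z⟫) / 2 := by linarith [ht.1]
          have hw : 0 ≤ wker p ⟪θ0, z⟫ := pow_nonneg hnn p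
          have hd : 0 ≤ (1 - δ) ^ p := pow_nonneg (by linarith) p
          by_cases hc : 1 - 2 * δ ≤ ⟪θ0, z⟫
          · nlinarith [mul_le_mul_of_nonneg_right (show 1 - ⟪θ0, z⟫ ≤ 2 * δ by linarith) hw]
          · have h1 : wker p ⟪θ0, z⟫ ≤ (1 - δ) ^ p :=
              pow_le_pow_left₀ hnn (by linarith [not_le.1 hc]) p
            nlinarith [mul_le_mul_of_nonneg_right (show 1 - ⟪θ0, z⟫ ≤ 2 by linarith [ht.1]) hw]
      _ = _ := by
          rw [integral_add hi (integrable_const _), integral_const]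
          simp
  have hq : (1 - δ) ^ p ≤ ε / 2 * u / 2 * (1 - δ / 2) ^ p := by
    rw [← div_le_iff₀ (pow_pos hA p), ← div_pow]
    exact (pow_le_pow_of_le_one (div_nonneg (by linarith) hA.le)
      (by rw [div_le_one hA]; linarith) hp).trans hp0.le
  nlinarith [mul_le_mul_of_nonneg_left hlow (show 0 ≤ ε / 2 by linarith)]

lemma sum_range_odd (g : ℕ → ℝ) (hg : ∀ m, g (2 * m) = 0) (N : ℕ) :
    ∑ l ∈ Finset.range (2 * N + 2 + 1), g l = g 1 + ∑ m : Fin N, g (2 * (m : ℕ) + 3) := by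
  induction N with
  | zero =>
    have h0 : g 0 = 0 := hg 0
    have h2 : g 2 = 0 := hg 1
    simp [Finset.sum_range_succ, h0, h2]
  | succ N ih =>
    rw [show 2 * (N + 1) + 2 + 1 = (2 * N + 2 + 1) + 1 + 1 by ring, Finset.sum_range_succ,
      Finset.sum_range_succ, ih, Fin.sum_univ_castSucc, show 2 * N + 2 + 1 + 1 = 2 * (N + 2) by ring,
      hg]
    simp only [Fin.val_castSucc, Fin.val_last]
    ring

theorem exists_kernel (hn : 4 ≤ n) (B : HBasis n) {ε : ℝ} (hε : 0 < ε) :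
    ∃ (N : ℕ) (e0 : ℝ) (e : Fin N → ℝ) (F : E n → E n → ℝ),
      (1 - ε) * absMom n ≤ e0 ∧ e0 ≤ absMom n ∧
      (∀ m, |e m| ≤ absMom n * rr n ((m : ℕ) + 1)) ∧
      (∀ x θ : E n, ‖x‖ = 1 → ‖θ‖ = 1 → |F x θ| ≤ 1) ∧
      ∀ x θ : E n, ‖x‖ = 1 → ‖θ‖ = 1 →
        F x θ = e0 * n * ⟪x, θ⟫ + ∑ ι : Idx B N, e ι.1 * B.fn ι x * B.fn ι θ := by
  have hn2 : 2 ≤ n := by omega
  have := isProb_sphM (n := n) hn2
  set θ0 : E n := bv ⟨0, by omega⟩ with hθ0d
  have hθ0 : ‖θ0‖ = 1 := by simp [hθ0d, bv]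
  obtain ⟨p0, hp0⟩ := exists_concentrated hn2 hθ0 hε
  obtain ⟨hZ0, hconc⟩ := hp0 (2 * p0 + 2) (by omega)
  set p := 2 * p0 + 2 with hp
  choose κ hκ using wker_eig (n := n) hn2 p
  set Z := ∫ z, wker p ⟪θ0, z⟫ ∂sphM n with hZd
  have hone : IsHarm 0 (fun _ : E n => (1 : ℝ)) :=
    ⟨Submodule.subset_span rfl, fun x => by simp [lap]⟩
  have hZθ : ∀ θ : E n, ‖θ‖ = 1 → ∫ z, wker p ⟪θ, z⟫ ∂sphM n = Z := by
    intro θ hθ
    have h1 := hκ 0 θ hθ _ hone
    have h2 := hκ 0 θ0 hθ0 _ hone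
    simp only [mul_one] at h1 h2
    rw [h1, hZd, h2]
  have hw0 : ∀ θ z : E n, ‖θ‖ = 1 → ‖z‖ = 1 → 0 ≤ wker p ⟪θ, z⟫ := fun θ z hθ hz => by
    have ht := abs_le.1 (abs_real_inner_le_norm θ z)
    rw [hθ, hz, one_mul] at ht
    exact pow_nonneg (by linarith [ht.1]) p
  have hwc : ∀ θ : E n, Continuous fun z => wker p ⟪θ, z⟫ := fun θ => by unfold wker; fun_prop
  have hwt : ∀ θ : E n, Continuous fun z => wker p ⟪θ, z⟫ * ⟪θ, z⟫ := fun θ => by
    unfold wker; fun_prop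
  have hbound : ∀ l (i : Fin (B.dim l)), |κ l| ≤ Z := by
    intro l i
    set P := B.Y l i
    have hPc := continuous_harm (B.harm l i)
    obtain ⟨θm, hθm, hmax⟩ := (isCompact_sphere (0 : E n) 1).exists_isMaxOn
      ⟨θ0, by simpa using hθ0⟩ hPc.abs.continuousOn
    have hθm1 : ‖θm‖ = 1 := by simpa using hθm
    have hle : |κ l| * |P θm| ≤ Z * |P θm| := by
      rw [← abs_mul, ← hκ l θm hθm1 P (B.harm l i), ← hZθ θm hθm1, ← integral_mul_const]
      refine (Real.norm_eq_abs _).symm.trans_le (norm_integral_le_of_norm_le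
        (g := fun z => wker p ⟪θm, z⟫ * |P θm|) ((integrable_sphM hn2 (hwc θm)).mul_const _) ?_)
      filter_upwards [sphM_ae_norm hn2] with z hz
      rw [Real.norm_eq_abs, abs_mul, abs_of_nonneg (hw0 θm z hθm1 hz)]
      exact mul_le_mul_of_nonneg_left (hmax (by simpa using hz)) (hw0 θm z hθm1 hz)
    refine le_of_mul_le_mul_right hle (lt_of_le_of_ne (abs_nonneg _) fun h => ?_)
    have h1 : ∫ z, P z * P z ∂sphM n = 1 := (B.orth l i i).trans (if_pos rfl)
    have h0 : ∫ z, P z * P z ∂sphM n = 0 := by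
      refine integral_eq_zero_of_ae ?_
      filter_upwards [sphM_ae_norm hn2] with z hz
      have h2 : |P z| ≤ |P θm| := hmax (by simpa using hz)
      rw [← h, abs_nonpos_iff] at h2
      simp [h2]
    linarith
  set e : Fin p0 → ℝ := fun m =>
    if B.dim (2 * (m : ℕ) + 3) = 0 then 0 else κ (2 * (m : ℕ) + 3) / Z * sgnEv n (2 * (m : ℕ) + 3)
    with hed
  have hk1 : κ 1 = ∫ z, wker p ⟪θ0, z⟫ * ⟪θ0, z⟫ ∂sphM n := by
    rw [hκ 1 θ0 hθ0 _ (harm_linear θ0), real_inner_self_eq_norm_sq, hθ0]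
    ring
  refine ⟨p0, κ 1 / Z * absMom n, e,
    fun x θ => ∫ z, sgn ⟪x, z⟫ * (wker p ⟪θ, z⟫ / Z) ∂sphM n, ?_, ?_, fun m => ?_,
    fun x θ _ hθ => ?_, fun x θ hx hθ => ?_⟩
  · refine mul_le_mul_of_nonneg_right ?_ (absMom_pos hn2).le
    rw [le_div_iff₀ hZ0, hk1]
    have h : ∫ z, (1 - ⟪θ0, z⟫) * wker p ⟪θ0, z⟫ ∂sphM n
        = Z - ∫ z, wker p ⟪θ0, z⟫ * ⟪θ0, z⟫ ∂sphM n := by
      rw [hZd, ← integral_sub (integrable_sphM hn2 (hwc θ0))
        (integrable_sphM hn2 (hwt θ0))]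
      exact integral_congr_ae (Eventually.of_forall fun z => by ring)
    nlinarith [h, hconc]
  · refine mul_le_of_le_one_left (absMom_pos hn2).le ?_
    rw [div_le_one hZ0, hk1]
    refine integral_mono_ae (integrable_sphM hn2 (hwt θ0))
      (integrable_sphM hn2 (hwc θ0)) ?_
    filter_upwards [sphM_ae_norm hn2] with z hz
    have ht := abs_le.1 (abs_real_inner_le_norm θ0 z)
    rw [hθ0, hz, one_mul] at ht
    exact mul_le_of_le_one_right (hw0 θ0 z hθ0 hz) ht.2
  · simp only [hed]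
    split_ifs with h
    · rw [abs_zero, ← abs_sgnEv_odd hn2]
      exact abs_nonneg _
    · rw [abs_mul, ← abs_sgnEv_odd hn2]
      refine mul_le_of_le_one_left (abs_nonneg _) ?_
      rw [abs_div, abs_of_pos hZ0, div_le_one hZ0]
      exact hbound _ ⟨0, Nat.pos_of_ne_zero h⟩
  · refine (Real.norm_eq_abs _).symm.trans_le ((norm_integral_le_of_norm_le
      (g := fun z => wker p ⟪θ, z⟫ / Z)
      ((integrable_sphM hn2 (hwc θ)).div_const _) ?_).trans_eq ?_)
    · filter_upwards [sphM_ae_norm hn2] with z hz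
      rw [Real.norm_eq_abs, abs_mul, abs_of_nonneg (div_nonneg (hw0 θ z hθ hz) hZ0.le)]
      exact mul_le_of_le_one_left (div_nonneg (hw0 θ z hθ hz) hZ0.le) (abs_sgn_le _)
    · rw [integral_div, hZθ θ hθ, div_self hZ0.ne']
  · obtain ⟨H, hH, hHe⟩ := wker_inHS hn2 θ p
    replace hHe : ∀ z, ‖z‖ = 1 → wker p ⟪θ, z⟫ = ∑ l ∈ Finset.range (p + 1), H l z := hHe
    have hHval : ∀ l ∈ Finset.range (p + 1), ∀ y,
        H l y = κ l * ∑ i, B.Y l i θ * B.Y l i y := by
      intro l hl y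
      rw [B.expand l _ (hH l) y, Finset.mul_sum]
      refine Finset.sum_congr rfl fun i _ => ?_
      rw [← mul_assoc, ← hκ l θ hθ _ (B.harm l i)]
      congr 1
      have e1 : ∫ z, wker p ⟪θ, z⟫ * B.Y l i z ∂sphM n
          = ∑ j ∈ Finset.range (p + 1), ∫ z, H j z * B.Y l i z ∂sphM n := by
        have hc : ∀ j, Continuous fun z => H j z * B.Y l i z := fun j =>
          (continuous_harm (hH j)).mul (continuous_harm (B.harm l i))
        rw [← integral_finsetSum _ fun j _ => integrable_sphM hn2 (hc j)]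
        refine integral_congr_ae ?_
        filter_upwards [sphM_ae_norm hn2] with z hz
        rw [hHe z hz, Finset.sum_mul]
      rw [e1, Finset.sum_eq_single l (fun j _ hj => harm_orth hn2 hj (hH j) (B.harm l i))
        (fun h => (h hl).elim)]
    have hF : ∫ z, sgn ⟪x, z⟫ * (wker p ⟪θ, z⟫ / Z) ∂sphM n
        = ∑ l ∈ Finset.range (p + 1), κ l / Z * sgnEv n l * ∑ i, B.Y l i x * B.Y l i θ := by
      calc _ = ∫ z, ∑ l ∈ Finset.range (p + 1), sgn ⟪x, z⟫ * H l z / Z ∂sphM n := by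
            refine integral_congr_ae ?_
            filter_upwards [sphM_ae_norm hn2] with z hz
            rw [hHe z hz, Finset.sum_div, Finset.mul_sum]
            exact Finset.sum_congr rfl fun l _ => by ring
        _ = _ := by
            rw [integral_finsetSum _ fun l _ =>
              (integrable_sgn_mul hn2 x (continuous_harm (hH l))).div_const _]
            refine Finset.sum_congr rfl fun l hl => ?_
            rw [integral_div, sgn_eig hn2 hx l _ (hH l), hHval l hl x]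
            simp only [Finset.mul_sum, Finset.sum_div]
            exact Finset.sum_congr rfl fun i _ => by ring
    beta_reduce
    rw [hF, sum_range_odd _ (fun m => by rw [sgnEv_even]; simp) p0]
    congr 1
    · have h := B.expand 1 _ (harm_linear θ) x
      have hY : ∀ i, ∫ y, ⟪θ, y⟫ * B.Y 1 i y ∂sphM n = B.Y 1 i θ / n := fun i => by
        have hh := ibp_zero hn2 hθ (φ := id) (C := 1) LipschitzWith.id.lipschitzOnWith
          (φ' := fun _ => 1) (Eventually.of_forall fun z => hasDerivAt_id _)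
          (l := 0) (B.harm 1 i)
        have h0 := harm_zero_deg ((B.harm 1 i).dderiv θ)
        have hc : ∀ z, fderiv ℝ (B.Y 1 i) z θ = B.Y 1 i θ := fun z => by
          rw [show fderiv ℝ (B.Y 1 i) z θ = fderiv ℝ (B.Y 1 i) θ θ from (h0 z).trans (h0 θ).symm,
            euler_poly (B.harm 1 i).1]
          simp
        simp only [hc, Nat.cast_zero, zero_add, one_mul, id, add_zero] at hh
        have hci : Continuous fun z => ⟪θ, z⟫ * B.Y 1 i z :=
          (by fun_prop : Continuous fun z => ⟪θ, z⟫).mul (continuous_harm (B.harm 1 i))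
        rw [integral_sub (integrable_const _) (integrable_sphM hn2 hci), integral_const] at hh
        simp at hh
        rw [eq_div_iff (by positivity)]
        linarith
      simp only [hY] at h
      rw [real_inner_comm θ x, h, sgnEv]
      simp only [Finset.mul_sum]
      refine Finset.sum_congr rfl fun i _ => ?_
      have : (n : ℝ) ≠ 0 := by positivity
      field_simp
    · rw [Fintype.sum_sigma]
      refine Finset.sum_congr rfl fun m _ => ?_
      rw [Finset.mul_sum]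
      refine Finset.sum_congr rfl fun i _ => ?_
      simp only [hed, HBasis.fn]
      rw [if_neg (Nat.pos_iff_ne_zero.1 i.pos)]
      ring

end Vale.Agent.P237H
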