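import Vale.Agent.P237H.Claim
import Vale.Agent.P237H.Inradius7

/-!
# Inradius bounds from odd powers of a coordinate
-/

namespace Vale.Agent.P237H

open MeasureTheory Set Metric Vale.Agent.P237 Vale.Agent.P237R
open scoped RealInnerProductSpace NNReal

variable {n : ℕ}

/-- The recursion of the absolute moments of a coordinate. -/
lemma abs_moment_step (hn : 2 ≤ n) {v : E n} (hv : ‖v‖ = 1) (j : ℕ) :
    ((n : ℝ) + (2 * j + 1)) * ∫ θ, |⟪v, θ⟫| * ⟪v, θ⟫ ^ (2 * j + 2) ∂sphM n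
      = (2 * (j : ℝ) + 2) * ∫ θ, |⟪v, θ⟫| * ⟪v, θ⟫ ^ (2 * j) ∂sphM n := by
  have hL : LipschitzWith ‖innerSL ℝ v‖₊ fun x : E n => |⟪v, x⟫| := by
    simpa [Function.comp_def] using lipschitzWith_one_norm.comp (innerSL ℝ v).lipschitz
  have hΦ : ContDiff ℝ 1 fun x : E n => ⟪v, x⟫ ^ (2 * j + 1) • v :=
    (((innerSL ℝ v).contDiff).pow _).smul contDiff_const
  have h := sph_ibp hn (b := 1) (a := 2 * j + 1) hL (fun r θ hr _ => by
    rw [real_inner_smul_right, abs_mul, abs_of_nonneg (by linarith : (0 : ℝ) ≤ r), pow_one]) hΦ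
    fun r x _ => by rw [real_inner_smul_right, mul_pow, smul_smul]
  have hvv : ⟪v, v⟫ = (1 : ℝ) := by rw [real_inner_self_eq_norm_sq, hv]; norm_num
  have hdiv : ∀ θ, divg (fun x : E n => ⟪v, x⟫ ^ (2 * j + 1) • v) θ
      = (2 * (j : ℝ) + 1) * ⟪v, θ⟫ ^ (2 * j) := fun θ => by
    have hf : HasFDerivAt (fun x : E n => ⟪v, x⟫ ^ (2 * j + 1) • v) _ θ :=
      (((innerSL ℝ v).hasFDerivAt (x := θ)).pow (2 * j + 1)).smul_const v
    have hs : ∑ i, ⟪bv i, v⟫ * ⟪v, bv i⟫ = (1 : ℝ) := by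
      rw [← hvv, ← (EuclideanSpace.basisFun (Fin n) ℝ).sum_inner_mul_inner v v]
      exact Finset.sum_congr rfl fun i _ => by simp [bv, mul_comm]
    simp only [divg, hf.fderiv]
    simp [real_inner_smul_right]
    refine (Finset.sum_congr rfl fun i _ => ?_).trans
      (show ∑ i, (2 * (j : ℝ) + 1) * ⟪v, θ⟫ ^ (2 * j) * (⟪bv i, v⟫ * ⟪v, bv i⟫) = _ by
        rw [← Finset.mul_sum, hs, mul_one])
    ring
  have hder : ∀ θ : E n, fderiv ℝ (fun x : E n => |⟪v, x⟫|) θ (⟪v, θ⟫ ^ (2 * j + 1) • v)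
      = |⟪v, θ⟫| * ⟪v, θ⟫ ^ (2 * j) := fun θ => by
    rcases lt_trichotomy ⟪v, θ⟫ 0 with h0 | h0 | h0
    · have hf : HasFDerivAt (fun x : E n => |⟪v, x⟫|) _ θ :=
        (hasDerivAt_abs_neg h0).comp_hasFDerivAt θ (innerSL ℝ v).hasFDerivAt
      rw [hf.fderiv, abs_of_neg h0]
      simp [hv]
      ring
    · simp [h0]
    · have hf : HasFDerivAt (fun x : E n => |⟪v, x⟫|) _ θ :=
        (hasDerivAt_abs_pos h0).comp_hasFDerivAt θ (innerSL ℝ v).hasFDerivAt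
      rw [hf.fderiv, abs_of_pos h0]
      simp [hv]
      ring
  have e : ∀ θ : E n, |⟪v, θ⟫| * ⟪θ, ⟪v, θ⟫ ^ (2 * j + 1) • v⟫
      = |⟪v, θ⟫| * ⟪v, θ⟫ ^ (2 * j + 2) := fun θ => by
    rw [real_inner_smul_right, real_inner_comm θ v]; ring
  have e' : ∀ θ : E n, |⟪v, θ⟫| * ((2 * (j : ℝ) + 1) * ⟪v, θ⟫ ^ (2 * j))
      = (2 * (j : ℝ) + 1) * (|⟪v, θ⟫| * ⟪v, θ⟫ ^ (2 * j)) := fun θ => by ring
  simp only [hder, hdiv, e, e', integral_const_mul] at h
  push_cast at h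
  linear_combination -h

lemma rr_le_one (n : ℕ) : ∀ m, rr n (m + 1) ≤ 1 / ((n : ℝ) + 1)
  | 0 => le_of_eq (by simp [rr])
  | m + 1 => by
    have ih := rr_le_one n m
    have h0 : 0 ≤ rr n (m + 1) := by
      clear ih
      induction m with
      | zero => simp only [rr]; positivity
      | succ k ih => simp only [rr] at ih ⊢; positivity
    have h1 : (2 * (m : ℝ) + 3) / ((n : ℝ) + 2 * m + 3) ≤ 1 := by
      rw [div_le_one (by positivity)]
      linarith [(n.cast_nonneg : (0 : ℝ) ≤ n)]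
    refine le_trans ?_ ih
    rw [rr]
    exact mul_le_of_le_one_left h0 h1

/-- A field of odd degrees at least three against a continuous function. -/
lemma field_bessel (hn : 4 ≤ n) (B : HBasis n) {N : ℕ} (b : Idx B N → E n) {w : E n}
    (hw : ‖w‖ = 1) {g : E n → ℝ} (hg : Continuous g) :
    (∫ θ, ⟪w, fieldOf B b θ⟫ * g θ ∂sphM n) ^ 2
      ≤ qNorm B b / ((n : ℝ) + 1) * ∫ θ, g θ ^ 2 ∂sphM n := by
  have hn2 : 2 ≤ n := by omega
  have hfn : ∀ ι : Idx B N, Continuous (B.fn ι) := fun ι =>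
    (polyHom_smooth (B.harm _ _).1).continuous
  have horth : ∀ ι κ : Idx B N, ∫ θ, B.fn ι θ * B.fn κ θ ∂sphM n = if ι = κ then 1 else 0 := by
    rintro ⟨m, i⟩ ⟨m', i'⟩
    by_cases h : m = m'
    · subst h
      simp only [HBasis.fn, B.orth]
      by_cases hi : i = i' <;> simp [hi]
    · rw [if_neg (fun e => h (congrArg Sigma.fst e)), HBasis.fn, HBasis.fn,
        harm_orth hn2 (fun e => h (Fin.ext (by simp only at e; omega))) (B.harm _ _) (B.harm _ _)]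
  set co : Idx B N → ℝ := fun ι => ∫ θ, B.fn ι θ * g θ ∂sphM n with hco
  have hI : ∫ θ, ⟪w, fieldOf B b θ⟫ * g θ ∂sphM n = ∑ ι, ⟪w, b ι⟫ * co ι := by
    simp only [fieldOf, inner_sum, real_inner_smul_right, Finset.sum_mul]
    rw [integral_finsetSum _ fun ι _ => integrable_sphM hn2 (by have := hfn ι; fun_prop)]
    refine Finset.sum_congr rfl fun ι _ => ?_
    rw [hco, ← integral_const_mul]
    exact integral_congr_ae (Filter.Eventually.of_forall fun θ => by ring)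
  have hbessel : ∑ ι, co ι ^ 2 ≤ ∫ θ, g θ ^ 2 ∂sphM n := by
    set S : E n → ℝ := fun θ => ∑ ι, co ι * B.fn ι θ with hS
    have hSc : Continuous S := continuous_finsetSum _ fun ι _ => (hfn ι).const_mul _
    have h1 : ∫ θ, S θ * g θ ∂sphM n = ∑ ι, co ι ^ 2 := by
      simp only [hS, Finset.sum_mul]
      rw [integral_finsetSum _ fun ι _ => integrable_sphM hn2 (by have := hfn ι; fun_prop)]
      refine Finset.sum_congr rfl fun ι _ => ?_
      simp only [mul_assoc]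
      rw [integral_const_mul, sq]
    have h2 : ∫ θ, S θ * S θ ∂sphM n = ∑ ι, co ι ^ 2 := by
      simp only [hS, Finset.sum_mul_sum]
      rw [integral_finsetSum _ fun ι _ => integrable_finsetSum _ fun κ _ =>
        integrable_sphM hn2 (by have := hfn ι; have := hfn κ; fun_prop)]
      refine Finset.sum_congr rfl fun ι _ => ?_
      rw [integral_finsetSum _ fun κ _ =>
        integrable_sphM hn2 (by have := hfn ι; have := hfn κ; fun_prop)]
      simp only [mul_mul_mul_comm _ (B.fn ι _), integral_const_mul, horth]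
      simp [sq]
    have h0 : 0 ≤ ∫ θ, (g θ - S θ) ^ 2 ∂sphM n := integral_nonneg fun θ => sq_nonneg _
    have e : (fun θ => (g θ - S θ) ^ 2) = fun θ => g θ ^ 2 - 2 * (S θ * g θ) + S θ * S θ := by
      funext θ; ring
    rw [e, integral_add (integrable_sphM hn2 (by fun_prop)) (integrable_sphM hn2 (by fun_prop)),
      integral_sub (integrable_sphM hn2 (by fun_prop)) (integrable_sphM hn2 (by fun_prop)),
      integral_const_mul, h1, h2] at h0
    linarith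
  rw [hI]
  refine (Finset.sum_mul_sq_le_sq_mul_sq _ _ _).trans
    (mul_le_mul ?_ hbessel (Finset.sum_nonneg fun ι _ => sq_nonneg _) ?_)
  · rw [qNorm, Finset.sum_div]
    refine Finset.sum_le_sum fun ι _ => ?_
    have h1 : ⟪w, b ι⟫ ^ 2 ≤ ‖b ι‖ ^ 2 := by
      refine sq_le_sq' ?_ ?_
      · have := (abs_le.1 (abs_real_inner_le_norm w (b ι))).1
        rwa [hw, one_mul] at this
      · simpa [hw] using real_inner_le_norm w (b ι)
    refine h1.trans ?_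
    rw [div_div, le_div_iff₀ (mul_pos (rr_pos hn2 _) (by positivity))]
    refine mul_le_of_le_one_right (sq_nonneg _) ?_
    have := rr_le_one n (ι.1 : ℕ)
    rwa [le_div_iff₀ (by positivity)] at this
  · have := qNorm_nonneg hn B b
    positivity

/-- The inradius from the test function `t ^ (2 j + 1)`; the three moments are hypotheses. -/
theorem ball_subset_pow (hn : 4 ≤ n) (B : HBasis n) {N : ℕ} (b : Idx B N → E n) {U : Set (E n)}
    (hU : IsCompact U) (hUc : Convex ℝ U) (hUs : ∀ x ∈ U, -x ∈ U)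
    (hmem : ∀ θ : E n, ‖θ‖ = 1 → θ + fieldOf B b θ ∈ U) (j : ℕ) {m1 m2 a s ρ : ℝ} (hs : 0 ≤ s)
    (h1 : ∀ w : E n, ‖w‖ = 1 → ∫ θ, ⟪w, θ⟫ ^ (2 * j + 2) ∂sphM n = m1)
    (h2 : ∀ w : E n, ‖w‖ = 1 → ∫ θ, ⟪w, θ⟫ ^ (4 * j + 2) ∂sphM n = m2)
    (h3 : ∀ w : E n, ‖w‖ = 1 → ∫ θ, |⟪w, θ⟫| * ⟪w, θ⟫ ^ (2 * j) ∂sphM n = a)
    (hQ : qNorm B b / ((n : ℝ) + 1) * (m2 - n * m1 ^ 2) ≤ s ^ 2) (ha : 0 < a)
    (hρ : ρ * a ≤ m1 - s) : ball (0 : E n) ρ ⊆ U := by
  have hn2 : 2 ≤ n := by omega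
  have hP := isProb_sphM hn2
  intro z hz
  by_contra hzU
  obtain ⟨f, c, hfc, hcz⟩ := geometric_hahn_banach_closed_point hUc hU.isClosed hzU
  set v := (InnerProductSpace.toDual ℝ (E n)).symm f with hv
  have hfv : ∀ x, f x = ⟪v, x⟫ := fun x => by rw [hv, InnerProductSpace.toDual_symm_apply]
  simp only [hfv] at hfc hcz
  rcases eq_or_ne v 0 with h0 | h0
  · have : NeZero n := ⟨by omega⟩
    have h1 := hfc _ (hmem (bv 0) (by simp [bv]))
    simp [h0] at h1 hcz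
    linarith
  have hv0 : 0 < ‖v‖ := norm_pos_iff.2 h0
  set w : E n := ‖v‖⁻¹ • v with hw
  have hw1 : ‖w‖ = 1 := by simp [hw, norm_smul, h0]
  set d := c / ‖v‖ with hd
  have habs : ∀ θ : E n, ‖θ‖ = 1 → |⟪w, θ + fieldOf B b θ⟫| ≤ d := fun θ hθ => by
    have h1 := hfc _ (hmem θ hθ)
    have h2 := hfc _ (hUs _ (hmem θ hθ))
    rw [inner_neg_right] at h2
    rw [hw, real_inner_smul_left, abs_mul, abs_of_pos (inv_pos.2 hv0), inv_mul_eq_div, hd]
    exact (div_le_div_iff_of_pos_right hv0).2 (abs_le.2 ⟨by linarith, h1.le⟩)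
  have hφ : Continuous (fieldOf B b) := continuous_fieldOf B b
  have hint : ∫ θ, ⟪w, θ + fieldOf B b θ⟫ * ⟪w, θ⟫ ^ (2 * j + 1) ∂sphM n
      ≤ ∫ θ, d * (|⟪w, θ⟫| * ⟪w, θ⟫ ^ (2 * j)) ∂sphM n := by
    refine integral_mono_ae (integrable_sphM hn2 (by fun_prop))
      (integrable_sphM hn2 (by fun_prop)) ?_
    filter_upwards [sphM_ae_norm hn2] with θ hθ
    rw [pow_succ', ← mul_assoc, ← mul_assoc]
    refine mul_le_mul_of_nonneg_right ?_ (by rw [pow_mul]; positivity)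
    exact (le_abs_self _).trans ((abs_mul _ _).trans_le
      (mul_le_mul_of_nonneg_right (habs θ hθ) (abs_nonneg _)))
  set lam : ℝ := n * m1 with hlam
  have hg : Continuous fun θ : E n => ⟪w, θ⟫ ^ (2 * j + 1) - lam * ⟪w, θ⟫ := by fun_prop
  have hpair := field_bessel hn B b hw1 hg
  have hgg : ∫ θ, (⟪w, θ⟫ ^ (2 * j + 1) - lam * ⟪w, θ⟫) ^ 2 ∂sphM n = m2 - n * m1 ^ 2 := by
    have e : (fun θ : E n => (⟪w, θ⟫ ^ (2 * j + 1) - lam * ⟪w, θ⟫) ^ 2) = fun θ =>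
        ⟪w, θ⟫ ^ (4 * j + 2) - 2 * lam * ⟪w, θ⟫ ^ (2 * j + 2) + lam ^ 2 * (⟪w, θ⟫ * ⟪w, θ⟫) := by
      funext θ; ring
    rw [e, integral_add (integrable_sphM hn2 (by fun_prop)) (integrable_sphM hn2 (by fun_prop)),
      integral_sub (integrable_sphM hn2 (by fun_prop)) (integrable_sphM hn2 (by fun_prop)),
      integral_const_mul, integral_const_mul, h1 w hw1, h2 w hw1, sph_inner_inner hn2,
      real_inner_self_eq_norm_sq, hw1, hlam]
    have : (n : ℝ) ≠ 0 := by positivity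
    field_simp
    ring
  have eI : ∫ θ, ⟪w, fieldOf B b θ⟫ * (⟪w, θ⟫ ^ (2 * j + 1) - lam * ⟪w, θ⟫) ∂sphM n
      = ∫ θ, ⟪w, fieldOf B b θ⟫ * ⟪w, θ⟫ ^ (2 * j + 1) ∂sphM n := by
    have e : (fun θ => ⟪w, fieldOf B b θ⟫ * (⟪w, θ⟫ ^ (2 * j + 1) - lam * ⟪w, θ⟫)) = fun θ =>
        ⟪w, fieldOf B b θ⟫ * ⟪w, θ⟫ ^ (2 * j + 1) - lam * (⟪w, fieldOf B b θ⟫ * ⟪w, θ⟫) := by
      funext θ; ring
    rw [e, integral_sub (integrable_sphM hn2 (by fun_prop)) (integrable_sphM hn2 (by fun_prop)),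
      integral_const_mul, fieldOf_orth hn2, mul_zero, sub_zero]
  rw [eI, hgg] at hpair
  have hlow := (abs_le.1 (abs_le_of_sq_le_sq (hpair.trans hQ) hs)).1
  have e : (fun θ => ⟪w, θ + fieldOf B b θ⟫ * ⟪w, θ⟫ ^ (2 * j + 1))
      = fun θ => ⟪w, θ⟫ ^ (2 * j + 2) + ⟪w, fieldOf B b θ⟫ * ⟪w, θ⟫ ^ (2 * j + 1) := by
    funext θ; rw [inner_add_right]; ring
  rw [e, integral_add (integrable_sphM hn2 (by fun_prop)) (integrable_sphM hn2 (by fun_prop)),
    integral_const_mul, h1 w hw1, h3 w hw1] at hint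
  have hρd : ρ ≤ d := le_of_mul_le_mul_right (hρ.trans (by linarith)) ha
  rw [mem_ball_zero_iff] at hz
  have hcd : c = d * ‖v‖ := by rw [hd, div_mul_cancel₀ _ hv0.ne']
  have hwz : ⟪v, z⟫ ≤ ‖v‖ * ‖z‖ := real_inner_le_norm v z
  nlinarith [mul_lt_mul_of_pos_left (hz.trans_le hρd) hv0]

end Vale.Agent.P237H
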