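import Vale.Agent.P237H.Sphere
import Vale.Agent.P237U.Asymp

/-!
# Checked piecewise linear certificates for the scalar inequality
-/

namespace Vale.Agent.P237H.ScalarAux

open MeasureTheory Set Metric Vale.Agent.P237 Vale.Agent.P237R
open scoped RealInnerProductSpace NNReal

/-! ## The test function -/

lemma tangent_pow (n : ℕ) {y : ℝ} (hy : 0 < y) : ((n : ℝ) + 1 - n * y) * y ^ n ≤ 1 := by
  induction n with
  | zero => simp
  | succ n ih =>
    refine le_trans ?_ ih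
    push_cast
    have h : ((n : ℝ) + 1 + 1 - (n + 1) * y) * y ^ (n + 1)
        = ((n : ℝ) + 1 - n * y) * y ^ n - ((n : ℝ) + 1) * (y - 1) ^ 2 * y ^ n := by ring
    rw [h]
    have : 0 ≤ ((n : ℝ) + 1) * (y - 1) ^ 2 * y ^ n := by positivity
    linarith

lemma phiN_le_succ {n : ℕ} (hn : 1 ≤ n) {v : ℝ} (hv : -1 < v) : phiN n v ≤ phiN (n + 1) v := by
  have hu : 0 < 1 + v := by linarith
  have hp : 0 < (1 + v) ^ n := pow_pos hu n
  have hn' : (1 : ℝ) ≤ n := by exact_mod_cast hn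
  have h := one_add_mul_le_pow (show (-2 : ℝ) ≤ v by linarith) (n + 1)
  unfold phiN
  push_cast at h ⊢
  gcongr v + ?_
  rw [div_le_div_iff₀ (by linarith) (by linarith)]
  rw [pow_succ] at h ⊢
  field_simp
  nlinarith [h]

lemma phiN_mono {a b : ℕ} (ha : 1 ≤ a) (hab : a ≤ b) {v : ℝ} (hv : -1 < v) :
    phiN a v ≤ phiN b v := by
  induction b, hab using Nat.le_induction with
  | base => exact le_rfl
  | succ b hb ih => exact ih.trans (phiN_le_succ (ha.trans hb) hv)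

lemma phiN_tangent {n : ℕ} (hn : 1 ≤ n) {t v : ℝ} (ht : -1 < t) (hv : -1 < v) :
    t + (((1 + t) ^ n)⁻¹ - 1) / n + (1 - ((1 + t) ^ (n + 1))⁻¹) * (v - t) ≤ phiN n v := by
  have ha : 0 < 1 + t := by linarith
  have hu : 0 < 1 + v := by linarith
  have hn' : (1 : ℝ) ≤ n := by exact_mod_cast hn
  have hy : 0 < (1 + v) / (1 + t) := div_pos hu ha
  have h := tangent_pow n hy
  have key : ((n : ℝ) + 1 - n * ((1 + v) / (1 + t))) * ((1 + t) ^ n)⁻¹ ≤ ((1 + v) ^ n)⁻¹ := by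
    rw [div_pow, ← le_div_iff₀ (by positivity), one_div_div] at h
    have h2 := mul_le_mul_of_nonneg_right h (inv_nonneg.2 (pow_pos ha n).le)
    refine h2.trans (le_of_eq ?_)
    field_simp
  have e : t + (((1 + t) ^ n)⁻¹ - 1) / n + (1 - ((1 + t) ^ (n + 1))⁻¹) * (v - t)
      = v + (((n : ℝ) + 1 - n * ((1 + v) / (1 + t))) * ((1 + t) ^ n)⁻¹ - 1) / n := by
    rw [pow_succ]
    field_simp
    ring
  rw [e, phiN]
  gcongr

lemma inv_pow_neg_ge (n : ℕ) {w : ℝ} (hw0 : 0 ≤ w) (hw1 : w < 1) :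
    1 + (n : ℝ) * w + (n : ℝ) * (n + 1) / 2 * w ^ 2 ≤ ((1 - w) ^ n)⁻¹ := by
  induction n with
  | zero => simp
  | succ n ih =>
    have h1 : 0 < 1 - w := by linarith
    rw [pow_succ (1 - w), mul_inv]
    refine le_trans ?_ (mul_le_mul_of_nonneg_right ih (inv_nonneg.2 h1.le))
    rw [← div_eq_mul_inv, le_div_iff₀ h1]
    push_cast
    have : 0 ≤ ((n : ℝ) + 1) * ((n : ℝ) + 2) / 2 * w ^ 3 := by positivity
    nlinarith

lemma inv_pow_pos_ge (n : ℕ) {w : ℝ} (hw0 : 0 ≤ w) :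
    1 - (n : ℝ) * w + (n : ℝ) * (n + 1) / 2 * w ^ 2 - (n : ℝ) * (n + 1) * (n + 2) / 6 * w ^ 3
      ≤ ((1 + w) ^ n)⁻¹ := by
  induction n with
  | zero => simp
  | succ n ih =>
    have h1 : 0 < 1 + w := by linarith
    rw [pow_succ (1 + w), mul_inv]
    refine le_trans ?_ (mul_le_mul_of_nonneg_right ih (inv_nonneg.2 h1.le))
    rw [← div_eq_mul_inv, le_div_iff₀ h1]
    push_cast
    have : 0 ≤ ((n : ℝ) + 1) * ((n : ℝ) + 2) * ((n : ℝ) + 3) / 6 * w ^ 4 := by positivity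
    nlinarith

lemma phiN_small {n : ℕ} (hn : 1 ≤ n) {A v0 v : ℝ}
    (hA : A ≤ ((n : ℝ) + 1) / 2 - ((n : ℝ) + 1) * (n + 2) / 6 * v0) (h0 : 0 ≤ v0)
    (hv : -1 < v) (hv0 : v ≤ v0) : A * v ^ 2 ≤ phiN n v := by
  have hn' : (1 : ℝ) ≤ n := by exact_mod_cast hn
  unfold phiN
  rcases le_total 0 v with h | h
  · have hb := inv_pow_pos_ge n h
    have h2 : A * v ^ 2
        ≤ (((n : ℝ) + 1) / 2 - ((n : ℝ) + 1) * (n + 2) / 6 * v) * v ^ 2 := by
      refine mul_le_mul_of_nonneg_right (hA.trans ?_) (sq_nonneg v)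
      gcongr
    refine h2.trans ?_
    rw [← sub_nonneg]
    have e : v + (((1 + v) ^ n)⁻¹ - 1) / n
        - (((n : ℝ) + 1) / 2 - ((n : ℝ) + 1) * (n + 2) / 6 * v) * v ^ 2
      = (((1 + v) ^ n)⁻¹ - (1 - (n : ℝ) * v + (n : ℝ) * (n + 1) / 2 * v ^ 2
          - (n : ℝ) * (n + 1) * (n + 2) / 6 * v ^ 3)) / n := by
      field_simp
      ring
    rw [e]
    exact div_nonneg (sub_nonneg.2 hb) (by linarith)
  · have hb := inv_pow_neg_ge n (w := -v) (by linarith) (by linarith)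
    rw [sub_neg_eq_add] at hb
    have h2 : A * v ^ 2 ≤ ((n : ℝ) + 1) / 2 * v ^ 2 := by
      refine mul_le_mul_of_nonneg_right (hA.trans ?_) (sq_nonneg v)
      have : 0 ≤ ((n : ℝ) + 1) * (n + 2) / 6 * v0 := by positivity
      linarith
    refine h2.trans ?_
    rw [← sub_nonneg]
    have e : v + (((1 + v) ^ n)⁻¹ - 1) / n - ((n : ℝ) + 1) / 2 * v ^ 2
      = (((1 + v) ^ n)⁻¹ - (1 + (n : ℝ) * -v + (n : ℝ) * (n + 1) / 2 * (-v) ^ 2)) / n := by
      field_simp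
      ring
    rw [e]
    exact div_nonneg (sub_nonneg.2 hb) (by linarith)

/-! ## The constants -/

lemma rr_nonneg (n : ℕ) : ∀ m, 0 ≤ rr n m
  | 0 => le_rfl
  | 1 => by simp only [rr]; positivity
  | m + 2 => by
    have := rr_nonneg n (m + 1)
    simp only [rr]
    positivity

/-- The value of the form constant on degree four. -/
def tau1 (n : ℕ) : ℚ :=
  (4 * ((n : ℚ) + 3) ^ 2 / (n + 1) + 27 * ((n : ℚ) + 2) / ((n + 3) * (n + 1))) / (n + 6)

lemma tauJ_one (n : ℕ) : tauJ n 1 = (tau1 n : ℝ) := by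
  simp only [tauJ, rr, tau1]
  push_cast
  field_simp
  ring

lemma tau1_ge {n : ℕ} (hn : 6 ≤ n) : 18 / 5 ≤ (tau1 n : ℝ) := by
  have h : (6 : ℝ) ≤ n := by exact_mod_cast hn
  simp only [tau1]
  push_cast
  have h27 : 0 ≤ 27 * ((n : ℝ) + 2) / (((n : ℝ) + 3) * ((n : ℝ) + 1)) := by positivity
  rw [le_div_iff₀ (by linarith)]
  refine le_trans ?_ (le_add_of_nonneg_right h27)
  rw [le_div_iff₀ (by linarith)]
  nlinarith

lemma rr_step {n m : ℕ} (hn : 6 ≤ n) (hm : 1 ≤ m) :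
    rr n (m + 1) * (((n : ℝ) + 2 * m + 3) ^ 2 * (2 * m + 4))
      ≤ rr n m * (((n : ℝ) + 2 * m + 1) ^ 2 * (2 * m + 2)) := by
  obtain ⟨k, rfl⟩ : ∃ k, m = k + 1 := ⟨m - 1, by omega⟩
  have h6 : (6 : ℝ) ≤ n := by exact_mod_cast hn
  have hr := rr_nonneg n (k + 1)
  rw [rr]
  push_cast
  set a : ℝ := (n : ℝ) + 2 * ((k : ℝ) + 1) + 1 with ha
  have hk : (0 : ℝ) ≤ k := k.cast_nonneg
  have hk9 : 2 * ((k : ℝ) + 1) + 3 ≤ a - 4 := by rw [ha]; linarith
  have key : (2 * ((k : ℝ) + 1) + 1) * (a + 2) ^ 2 * (2 * ((k : ℝ) + 1) + 4)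
      ≤ a ^ 3 * (2 * ((k : ℝ) + 1) + 2) := by
    have h1 : (2 * ((k : ℝ) + 1) + 1) * (2 * ((k : ℝ) + 1) + 4)
        ≤ (2 * ((k : ℝ) + 1) + 2) * (a - 4) := by
      refine le_trans ?_ (mul_le_mul_of_nonneg_left hk9 (by positivity))
      nlinarith
    have h2 : (a - 4) * (a + 2) ^ 2 ≤ a ^ 3 := by nlinarith
    have h3 := mul_le_mul_of_nonneg_left h2 (show 0 ≤ 2 * ((k : ℝ) + 1) + 2 by positivity)
    have h4 := mul_le_mul_of_nonneg_right h1 (sq_nonneg (a + 2))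
    nlinarith
  have ha0 : 0 < a := by rw [ha]; positivity
  have e1 : (n : ℝ) + 2 * (k : ℝ) + 3 = a := by rw [ha]; ring
  have e2 : (n : ℝ) + 2 * ((k : ℝ) + 1) + 3 = a + 2 := by rw [ha]; ring
  rw [e1, e2, div_mul_eq_mul_div, div_mul_eq_mul_div, div_le_iff₀ ha0]
  nlinarith [mul_le_mul_of_nonneg_left key hr]

lemma rr_two_le {n m : ℕ} (hn : 7 ≤ n) (hm : 2 ≤ m) :
    rr n m * (((n : ℝ) + 2 * m + 1) ^ 2 * (2 * m + 2))
      ≤ rr n 2 * (((n : ℝ) + 5) ^ 2 * 6) := by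
  induction m, hm using Nat.le_induction with
  | base => norm_num [add_assoc]
  | succ m hm ih =>
    refine le_trans (le_of_eq ?_) ((rr_step (by omega : 6 ≤ n) (by omega)).trans ih)
    push_cast
    ring

lemma tau_high {n m : ℕ} (hn : 7 ≤ n) (hm : 2 ≤ m) {T : ℝ} (hT0 : 0 ≤ T)
    (hT : 36 * ((n : ℝ) + 5) ^ 2 ≤ T * (((n : ℝ) + 3) * ((n : ℝ) + 1)) * ((n : ℝ) + 10)) :
    tauJ n m ≤ T := by
  have h7 : (7 : ℝ) ≤ n := by exact_mod_cast hn
  have hm2 : (2 : ℝ) ≤ m := by exact_mod_cast hm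
  have hr := rr_nonneg n (m + 1)
  have h1 := rr_two_le hn hm
  have h2 := rr_two_le hn (show 2 ≤ m + 1 by omega)
  push_cast at h2
  have h3 : rr n (m + 1) * ((n : ℝ) + 2 * m) * (2 * m + 1) ^ 2
      ≤ rr n (m + 1) * (((n : ℝ) + 2 * (m + 1) + 1) ^ 2 * (2 * (m + 1) + 2)) := by
    rw [mul_assoc]
    refine mul_le_mul_of_nonneg_left ?_ hr
    have a1 : (n : ℝ) + 2 * m ≤ (n : ℝ) + 2 * (m + 1) + 1 := by linarith
    have a2 : (2 * (m : ℝ) + 1) ^ 2
        ≤ ((n : ℝ) + 2 * (m + 1) + 1) * (2 * (m + 1) + 2) := by nlinarith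
    refine (mul_le_mul a1 a2 (sq_nonneg _) (by linarith)).trans (le_of_eq ?_)
    ring
  have h4 : rr n 2 = 3 / (((n : ℝ) + 3) * ((n : ℝ) + 1)) := by
    simp only [rr]
    push_cast
    field_simp
    ring
  rw [h4] at h1 h2
  have h5 : 2 * (3 / (((n : ℝ) + 3) * ((n : ℝ) + 1)) * (((n : ℝ) + 5) ^ 2 * 6))
      ≤ T * ((n : ℝ) + 4 * m + 2) := by
    refine le_trans ?_ (mul_le_mul_of_nonneg_left
      (show (n : ℝ) + 10 ≤ (n : ℝ) + 4 * m + 2 by linarith) hT0)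
    rw [div_mul_eq_mul_div, mul_div_assoc', div_le_iff₀ (by positivity)]
    linarith
  rw [tauJ, div_le_iff₀ (by linarith)]
  nlinarith

/-- The case of dimension six. -/
lemma tau_high_six {m : ℕ} (hm : 2 ≤ m) : tauJ 6 m ≤ 3 := by
  obtain rfl | h3 := (show m = 2 ∨ 3 ≤ m by omega)
  · norm_num [tauJ, rr]
  have hZ : ∀ k, 3 ≤ k → rr 6 k * (((6 : ℝ) + 2 * k + 1) ^ 2 * (2 * k + 2)) ≤ 30 := by
    intro k hk
    induction k, hk using Nat.le_induction with
    | base => norm_num [rr]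
    | succ k hk ih =>
      refine le_trans (le_of_eq ?_) ((rr_step (n := 6) le_rfl (by omega)).trans ih)
      push_cast
      ring
  have h1 := hZ m h3
  have h2 := hZ (m + 1) (by omega)
  push_cast at h2
  have hm3 : (3 : ℝ) ≤ m := by exact_mod_cast h3
  have h4 : rr 6 (m + 1) * ((6 : ℝ) + 2 * m) * (2 * m + 1) ^ 2
      ≤ rr 6 (m + 1) * (((6 : ℝ) + 2 * (m + 1) + 1) ^ 2 * (2 * (m + 1) + 2)) := by
    rw [mul_assoc]
    refine mul_le_mul_of_nonneg_left ?_ (rr_nonneg 6 _)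
    have a1 : (6 : ℝ) + 2 * m ≤ 6 + 2 * (m + 1) + 1 := by linarith
    have a2 : (2 * (m : ℝ) + 1) ^ 2 ≤ (6 + 2 * (m + 1) + 1) * (2 * (m + 1) + 2) := by nlinarith
    refine (mul_le_mul a1 a2 (sq_nonneg _) (by linarith)).trans (le_of_eq ?_)
    ring
  rw [tauJ]
  push_cast
  rw [div_le_iff₀ (by linarith)]
  nlinarith

lemma tau_high' {n m : ℕ} (hn : 6 ≤ n) (hm : 2 ≤ m) : tauJ n m ≤ (tau1 n : ℝ) := by
  obtain rfl | rfl | h8 := (show n = 6 ∨ n = 7 ∨ 8 ≤ n by omega)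
  · exact (tau_high_six hm).trans (le_trans (by norm_num) (tau1_ge hn))
  · refine (tau_high le_rfl hm (T := 4) (by norm_num) (by norm_num)).trans ?_
    norm_num [tau1]
  · have h8' : (8 : ℝ) ≤ n := by exact_mod_cast h8
    refine (tau_high (by omega) hm (T := 18 / 5) (by norm_num) ?_).trans (tau1_ge hn)
    nlinarith [mul_nonneg (mul_nonneg (sub_nonneg.2 h8') (sub_nonneg.2 h8')) (sub_nonneg.2 h8')]

lemma tau_bounds {n : ℕ} (hn : 6 ≤ n) (m : ℕ) :
    tauJ n m ≤ (tau1 n : ℝ) ∧ tauJ n m ≤ (tau1 n : ℝ) / (4 * ((n : ℝ) + 2)) * lamJ n m := by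
  have h6 : (6 : ℝ) ≤ n := by exact_mod_cast hn
  have ht := tau1_ge hn
  obtain _ | _ | m := m
  · have e : tauJ n 0 = (n : ℝ) / (((n : ℝ) + 1) * ((n : ℝ) + 2)) := by
      simp only [tauJ, rr]
      push_cast
      field_simp
      ring
    have h1 : (n : ℝ) / (((n : ℝ) + 1) * ((n : ℝ) + 2)) ≤ 1 := by
      rw [div_le_one (by positivity)]; nlinarith
    refine ⟨by rw [e]; linarith, ?_⟩
    rw [e, lamJ]
    push_cast
    rw [div_mul_eq_mul_div, div_le_div_iff₀ (by positivity) (by positivity)]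
    have : 4 ≤ (tau1 n : ℝ) * (2 * ((n : ℝ) + 1)) := by nlinarith
    nlinarith [mul_le_mul_of_nonneg_left this (show 0 ≤ (n : ℝ) * ((n : ℝ) + 2) by positivity)]
  · refine ⟨(tauJ_one n).le, ?_⟩
    rw [show 0 + 1 = 1 from rfl, tauJ_one, lamJ]
    push_cast
    rw [div_mul_eq_mul_div, le_div_iff₀ (by positivity)]
    exact le_of_eq (by ring)
  · have h := tau_high' hn (show 2 ≤ m + 1 + 1 by omega)
    refine ⟨h, h.trans ?_⟩
    rw [lamJ]
    push_cast
    rw [div_mul_eq_mul_div, le_div_iff₀ (by positivity)]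
    have hm : (0 : ℝ) ≤ m := m.cast_nonneg
    have : 4 * ((n : ℝ) + 2)
        ≤ (2 * ((m : ℝ) + 1 + 1) + 2) * ((n : ℝ) + 2 * ((m : ℝ) + 1 + 1)) := by nlinarith
    exact mul_le_mul_of_nonneg_left this (by linarith)

/-- A rational upper bound for `MM`. -/
def mUp : ℕ → ℚ
  | 0 => 0
  | 1 => 0
  | 2 => 4 / 3.141592
  | 3 => 3 / 2
  | n + 4 => mUp (n + 2) * ((n + 4) / (n + 3))

lemma MM_le_mUp : ∀ {n : ℕ}, 2 ≤ n → MM n ≤ (mUp n : ℝ)
  | 0, h => absurd h (by norm_num)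
  | 1, h => absurd h (by norm_num)
  | 2, _ => by
    rw [MM_two, mUp]
    push_cast
    gcongr
    exact Real.pi_gt_d6.le
  | 3, _ => by
    have h := MM_mul_succ (n := 2) (by norm_num)
    rw [MM_two] at h
    have hp := Real.pi_pos
    field_simp at h
    rw [mUp]
    push_cast at h ⊢
    nlinarith
  | n + 4, _ => by
    have h := MM_le_mUp (n := n + 2) (by omega)
    have h1 := MM_mul_succ (n := n + 2) (by omega)
    have h2 := MM_mul_succ (n := n + 3) (by omega)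
    have p1 := MM_pos (n := n + 3) (by omega)
    push_cast at h1 h2
    have e : MM (n + 4) = MM (n + 2) * (((n : ℝ) + 4) / ((n : ℝ) + 3)) := by
      refine mul_left_cancel₀ p1.ne' ?_
      rw [h2, ← mul_assoc, mul_comm (MM (n + 3)), h1]
      field_simp
      ring
    rw [e, mUp]
    push_cast
    exact mul_le_mul_of_nonneg_right h (by positivity)

lemma MM_sq_le {n : ℕ} (hn : 2 ≤ n) : MM n ^ 2 ≤ 2 * ((n : ℝ) + 1) / Real.pi := by
  obtain ⟨m, rfl⟩ : ∃ m, n = m + 1 := ⟨n - 1, by omega⟩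
  have hm : 0 < m := by omega
  have h := (P237U.unitBallVol_succ_sq hm).2
  rw [MM, Nat.add_sub_cancel, kap_eq_unitBallVol hm, kap_eq_unitBallVol (Nat.succ_pos m)]
  have h0 := P237U.unitBallVol_pos hm
  have h1 := P237U.unitBallVol_pos (Nat.succ_pos m)
  push_cast at h ⊢
  rw [div_pow, div_le_div_iff₀ (by positivity) (by positivity)] at h
  rw [div_pow, div_le_div_iff₀ (by positivity) Real.pi_pos, mul_pow]
  nlinarith

/-! ## Piecewise linear functions -/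

/-- The part of a piecewise linear function after the knot `v`; `p` is the slope before it and the
slope after the last knot is zero. -/
noncomputable def pl (v p : ℚ) : List (ℚ × ℚ) → ℝ → ℝ
  | [], x => -(p : ℝ) * max 0 (x - v)
  | (c, s) :: l, x => ((s : ℝ) - p) * max 0 (x - v) + pl c s l x

/-- The derivative of `pl`. -/
noncomputable def ps (v p : ℚ) : List (ℚ × ℚ) → ℝ → ℝ
  | [], x => -(p : ℝ) * Set.indicator (Ioi (v : ℝ)) 1 x
  | (c, s) :: l, x => ((s : ℝ) - p) * Set.indicator (Ioi (v : ℝ)) 1 x + ps c s l x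

/-- All knots. -/
noncomputable def knots (v : ℚ) : List (ℚ × ℚ) → Finset ℝ
  | [] => {(v : ℝ)}
  | (c, _) :: l => insert (v : ℝ) (knots c l)

lemma lipschitz_ramp (s c : ℝ) : LipschitzWith ‖s‖₊ fun x : ℝ => s * max 0 (x - c) := by
  refine LipschitzWith.of_dist_le_mul fun x y => ?_
  rw [Real.dist_eq, Real.dist_eq, ← mul_sub, abs_mul, coe_nnnorm, Real.norm_eq_abs]
  refine mul_le_mul_of_nonneg_left ?_ (abs_nonneg _)
  rw [max_comm 0 (x - c), max_comm 0 (y - c)]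
  exact (abs_max_sub_max_le_abs (x - c) (y - c) 0).trans (le_of_eq (by rw [sub_sub_sub_cancel_right]))

lemma lipschitz_pl : ∀ (v p : ℚ) (L : List (ℚ × ℚ)), ∃ C, LipschitzWith C (pl v p L)
  | v, p, [] => ⟨_, lipschitz_ramp (-(p : ℝ)) v⟩
  | v, p, (c, s) :: l => by
    obtain ⟨C, hC⟩ := lipschitz_pl c s l
    exact ⟨_, (lipschitz_ramp ((s : ℝ) - p) v).add hC⟩

lemma measurable_ps : ∀ (v p : ℚ) (L : List (ℚ × ℚ)), Measurable (ps v p L)
  | _, _, [] => (measurable_one.indicator measurableSet_Ioi).const_mul _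
  | _, _, (c, s) :: l =>
    ((measurable_one.indicator measurableSet_Ioi).const_mul _).add (measurable_ps c s l)

lemma bdd_ps : ∀ (v p : ℚ) (L : List (ℚ × ℚ)), ∃ C, ∀ x, |ps v p L x| ≤ C
  | v, p, [] => ⟨|(p : ℝ)|, fun x => by
    by_cases h : x ∈ Ioi (v : ℝ) <;> simp [ps, h]⟩
  | v, p, (c, s) :: l => by
    obtain ⟨C, hC⟩ := bdd_ps c s l
    refine ⟨|(s : ℝ) - p| + C, fun x => ?_⟩
    rw [ps]
    refine (abs_add_le _ _).trans (add_le_add ?_ (hC x))
    by_cases h : x ∈ Ioi (v : ℝ) <;> simp [h]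

lemma deriv_ramp (s c : ℝ) {x : ℝ} (hx : x ≠ c) :
    HasDerivAt (fun x : ℝ => s * max 0 (x - c)) (s * Set.indicator (Ioi c) 1 x) x := by
  rcases lt_or_gt_of_ne hx with h | h
  · have e : (fun y : ℝ => s * max 0 (y - c)) =ᶠ[nhds x] fun _ => 0 := by
      filter_upwards [Iio_mem_nhds h] with y hy
      rw [max_eq_left (sub_nonpos.2 (le_of_lt hy)), mul_zero]
    rw [Set.indicator_of_notMem (by simp [h.le]), mul_zero]
    exact (hasDerivAt_const x (0 : ℝ)).congr_of_eventuallyEq e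
  · have e : (fun y : ℝ => s * max 0 (y - c)) =ᶠ[nhds x] fun y => s * (y - c) := by
      filter_upwards [Ioi_mem_nhds h] with y hy
      rw [max_eq_right (sub_nonneg.2 (le_of_lt hy))]
    rw [Set.indicator_of_mem (by exact h), Pi.one_apply]
    exact (((hasDerivAt_id' x).sub_const c).const_mul s).congr_of_eventuallyEq e

lemma deriv_pl : ∀ (v p : ℚ) (L : List (ℚ × ℚ)) (x : ℝ), x ∉ knots v L →
    HasDerivAt (pl v p L) (ps v p L x) x
  | v, p, [], x, hx => deriv_ramp _ _ (by simpa [knots] using hx)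
  | v, p, (c, s) :: l, x, hx => by
    simp only [knots, Finset.mem_insert, not_or] at hx
    exact (deriv_ramp _ _ hx.1).add (deriv_pl c s l x hx.2)

/-- Knots in increasing order. -/
def incr : ℚ → List (ℚ × ℚ) → Prop
  | _, [] => True
  | v, (c, _) :: l => v ≤ c ∧ incr c l

lemma pl_zero : ∀ (v p : ℚ) (L : List (ℚ × ℚ)) (x : ℝ), incr v L → x ≤ v →
    pl v p L x = 0 ∧ ps v p L x = 0
  | v, p, [], x, _, hx => by simp [pl, ps, hx]
  | v, p, (c, s) :: l, x, h, hx => by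
    obtain ⟨h1, h2⟩ := h
    have h3 := pl_zero c s l x h2 (hx.trans (Rat.cast_le.2 h1))
    simp [pl, ps, h3.1, h3.2, hx]

/-! ## The checker -/

/-- Data of a certificate valid for a range of dimensions. -/
structure Data where
  n0 : ℕ
  η : ℚ
  T : ℚ
  bN : ℚ
  C : ℚ
  D : ℚ
  v0 : ℚ
  mu : Option ℚ
  L : List (ℚ × ℚ × ℚ)

/-- The coefficient of `H ^ 2`. -/
def Data.cA (G : Data) : ℚ := (1 + G.η) * G.T / 2

/-- The coefficient of the gradient terms. -/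
def Data.cL (G : Data) : ℚ := (1 + G.η⁻¹) / 2

/-- The excess over the tangent line at `t`. -/
def Data.excess (G : Data) (t v g H K x : ℚ) : ℚ :=
  G.cA * H ^ 2 + G.cL * (G.bN * (1 + x) * K + g * max 0 (G.C - G.D * (1 + v) ^ 2))
    - (t + (((1 + t) ^ G.n0)⁻¹ - 1) / G.n0 + (1 - ((1 + t) ^ (G.n0 + 1))⁻¹) * (x - t))

/-- One segment. -/
def Data.segOK (G : Data) (v H K c a k : ℚ) : Bool :=
  decide (v < c) && decide (0 ≤ k) &&
    decide (G.excess ((v + c) / 2) v (max 0 ((1 - a) ^ 2 - k)) H K v ≤ 0) &&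
    decide (G.excess ((v + c) / 2) v (max 0 ((1 - a) ^ 2 - k)) (H + a * (c - v))
      (K + k * (c - v)) c ≤ 0)

/-- The part after the last knot. -/
def Data.tailOK (G : Data) (v H K : ℚ) : Bool :=
  match G.mu with
  | some M => decide (M ≤ v)
  | none => decide (G.excess v v 1 H K v ≤ 0) &&
      decide (G.cL * G.bN * K ≤ 1 - ((1 + v) ^ (G.n0 + 1))⁻¹)

/-- All segments. -/
def Data.check (G : Data) : ℚ → ℚ → ℚ → List (ℚ × ℚ × ℚ) → Bool
  | v, H, K, [] => G.tailOK v H K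
  | v, H, K, (c, a, k) :: l =>
    G.segOK v H K c a k && G.check c (H + a * (c - v)) (K + k * (c - v)) l

/-- The whole certificate. -/
def Data.ok (G : Data) : Bool :=
  decide (6 ≤ G.n0) && decide (0 < G.η) && decide (0 ≤ G.T) && decide (0 ≤ G.bN) &&
    decide (0 ≤ G.D) && decide (0 ≤ G.v0) &&
    decide (G.cA ≤ ((G.n0 : ℚ) + 1) / 2 - ((G.n0 : ℚ) + 1) * (G.n0 + 2) / 6 * G.v0) &&
    G.check G.v0 G.v0 0 G.L

/-- The knots and slopes of `H`. -/
def La (L : List (ℚ × ℚ × ℚ)) : List (ℚ × ℚ) := L.map fun q => (q.1, q.2.1)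

/-- The knots and slopes of `K`. -/
def Lk (L : List (ℚ × ℚ × ℚ)) : List (ℚ × ℚ) := L.map fun q => (q.1, q.2.2)

lemma incr_of_check (G : Data) : ∀ (L : List (ℚ × ℚ × ℚ)) (v H K : ℚ),
    G.check v H K L = true → incr v (La L) ∧ incr v (Lk L)
  | [], _, _, _, _ => ⟨trivial, trivial⟩
  | (c, a, k) :: l, v, H, K, h => by
    simp only [Data.check, Data.segOK, Bool.and_eq_true, decide_eq_true_eq] at h
    obtain ⟨⟨⟨⟨hvc, -⟩, -⟩, -⟩, hl⟩ := h
    obtain ⟨h1, h2⟩ := incr_of_check G l _ _ _ hl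
    exact ⟨⟨hvc.le, h1⟩, ⟨hvc.le, h2⟩⟩

lemma chord {α β u w a k H K x : ℝ} (hα : 0 ≤ α) (hβ : 0 ≤ β) (hk : 0 ≤ k) (h1 : u ≤ x)
    (h2 : x ≤ w) {c0 c1 : ℝ} (he1 : α * H ^ 2 + β * (1 + u) * K + c0 - c1 * u ≤ 0)
    (he2 : α * (H + a * (w - u)) ^ 2 + β * (1 + w) * (K + k * (w - u)) + c0 - c1 * w ≤ 0) :
    α * (H + a * (x - u)) ^ 2 + β * (1 + x) * (K + k * (x - u)) + c0 - c1 * x ≤ 0 := by
  rcases eq_or_lt_of_le (h1.trans h2) with h | h
  · obtain rfl : x = u := le_antisymm (h2.trans h.ge) h1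
    simpa using he1
  · have e : (w - u) * (α * (H + a * (x - u)) ^ 2 + β * (1 + x) * (K + k * (x - u)) + c0 - c1 * x)
        = (w - x) * (α * H ^ 2 + β * (1 + u) * K + c0 - c1 * u)
          + (x - u) * (α * (H + a * (w - u)) ^ 2 + β * (1 + w) * (K + k * (w - u)) + c0 - c1 * w)
          - (α * a ^ 2 + β * k) * (w - u) * (x - u) * (w - x) := by ring
    have p1 := mul_nonpos_of_nonneg_of_nonpos (sub_nonneg.2 h2) he1
    have p2 := mul_nonpos_of_nonneg_of_nonpos (sub_nonneg.2 h1) he2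
    have p3 : 0 ≤ (α * a ^ 2 + β * k) * (w - u) * (x - u) * (w - x) := by
      have := sub_nonneg.2 h1
      have := sub_nonneg.2 h2
      positivity
    nlinarith

/-- The scalar inequality with the constants of `G`. -/
def Data.Ineq (G : Data) (x h K a k : ℝ) : Prop :=
  ∀ C' D' : ℝ, C' ≤ G.C → (G.D : ℝ) ≤ D' →
    (G.cA : ℝ) * h ^ 2 + (G.cL : ℝ) * ((G.bN : ℝ) * (1 + x) * K
      + max 0 ((1 - a) ^ 2 - k) * (C' - D' * (1 + x) ^ 2)) ≤ phiN G.n0 x

lemma check_sound (G : Data) (hn : 1 ≤ G.n0) (hA : 0 ≤ G.cA) (hL : 0 ≤ G.cL) (hN : 0 ≤ G.bN)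
    (hD : 0 ≤ G.D) : ∀ (L : List (ℚ × ℚ × ℚ)) (v H K : ℚ) (p q : ℚ),
    G.check v H K L = true → 0 ≤ v → 0 ≤ K → ∀ x : ℝ, (v : ℝ) < x →
      0 ≤ (K : ℝ) + q * (x - v) + pl v q (Lk L) x ∧
      ((∀ M, G.mu = some M → x ≤ (M : ℝ)) →
        G.Ineq x (H + p * (x - v) + pl v p (La L) x) (K + q * (x - v) + pl v q (Lk L) x)
          (p + ps v p (La L) x) (q + ps v q (Lk L) x))
  | [], v, H, K, p, q, h, hv, hK, x, hx => by
    have hxv : max 0 (x - (v : ℝ)) = x - v := max_eq_right (by linarith)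
    simp only [La, Lk, List.map_nil, pl, ps, hxv]
    rw [Set.indicator_of_mem (by exact hx), Pi.one_apply]
    ring_nf
    have hK' : (0 : ℝ) ≤ K := by exact_mod_cast hK
    refine ⟨hK', fun hmu => ?_⟩
    simp only [Data.check, Data.tailOK] at h
    cases hm : G.mu with
    | some M =>
      rw [hm] at h
      simp only [decide_eq_true_eq] at h
      exact absurd (hmu M hm) (not_le.2 (lt_of_le_of_lt (Rat.cast_le.2 h) hx))
    | none =>
      rw [hm] at h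
      simp only [Bool.and_eq_true, decide_eq_true_eq] at h
      obtain ⟨h1, h2⟩ := h
      simp only [Data.excess] at h1
      have h1' := (Rat.cast_le (K := ℝ)).2 h1
      have h2' := (Rat.cast_le (K := ℝ)).2 h2
      push_cast at h1' h2'
      intro C' D' hC hD'
      have hv' : (0 : ℝ) ≤ v := by exact_mod_cast hv
      have hD0 : (0 : ℝ) ≤ G.D := by exact_mod_cast hD
      have hL' : (0 : ℝ) ≤ G.cL := by exact_mod_cast hL
      have ht := phiN_tangent hn (t := (v : ℝ)) (v := x) (by linarith) (by linarith)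
      have hsq : (1 + (v : ℝ)) ^ 2 ≤ (1 + x) ^ 2 := pow_le_pow_left₀ (by linarith) (by linarith) 2
      have hb : C' - D' * (1 + x) ^ 2 ≤ max 0 ((G.C : ℝ) - G.D * (1 + (v : ℝ)) ^ 2) :=
        le_trans (by nlinarith) (le_max_right _ _)
      have hlin := mul_le_mul_of_nonneg_right h2' (by linarith : (0 : ℝ) ≤ x - v)
      have hb' := mul_le_mul_of_nonneg_left hb hL'
      norm_num
      nlinarith
  | (c, a, k) :: l, v, H, K, p, q, h, hv, hK, x, hx => by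
    obtain ⟨hia, hik⟩ := incr_of_check G _ _ _ _ h
    simp only [Data.check, Data.segOK, Bool.and_eq_true, decide_eq_true_eq] at h
    obtain ⟨⟨⟨⟨hvc, hk⟩, he1⟩, he2⟩, hl⟩ := h
    simp only [Data.excess] at he1 he2
    have hxv : max 0 (x - (v : ℝ)) = x - v := max_eq_right (by linarith)
    have hind : Set.indicator (Ioi (v : ℝ)) (1 : ℝ → ℝ) x = 1 :=
      Set.indicator_of_mem (show x ∈ Ioi (v : ℝ) from hx) _
    simp only [La, Lk, List.map_cons, pl, ps, hxv, hind, mul_one]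
    have hk' : (0 : ℝ) ≤ k := by exact_mod_cast hk
    have hK' : (0 : ℝ) ≤ K := by exact_mod_cast hK
    rcases le_or_gt x (c : ℝ) with hxc | hxc
    · obtain ⟨za, za'⟩ := pl_zero c a (La l) x hia.2 hxc
      obtain ⟨zk, zk'⟩ := pl_zero c k (Lk l) x hik.2 hxc
      simp only [La, Lk] at za za' zk zk'
      rw [za, za', zk, zk']
      have e1 : (K : ℝ) + q * (x - v) + (((k : ℝ) - q) * (x - v) + 0) = K + k * (x - v) := by ring
      have e2 : (H : ℝ) + p * (x - v) + (((a : ℝ) - p) * (x - v) + 0) = H + a * (x - v) := by ring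
      rw [e1, e2]
      refine ⟨add_nonneg hK' (mul_nonneg hk' (by linarith)), fun _ C' D' hC hD' => ?_⟩
      rw [show (p : ℝ) + (((a : ℝ) - p) + 0) = a by ring,
        show (q : ℝ) + (((k : ℝ) - q) + 0) = k by ring]
      have he1' := (Rat.cast_le (K := ℝ)).2 he1
      have he2' := (Rat.cast_le (K := ℝ)).2 he2
      push_cast at he1' he2'
      have hv' : (0 : ℝ) ≤ v := by exact_mod_cast hv
      have hvc' : (v : ℝ) < c := by exact_mod_cast hvc
      have hD0 : (0 : ℝ) ≤ G.D := by exact_mod_cast hD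
      have hL' : (0 : ℝ) ≤ G.cL := by exact_mod_cast hL
      have ht := phiN_tangent hn (t := ((v : ℝ) + c) / 2) (v := x) (by linarith) (by linarith)
      have hsq : (1 + (v : ℝ)) ^ 2 ≤ (1 + x) ^ 2 := pow_le_pow_left₀ (by linarith) (by linarith) 2
      have hb : C' - D' * (1 + x) ^ 2 ≤ max 0 ((G.C : ℝ) - G.D * (1 + (v : ℝ)) ^ 2) :=
        le_trans (by nlinarith) (le_max_right _ _)
      have hb' := mul_le_mul_of_nonneg_left
        (mul_le_mul_of_nonneg_left hb (le_max_left 0 ((1 - (a : ℝ)) ^ 2 - k))) hL'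
      set t : ℝ := ((v : ℝ) + c) / 2
      set f0 : ℝ := t + (((1 + t) ^ G.n0)⁻¹ - 1) / G.n0
      set d0 : ℝ := 1 - ((1 + t) ^ (G.n0 + 1))⁻¹
      set cst : ℝ := (G.cL : ℝ) * (max 0 ((1 - (a : ℝ)) ^ 2 - k)
        * max 0 ((G.C : ℝ) - G.D * (1 + (v : ℝ)) ^ 2))
      have hq := chord (α := (G.cA : ℝ)) (β := (G.cL : ℝ) * G.bN) (a := (a : ℝ)) (H := (H : ℝ))
        (K := (K : ℝ)) (by exact_mod_cast hA) (mul_nonneg hL' (by exact_mod_cast hN)) hk' hx.le hxc
        (c0 := cst - f0 + d0 * t) (c1 := d0) (by linarith [he1']) (by linarith [he2'])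
      linarith
    · have hK2 : 0 ≤ K + k * (c - v) := add_nonneg hK (mul_nonneg hk (by linarith))
      have ih := check_sound G hn hA hL hN hD l c (H + a * (c - v)) (K + k * (c - v)) a k hl
        (by linarith) hK2 x hxc
      simp only [La, Lk] at ih
      push_cast at ih
      refine ⟨le_of_le_of_eq ih.1 (by ring), fun hmu => ?_⟩
      convert ih.2 hmu using 1 <;> ring

lemma Data.ineq_sound (G : Data) (h : G.ok = true) :
    (∀ x : ℝ, 0 ≤ pl G.v0 0 (Lk G.L) x) ∧ ∀ x : ℝ, -1 < x → (∀ M, G.mu = some M → x ≤ (M : ℝ)) →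
      G.Ineq x (x + pl G.v0 1 (La G.L) x) (pl G.v0 0 (Lk G.L) x)
        (1 + ps G.v0 1 (La G.L) x) (ps G.v0 0 (Lk G.L) x) := by
  simp only [Data.ok, Bool.and_eq_true, decide_eq_true_eq] at h
  obtain ⟨⟨⟨⟨⟨⟨⟨h8, hη⟩, hT⟩, hN⟩, hD⟩, hv0⟩, hA⟩, hc⟩ := h
  have hA0 : 0 ≤ G.cA := by unfold Data.cA; positivity
  have hL0 : 0 ≤ G.cL := by unfold Data.cL; positivity
  obtain ⟨ia, ik⟩ := incr_of_check G _ _ _ _ hc
  have hs := check_sound G (by omega) hA0 hL0 hN hD G.L G.v0 G.v0 0 1 0 hc hv0 le_rfl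
  refine ⟨fun x => ?_, fun x hx hmu => ?_⟩
  · rcases le_or_gt x (G.v0 : ℝ) with hle | hlt
    · rw [(pl_zero _ 0 _ x ik hle).1]
    · simpa using (hs x hlt).1
  · rcases le_or_gt x (G.v0 : ℝ) with hle | hlt
    · rw [(pl_zero _ 1 _ x ia hle).1, (pl_zero _ 0 _ x ik hle).1, (pl_zero _ 1 _ x ia hle).2,
        (pl_zero _ 0 _ x ik hle).2]
      intro C' D' _ _
      have hA' := (Rat.cast_le (K := ℝ)).2 hA
      push_cast at hA'
      norm_num
      exact phiN_small (by omega) hA' (by exact_mod_cast hv0) hx hle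
    · have := (hs x hlt).2 hmu
      simpa using this

/-- A certificate from checked data, for a gauge bound `R`. -/
theorem cert_of_data (G : Data) (h : G.ok = true) {n : ℕ} (hn : G.n0 ≤ n)
    (hT : (tau1 n : ℝ) ≤ G.T)
    (hN : (tau1 n : ℝ) / (4 * ((n : ℝ) + 2)) * ((n : ℝ) - 1) ≤ G.bN)
    {R : ℝ} (hC : (tau1 n : ℝ) / (4 * ((n : ℝ) + 2)) * R ^ 2 ≤ G.C)
    (hD : (G.D : ℝ) ≤ (tau1 n : ℝ) / (4 * ((n : ℝ) + 2)))
    (hM : ∀ M, G.mu = some M → R - 1 ≤ (M : ℝ)) : Nonempty (CertB n R) := by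
  obtain ⟨hKpos, hineq⟩ := G.ineq_sound h
  simp only [Data.ok, Bool.and_eq_true, decide_eq_true_eq] at h
  obtain ⟨⟨⟨⟨⟨⟨⟨h8, hη⟩, -⟩, -⟩, -⟩, -⟩, -⟩, -⟩ := h
  have hn8 : 6 ≤ n := h8.trans hn
  set β : ℝ := (tau1 n : ℝ) / (4 * ((n : ℝ) + 2)) with hβ
  have ht0 : (0 : ℝ) ≤ tau1 n := le_trans (by norm_num) (tau1_ge hn8)
  have hβ0 : 0 ≤ β := by rw [hβ]; positivity
  have hη' : (0 : ℝ) < G.η := by exact_mod_cast hη
  refine ⟨{
    η := G.η
    T := G.T
    β := β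
    S := knots G.v0 (La G.L) ∪ knots G.v0 (Lk G.L)
    H := fun x => x + pl G.v0 1 (La G.L) x
    a := fun x => 1 + ps G.v0 1 (La G.L) x
    K := pl G.v0 0 (Lk G.L)
    k := ps G.v0 0 (Lk G.L)
    η_pos := hη'
    T_nonneg := ht0.trans hT
    β_nonneg := hβ0
    tau_le := fun m => (tau_bounds hn8 m).1.trans hT
    tau_le_lam := fun m => (tau_bounds hn8 m).2
    H_lip := ?_
    K_lip := lipschitz_pl _ _ _
    a_meas := (measurable_ps _ _ _).const_add 1
    k_meas := measurable_ps _ _ _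
    a_bdd := ?_
    k_bdd := bdd_ps _ _ _
    H_deriv := fun v hv => (hasDerivAt_id' v).add (deriv_pl _ _ _ v fun hm =>
      hv (Finset.mem_union_left _ hm))
    K_deriv := fun v hv => deriv_pl _ _ _ v fun hm => hv (Finset.mem_union_right _ hm)
    K_nonneg := hKpos
    ineq := ?_ }⟩
  · obtain ⟨C, hC'⟩ := lipschitz_pl G.v0 1 (La G.L)
    exact ⟨_, LipschitzWith.id.add hC'⟩
  · obtain ⟨C, hC'⟩ := bdd_ps G.v0 1 (La G.L)
    exact ⟨1 + C, fun v => (abs_add_le _ _).trans (by rw [abs_one]; linarith [hC' v])⟩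
  · intro v hv1 hv2
    have hi := hineq v hv1 (fun M hm => hv2.trans (hM M hm)) (β * R ^ 2) β hC hD
    refine le_trans ?_ (hi.trans (phiN_mono (by omega) hn hv1))
    set K := pl G.v0 0 (Lk G.L) v
    have hK : 0 ≤ (1 + v) * K := mul_nonneg (by linarith) (hKpos v)
    have hN' := mul_le_mul_of_nonneg_right hN hK
    simp only [Data.cA, Data.cL]
    push_cast
    have hfac : 0 ≤ (1 + (G.η : ℝ)⁻¹) / 2 := by positivity
    nlinarith [mul_le_mul_of_nonneg_left hN' hfac]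

/-- The conditions on a single dimension. -/
def Data.okAt (G : Data) (M : ℚ) (n : ℕ) : Bool :=
  decide (G.n0 ≤ n) && decide (tau1 n ≤ G.T) &&
    decide (tau1 n / (4 * ((n : ℚ) + 2)) * ((n : ℚ) - 1) ≤ G.bN) &&
    decide (tau1 n / (4 * ((n : ℚ) + 2)) * mUp n ^ 2 ≤ G.C) &&
    decide (G.D ≤ tau1 n / (4 * ((n : ℚ) + 2))) && decide (mUp n - 1 ≤ M)

theorem cert_of_range (G : Data) (h : G.ok = true) (M : ℚ) (hmu : G.mu = some M) (lo hi : ℕ)
    (hr : ((List.range (hi + 1 - lo)).map (lo + ·)).all (G.okAt M) = true) {n : ℕ}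
    (h1 : lo ≤ n) (h2 : n ≤ hi) : Nonempty (Cert n) := by
  rw [List.all_eq_true] at hr
  have hn := hr n (List.mem_map.2 ⟨n - lo, List.mem_range.2 (by omega), by omega⟩)
  simp only [Data.okAt, Bool.and_eq_true, decide_eq_true_eq] at hn
  obtain ⟨⟨⟨⟨⟨hn0, hT⟩, hN⟩, hC⟩, hD⟩, hM⟩ := hn
  have hT' := (Rat.cast_le (K := ℝ)).2 hT
  have hN' := (Rat.cast_le (K := ℝ)).2 hN
  have hC' := (Rat.cast_le (K := ℝ)).2 hC
  have hD' := (Rat.cast_le (K := ℝ)).2 hD
  have hM' := (Rat.cast_le (K := ℝ)).2 hM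
  push_cast at hN' hC' hD' hM'
  have hn8 : 6 ≤ n := by
    simp only [Data.ok, Bool.and_eq_true, decide_eq_true_eq] at h
    omega
  have hm := MM_le_mUp (n := n) (by omega)
  have hm0 := MM_pos (n := n) (by omega)
  have hb : 0 ≤ (tau1 n : ℝ) / (4 * ((n : ℝ) + 2)) := by
    have := tau1_ge hn8
    positivity
  refine cert_of_data G h hn0 hT' hN' ?_ hD' fun M' hM'' => ?_
  · exact le_trans (mul_le_mul_of_nonneg_left (pow_le_pow_left₀ hm0.le hm 2) hb) hC'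
  · obtain rfl : M' = M := by rw [hmu] at hM''; exact (Option.some.inj hM'').symm
    linarith

theorem cert_of_tail (G : Data) (h : G.ok = true) (hmu : G.mu = none) (hT : 4 ≤ G.T)
    (hN : 1 ≤ G.bN) (hC : 63663 / 100000 ≤ G.C) (hD : G.D ≤ 0) {n : ℕ} (hn : G.n0 ≤ n)
    (h10 : 10 ≤ n) : Nonempty (Cert n) := by
  have h10' : (10 : ℝ) ≤ n := by exact_mod_cast h10
  have ht : (tau1 n : ℝ) ≤ 4 := by
    simp only [tau1]
    push_cast
    rw [div_le_iff₀ (by positivity),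
      div_add_div _ _ (by positivity) (by positivity), div_le_iff₀ (by positivity)]
    nlinarith [mul_le_mul_of_nonneg_left h10' (show (0 : ℝ) ≤ (n : ℝ) ^ 2 by positivity)]
  have ht0 : (0 : ℝ) ≤ tau1 n := le_trans (by norm_num) (tau1_ge (by omega : 6 ≤ n))
  set β : ℝ := (tau1 n : ℝ) / (4 * ((n : ℝ) + 2)) with hβ
  have hb : β ≤ 1 / ((n : ℝ) + 2) := by
    rw [hβ, div_le_div_iff₀ (by positivity) (by positivity)]
    nlinarith
  have hb0 : 0 ≤ β := by rw [hβ]; positivity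
  refine cert_of_data G h hn (ht.trans (by exact_mod_cast hT)) ?_ ?_ ?_ fun M hM => by
    rw [hmu] at hM; simp at hM
  · have hN' : (1 : ℝ) ≤ (G.bN : ℝ) := by exact_mod_cast hN
    refine le_trans ((mul_le_mul_of_nonneg_right hb (by linarith)).trans ?_) hN'
    rw [div_mul_eq_mul_div, div_le_one (by positivity)]
    linarith
  · refine le_trans ?_ ((Rat.cast_le (K := ℝ)).2 hC)
    push_cast
    refine (mul_le_mul hb (MM_sq_le (by omega : 2 ≤ n)) (sq_nonneg _) (by positivity)).trans ?_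
    have hp := Real.pi_gt_d6
    rw [div_mul_div_comm, div_le_iff₀ (by positivity)]
    nlinarith
  · exact le_trans (by exact_mod_cast hD) hb0

end Vale.Agent.P237H.ScalarAux
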