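import Vale.Agent.P237H.Claim
import Vale.Agent.P237H.ScalarAux

/-!
# Certificates for a shifted right side

On a range `u₀ ≤ 1 - x` of volume radii the right side may be taken as
`(1 + σ) / 2 * (v + μ ((1 + v) ^ (-n) - 1)) + u₀ (1 - σ ^ 2) / 4`.
-/

namespace Vale.Agent.P237H.ScalarAux

open MeasureTheory Set Metric Vale.Agent.P237 Vale.Agent.P237R
open scoped RealInnerProductSpace NNReal

/-- Data of a shifted certificate. -/
structure SData where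
  n : ℕ
  η : ℚ
  T : ℚ
  β : ℚ
  M : ℚ
  σ : ℚ
  μ : ℚ
  u0 : ℚ
  h0 : ℚ
  vL : ℚ
  L : List (ℚ × ℚ × ℚ)

/-- The slope of the right side. -/
def SData.slope (G : SData) (t : ℚ) : ℚ :=
  (1 + G.σ) / 2 * (1 - G.μ * G.n * ((1 + t) ^ (G.n + 1))⁻¹)

/-- The value of the right side. -/
def SData.val (G : SData) (t : ℚ) : ℚ :=
  (1 + G.σ) / 2 * (t + G.μ * (((1 + t) ^ G.n)⁻¹ - 1)) + G.u0 * (1 - G.σ ^ 2) / 4

/-- The excess over the tangent line at `t`. -/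
def SData.excess (G : SData) (t v g H K x : ℚ) : ℚ :=
  (1 + G.η) * G.T / 2 * H ^ 2 + (1 + G.η⁻¹) * G.β / 2 *
      (((G.n : ℚ) - 1) * (1 + x) * K + g * max 0 (G.M ^ 2 - (1 + v) ^ 2))
    - (G.val t + G.slope t * (x - t))

/-- One segment. -/
def SData.segOK (G : SData) (v H K c a k : ℚ) : Bool :=
  decide (v < c) && decide (0 ≤ k) &&
    decide (G.excess ((v + c) / 2) v (max 0 ((1 - a) ^ 2 - k)) H K v ≤ 0) &&
    decide (G.excess ((v + c) / 2) v (max 0 ((1 - a) ^ 2 - k)) (H + a * (c - v))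
      (K + k * (c - v)) c ≤ 0)

/-- All segments; the last one ends beyond `M - 1`. -/
def SData.check (G : SData) : ℚ → ℚ → ℚ → List (ℚ × ℚ × ℚ) → Bool
  | v, _, _, [] => decide (G.M - 1 ≤ v)
  | v, H, K, (c, a, k) :: l =>
    G.segOK v H K c a k && G.check c (H + a * (c - v)) (K + k * (c - v)) l

/-- The whole certificate. -/
def SData.ok (G : SData) : Bool :=
  decide (1 ≤ G.n) && decide (0 < G.η) && decide (0 ≤ G.T) && decide (0 ≤ G.β) &&
    decide (0 ≤ G.σ) && decide (G.σ ≤ 1) && decide (0 ≤ G.μ) && decide (0 ≤ G.u0) &&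
    decide (-1 < G.vL) && decide (G.vL ≤ 0) && decide (G.slope G.vL ≤ 0) &&
    decide ((1 + G.η) * G.T / 2 * (1 + |G.h0|) ^ 2 ≤ G.val G.vL) &&
    G.check G.vL (G.vL - G.h0) 0 G.L

/-- The right side. -/
noncomputable def SData.rhs (G : SData) (v : ℝ) : ℝ :=
  (1 + (G.σ : ℝ)) / 2 * (v + (G.μ : ℝ) * (((1 + v) ^ G.n)⁻¹ - 1))
    + (G.u0 : ℝ) * (1 - (G.σ : ℝ) ^ 2) / 4

lemma rhs_tangent (G : SData) (hσ : 0 ≤ G.σ) (hμ : 0 ≤ G.μ) {t : ℚ} (ht : -1 < t) {v : ℝ}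
    (hv : -1 < v) : (G.val t : ℝ) + (G.slope t : ℝ) * (v - t) ≤ G.rhs v := by
  have ht' : (-1 : ℝ) < t := by exact_mod_cast ht
  have ha : 0 < 1 + (t : ℝ) := by linarith
  have hu : 0 < 1 + v := by linarith
  have h := tangent_pow G.n (div_pos hu ha)
  rw [div_pow, ← le_div_iff₀ (by positivity), one_div_div] at h
  have h2 := mul_le_mul_of_nonneg_right h (inv_nonneg.2 (pow_pos ha G.n).le)
  have e : (1 + (t : ℝ)) ^ G.n / (1 + v) ^ G.n * ((1 + (t : ℝ)) ^ G.n)⁻¹ = ((1 + v) ^ G.n)⁻¹ := by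
    field_simp
  rw [e] at h2
  have hσ' : (0 : ℝ) ≤ (1 + (G.σ : ℝ)) / 2 := by
    have : (0 : ℝ) ≤ (G.σ : ℝ) := by exact_mod_cast hσ
    positivity
  have hμ' : (0 : ℝ) ≤ (G.μ : ℝ) := by exact_mod_cast hμ
  have h3 := mul_le_mul_of_nonneg_left (mul_le_mul_of_nonneg_left h2 hμ') hσ'
  simp only [SData.val, SData.slope, SData.rhs]
  push_cast
  refine le_trans (le_of_eq ?_) (show (1 + (G.σ : ℝ)) / 2 * v
      + (1 + (G.σ : ℝ)) / 2 * ((G.μ : ℝ) * (((G.n : ℝ) + 1 - G.n * ((1 + v) / (1 + t)))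
          * ((1 + (t : ℝ)) ^ G.n)⁻¹))
      - (1 + (G.σ : ℝ)) / 2 * G.μ + (G.u0 : ℝ) * (1 - (G.σ : ℝ) ^ 2) / 4 ≤ _ by linarith)
  rw [pow_succ]
  field_simp
  ring

lemma SData.incr_of_check (G : SData) : ∀ (L : List (ℚ × ℚ × ℚ)) (v H K : ℚ),
    G.check v H K L = true → incr v (La L) ∧ incr v (Lk L)
  | [], _, _, _, _ => ⟨trivial, trivial⟩
  | (c, a, k) :: l, v, H, K, h => by
    simp only [SData.check, SData.segOK, Bool.and_eq_true, decide_eq_true_eq] at h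
    obtain ⟨⟨⟨⟨hvc, -⟩, -⟩, -⟩, hl⟩ := h
    obtain ⟨h1, h2⟩ := SData.incr_of_check G l _ _ _ hl
    exact ⟨⟨hvc.le, h1⟩, ⟨hvc.le, h2⟩⟩

/-- The scalar inequality of `G` at one point. -/
def SData.Ineq (G : SData) (x h K a k : ℝ) : Prop :=
  (1 + (G.η : ℝ)) * G.T / 2 * h ^ 2 + (1 + (G.η : ℝ)⁻¹) * G.β / 2 *
    (((G.n : ℝ) - 1) * (1 + x) * K + max 0 ((1 - a) ^ 2 - k) * ((G.M : ℝ) ^ 2 - (1 + x) ^ 2))
    ≤ G.rhs x

lemma SData.check_sound (G : SData) (hn : 1 ≤ G.n) (hη : 0 < G.η) (hT : 0 ≤ G.T) (hβ : 0 ≤ G.β)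
    (hσ : 0 ≤ G.σ) (hμ : 0 ≤ G.μ) : ∀ (L : List (ℚ × ℚ × ℚ)) (v H K : ℚ) (p q : ℚ),
    G.check v H K L = true → -1 < v → 0 ≤ K → ∀ x : ℝ, (v : ℝ) < x →
      0 ≤ (K : ℝ) + q * (x - v) + pl v q (Lk L) x ∧
      (x ≤ (G.M : ℝ) - 1 →
        G.Ineq x (H + p * (x - v) + pl v p (La L) x) (K + q * (x - v) + pl v q (Lk L) x)
          (p + ps v p (La L) x) (q + ps v q (Lk L) x))
  | [], v, H, K, p, q, h, hv, hK, x, hx => by
    have hxv : max 0 (x - (v : ℝ)) = x - v := max_eq_right (by linarith)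
    simp only [La, Lk, List.map_nil, pl, ps, hxv]
    rw [Set.indicator_of_mem (by exact hx), Pi.one_apply]
    ring_nf
    have hK' : (0 : ℝ) ≤ K := by exact_mod_cast hK
    refine ⟨hK', fun hmu => ?_⟩
    simp only [SData.check, decide_eq_true_eq] at h
    have h' := (Rat.cast_le (K := ℝ)).2 h
    push_cast at h'
    exfalso
    linarith
  | (c, a, k) :: l, v, H, K, p, q, h, hv, hK, x, hx => by
    obtain ⟨hia, hik⟩ := G.incr_of_check _ _ _ _ h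
    simp only [SData.check, SData.segOK, Bool.and_eq_true, decide_eq_true_eq] at h
    obtain ⟨⟨⟨⟨hvc, hk⟩, he1⟩, he2⟩, hl⟩ := h
    simp only [SData.excess] at he1 he2
    have hxv : max 0 (x - (v : ℝ)) = x - v := max_eq_right (by linarith)
    have hind : Set.indicator (Ioi (v : ℝ)) (1 : ℝ → ℝ) x = 1 :=
      Set.indicator_of_mem (show x ∈ Ioi (v : ℝ) from hx) _
    simp only [La, Lk, List.map_cons, pl, ps, hxv, hind, mul_one]
    have hk' : (0 : ℝ) ≤ k := by exact_mod_cast hk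
    have hK' : (0 : ℝ) ≤ K := by exact_mod_cast hK
    rcases le_or_gt x (c : ℝ) with hxc | hxc
    · obtain ⟨za, za'⟩ := pl_zero c a (La l) x hia.2 hxc
      obtain ⟨zk, zk'⟩ := pl_zero c k (Lk l) x hik.2 hxc
      simp only [La, Lk] at za za' zk zk'
      rw [za, za', zk, zk']
      have e1 : (K : ℝ) + q * (x - v) + (((k : ℝ) - q) * (x - v) + 0) = K + k * (x - v) := by ring
      have e2 : (H : ℝ) + p * (x - v) + (((a : ℝ) - p) * (x - v) + 0) = H + a * (x - v) := by ring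
      rw [e1, e2]
      refine ⟨add_nonneg hK' (mul_nonneg hk' (by linarith)), fun _ => ?_⟩
      rw [show (p : ℝ) + (((a : ℝ) - p) + 0) = a by ring,
        show (q : ℝ) + (((k : ℝ) - q) + 0) = k by ring]
      have he1' := (Rat.cast_le (K := ℝ)).2 he1
      have he2' := (Rat.cast_le (K := ℝ)).2 he2
      push_cast at he1' he2'
      have hv' : (-1 : ℝ) < v := by exact_mod_cast hv
      have hvc' : (v : ℝ) < c := by exact_mod_cast hvc
      have ht := rhs_tangent G hσ hμ (t := (v + c) / 2) (by linarith) (v := x) (by linarith)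
      push_cast at ht
      have hη' : (0 : ℝ) < G.η := by exact_mod_cast hη
      have hβ' : (0 : ℝ) ≤ G.β := by exact_mod_cast hβ
      have hT' : (0 : ℝ) ≤ G.T := by exact_mod_cast hT
      have hn1 : (0 : ℝ) ≤ (G.n : ℝ) - 1 := by
        have : (1 : ℝ) ≤ G.n := by exact_mod_cast hn
        linarith
      have hL' : 0 ≤ (1 + (G.η : ℝ)⁻¹) * G.β / 2 := by positivity
      have hsq : (1 + (v : ℝ)) ^ 2 ≤ (1 + x) ^ 2 := pow_le_pow_left₀ (by linarith) (by linarith) 2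
      have hb : (G.M : ℝ) ^ 2 - (1 + x) ^ 2 ≤ max 0 ((G.M : ℝ) ^ 2 - (1 + (v : ℝ)) ^ 2) :=
        le_trans (by linarith) (le_max_right _ _)
      have hb' := mul_le_mul_of_nonneg_left
        (mul_le_mul_of_nonneg_left hb (le_max_left 0 ((1 - (a : ℝ)) ^ 2 - k))) hL'
      obtain ⟨cst, hcst⟩ : ∃ y : ℝ, y = (1 + (G.η : ℝ)⁻¹) * G.β / 2 *
        (max 0 ((1 - (a : ℝ)) ^ 2 - k) * max 0 ((G.M : ℝ) ^ 2 - (1 + (v : ℝ)) ^ 2)) := ⟨_, rfl⟩
      have hq := chord (α := (1 + (G.η : ℝ)) * G.T / 2)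
        (β := (1 + (G.η : ℝ)⁻¹) * G.β / 2 * ((G.n : ℝ) - 1)) (a := (a : ℝ)) (H := (H : ℝ))
        (K := (K : ℝ)) (by positivity) (mul_nonneg hL' hn1) hk' hx.le hxc
        (c0 := cst - (G.val ((v + c) / 2) : ℝ) + (G.slope ((v + c) / 2) : ℝ) * (((v : ℝ) + c) / 2))
        (c1 := (G.slope ((v + c) / 2) : ℝ)) (by linarith [he1', hcst]) (by linarith [he2', hcst])
      unfold SData.Ineq
      linarith
    · have hK2 : 0 ≤ K + k * (c - v) := add_nonneg hK (mul_nonneg hk (by linarith))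
      have ih := SData.check_sound G hn hη hT hβ hσ hμ l c (H + a * (c - v)) (K + k * (c - v)) a k
        hl (by linarith) hK2 x hxc
      simp only [La, Lk] at ih
      push_cast at ih
      refine ⟨le_of_le_of_eq ih.1 (by ring), fun hmu => ?_⟩
      convert ih.2 hmu using 1 <;> ring

lemma SData.ineq_sound (G : SData) (h : G.ok = true) :
    (∀ x : ℝ, 0 ≤ pl G.vL 0 (Lk G.L) x) ∧ ∀ x : ℝ, -1 < x → x ≤ (G.M : ℝ) - 1 →
      G.Ineq x (x + (pl G.vL 1 (La G.L) x - G.h0)) (pl G.vL 0 (Lk G.L) x)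
        (1 + ps G.vL 1 (La G.L) x) (ps G.vL 0 (Lk G.L) x) := by
  simp only [SData.ok, Bool.and_eq_true, decide_eq_true_eq] at h
  obtain ⟨⟨⟨⟨⟨⟨⟨⟨⟨⟨⟨⟨hn, hη⟩, hT⟩, hβ⟩, hσ⟩, -⟩, hμ⟩, -⟩, hvL⟩, hvL0⟩, hsl⟩, hA⟩, hc⟩ := h
  obtain ⟨ia, ik⟩ := G.incr_of_check _ _ _ _ hc
  have hs := G.check_sound hn hη hT hβ hσ hμ G.L G.vL (G.vL - G.h0) 0 1 0 hc hvL le_rfl
  refine ⟨fun x => ?_, fun x hx hmu => ?_⟩
  · rcases le_or_gt x (G.vL : ℝ) with hle | hlt
    · rw [(pl_zero _ 0 _ x ik hle).1]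
    · simpa using (hs x hlt).1
  · rcases le_or_gt x (G.vL : ℝ) with hle | hlt
    · rw [(pl_zero _ 1 _ x ia hle).1, (pl_zero _ 0 _ x ik hle).1, (pl_zero _ 1 _ x ia hle).2,
        (pl_zero _ 0 _ x ik hle).2]
      have hA' := (Rat.cast_le (K := ℝ)).2 hA
      have hsl' := (Rat.cast_le (K := ℝ)).2 hsl
      push_cast at hA' hsl'
      have ht := rhs_tangent G hσ hμ hvL hx
      have hd := mul_nonneg_of_nonpos_of_nonpos hsl' (sub_nonpos.2 hle)
      have hvL0' : (G.vL : ℝ) ≤ 0 := by exact_mod_cast hvL0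
      have habs : |x - (G.h0 : ℝ)| ≤ 1 + |(G.h0 : ℝ)| :=
        (abs_sub _ _).trans (by rw [abs_of_nonpos (show x ≤ 0 by linarith)]; linarith)
      have hsq := pow_le_pow_left₀ (abs_nonneg _) habs 2
      rw [sq_abs] at hsq
      have hc1 : (0 : ℝ) ≤ (1 + (G.η : ℝ)) * G.T / 2 := by
        have : (0 : ℝ) < G.η := by exact_mod_cast hη
        have : (0 : ℝ) ≤ G.T := by exact_mod_cast hT
        positivity
      have h5 := mul_le_mul_of_nonneg_left hsq hc1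
      unfold SData.Ineq
      norm_num
      rw [sub_eq_add_neg] at h5
      linarith
    · have := (hs x hlt).2 hmu
      push_cast at this
      norm_num at this
      convert this using 1
      ring

/-- A split of the gauge from checked data. -/
theorem SData.exists_pre (G : SData) (h : G.ok = true) (ht : ∀ m, tauJ G.n m ≤ G.T)
    (hl : ∀ m, tauJ G.n m ≤ (G.β : ℝ) * lamJ G.n m) :
    ∃ cert : PreCert G.n, ∀ v, -1 < v → v ≤ (G.M : ℝ) - 1 →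
      (1 + cert.η) * cert.T / 2 * cert.H v ^ 2 + (1 + cert.η⁻¹) * cert.β / 2 *
        (((G.n : ℝ) - 1) * (1 + v) * cert.K v
          + max 0 ((1 - cert.a v) ^ 2 - cert.k v) * ((G.M : ℝ) ^ 2 - (1 + v) ^ 2)) ≤ G.rhs v := by
  obtain ⟨hKpos, hineq⟩ := G.ineq_sound h
  simp only [SData.ok, Bool.and_eq_true, decide_eq_true_eq] at h
  obtain ⟨⟨⟨⟨⟨⟨⟨⟨⟨⟨⟨⟨hn, hη⟩, hT⟩, hβ⟩, -⟩, -⟩, -⟩, -⟩, -⟩, -⟩, -⟩, -⟩, -⟩ := h
  refine ⟨{
    η := G.η
    T := G.T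
    β := G.β
    S := knots G.vL (La G.L) ∪ knots G.vL (Lk G.L)
    H := fun x => x + (pl G.vL 1 (La G.L) x - G.h0)
    a := fun x => 1 + ps G.vL 1 (La G.L) x
    K := pl G.vL 0 (Lk G.L)
    k := ps G.vL 0 (Lk G.L)
    η_pos := by exact_mod_cast hη
    T_nonneg := by exact_mod_cast hT
    β_nonneg := by exact_mod_cast hβ
    tau_le := ht
    tau_le_lam := hl
    H_lip := ?_
    K_lip := lipschitz_pl _ _ _
    a_meas := (measurable_ps _ _ _).const_add 1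
    k_meas := measurable_ps _ _ _
    a_bdd := ?_
    k_bdd := bdd_ps _ _ _
    H_deriv := fun v hv => (hasDerivAt_id' v).add ((deriv_pl _ _ _ v fun hm =>
      hv (Finset.mem_union_left _ hm)).sub_const _)
    K_deriv := fun v hv => deriv_pl _ _ _ v fun hm => hv (Finset.mem_union_right _ hm)
    K_nonneg := hKpos }, fun v hv1 hv2 => hineq v hv1 hv2⟩
  · obtain ⟨C, hC'⟩ := lipschitz_pl G.vL 1 (La G.L)
    exact ⟨_, LipschitzWith.id.add (hC'.sub (LipschitzWith.const (G.h0 : ℝ)))⟩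
  · obtain ⟨C, hC'⟩ := bdd_ps G.vL 1 (La G.L)
    exact ⟨1 + C, fun v => (abs_add_le _ _).trans (by rw [abs_one]; linarith [hC' v])⟩

/-- The scalar core on the range `u₀ ≤ 1 - x`. -/
theorem SData.core (G : SData) (h : G.ok = true) (hn4 : 4 ≤ G.n) (ht : ∀ m, tauJ G.n m ≤ G.T)
    (hl : ∀ m, tauJ G.n m ≤ (G.β : ℝ) * lamJ G.n m) (B : HBasis G.n) {N : ℕ}
    (b : Idx B N → E G.n) {q : E G.n → ℝ} {C : ℝ≥0} (hq : LipschitzWith C q)
    (hCM : (C : ℝ) = (G.M : ℝ)) (hqc : ConvexOn ℝ univ q)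
    (hqh : ∀ (r : ℝ) (x : E G.n), 0 ≤ r → q (r • x) = r * q x)
    (hq0 : ∀ θ : E G.n, ‖θ‖ = 1 → 0 < q θ) (hqM : ∀ θ : E G.n, ‖θ‖ = 1 → q θ ≤ (G.M : ℝ))
    (hnorm : ∫ θ, (q θ ^ G.n)⁻¹ ∂sphM G.n = 1) {x : ℝ} (hu0 : (G.u0 : ℝ) ≤ 1 - x)
    (hQ : qNorm B b / 2 < 1 - x)
    (hx : ∀ θ : E G.n, ‖θ‖ = 1 → q (θ + fieldOf B b θ) ≤ x) : 1 - qNorm B b / 2 ≤ x := by
  exfalso
  obtain ⟨cert, hineq⟩ := G.exists_pre h ht hl
  simp only [SData.ok, Bool.and_eq_true, decide_eq_true_eq] at h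
  obtain ⟨⟨⟨⟨⟨⟨⟨⟨⟨⟨⟨⟨hn, -⟩, -⟩, -⟩, hσ⟩, hσ1⟩, -⟩, hu⟩, -⟩, -⟩, -⟩, -⟩, -⟩ := h
  have hn2 : 2 ≤ G.n := by omega
  have hP : IsProbabilityMeasure (sphM G.n) := isProb_sphM hn2
  have hIq : Integrable q (sphM G.n) := integrable_sphM hn2 hq.continuous
  have hIinv : Integrable (fun θ => (q θ ^ G.n)⁻¹) (sphM G.n) := by
    by_contra hni
    rw [integral_undef hni] at hnorm
    exact zero_ne_one hnorm
  have hIΨ : Integrable (fun θ => G.rhs (q θ - 1)) (sphM G.n) := by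
    simp only [SData.rhs, add_sub_cancel]
    exact (((hIq.sub (integrable_const 1)).add
      ((hIinv.sub (integrable_const 1)).const_mul _)).const_mul _).add (integrable_const _)
  have hΨ : ∫ θ, G.rhs (q θ - 1) ∂sphM G.n = (1 + (G.σ : ℝ)) / 2 * (∫ θ, q θ ∂sphM G.n - 1)
      + (G.u0 : ℝ) * (1 - (G.σ : ℝ) ^ 2) / 4 := by
    simp only [SData.rhs, add_sub_cancel]
    rw [integral_add
        (f := fun θ => (1 + (G.σ : ℝ)) / 2 * (q θ - 1 + (G.μ : ℝ) * ((q θ ^ G.n)⁻¹ - 1)))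
        (g := fun _ => (G.u0 : ℝ) * (1 - (G.σ : ℝ) ^ 2) / 4)
        ((((hIq.sub (integrable_const 1)).add
          ((hIinv.sub (integrable_const 1)).const_mul _))).const_mul _) (integrable_const _),
      integral_const_mul, integral_add (f := fun θ => q θ - 1)
        (g := fun θ => (G.μ : ℝ) * ((q θ ^ G.n)⁻¹ - 1))
        (hIq.sub (integrable_const 1)) ((hIinv.sub (integrable_const 1)).const_mul _),
      integral_const_mul, integral_sub hIinv (integrable_const 1),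
      integral_sub hIq (integrable_const 1), hnorm]
    simp
  have hE : 0 ≤ ∫ θ, q θ ∂sphM G.n - 1 := by
    have hφ : ∫ θ, phiN G.n (q θ - 1) ∂sphM G.n = ∫ θ, q θ ∂sphM G.n - 1 := by
      simp only [phiN, add_sub_cancel]
      rw [integral_add (f := fun θ => q θ - 1) (g := fun θ => ((q θ ^ G.n)⁻¹ - 1) / (G.n : ℝ))
          (hIq.sub (integrable_const 1)) ((hIinv.sub (integrable_const 1)).div_const _),
        integral_div, integral_sub hIinv (integrable_const 1),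
        integral_sub hIq (integrable_const 1), hnorm]
      simp
    rw [← hφ]
    refine integral_nonneg_of_ae ?_
    filter_upwards [sphM_ae_norm hn2] with θ hθ
    have := phiN_tangent hn (t := 0) (v := q θ - 1) (by norm_num) (by linarith [hq0 θ hθ])
    simpa using this
  obtain ⟨h0, P, hP1, hP2⟩ := claim_pair hn4 cert B b hq hCM hqc hqh hq0 hqM hx _ hIΨ hineq
  rw [hΨ] at h0 hP2
  have hQ0 := qNorm_nonneg hn4 B b
  have hu' : (0 : ℝ) ≤ G.u0 := by exact_mod_cast hu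
  have hσ' : (0 : ℝ) ≤ G.σ := by exact_mod_cast hσ
  have hσ1' : (G.σ : ℝ) ≤ 1 := by exact_mod_cast hσ1
  obtain ⟨e, he⟩ : ∃ e, e = ∫ θ, q θ ∂sphM G.n - 1 := ⟨_, rfl⟩
  rw [← he] at h0 hP2 hE
  obtain ⟨u, hu_def⟩ : ∃ u, u = 1 - x := ⟨_, rfl⟩
  rw [← hu_def] at hu0 hQ
  obtain ⟨X, hXdef⟩ : ∃ X, X = (1 + (G.σ : ℝ)) / 2 * e + (G.u0 : ℝ) * (1 - (G.σ : ℝ) ^ 2) / 4 :=
    ⟨_, rfl⟩
  rw [← hXdef] at h0 hP2
  have hu1 : 0 < u := by linarith
  have hneg : u + e ≤ -P := by linarith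
  have hsq := pow_le_pow_left₀ (by linarith) hneg 2
  have hlow : 4 * u * X ≤ (u + e) ^ 2 := by
    have h1 : (G.u0 : ℝ) * (1 - (G.σ : ℝ) ^ 2) ≤ u * (1 - (G.σ : ℝ) ^ 2) :=
      mul_le_mul_of_nonneg_right hu0 (by nlinarith)
    rw [hXdef]
    nlinarith [sq_nonneg (e - (G.σ : ℝ) * u), mul_le_mul_of_nonneg_left h1 hu1.le]
  rcases eq_or_lt_of_le h0 with hX | hX
  · rw [← hX] at hP2
    nlinarith
  · have := mul_lt_mul_of_pos_right (show qNorm B b < 2 * u by linarith)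
      (show 0 < 2 * X by linarith)
    nlinarith

end Vale.Agent.P237H.ScalarAux
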