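import Vale.Agent.P237H.SphereAux

/-!
# The sphere measure: integration by parts and volumes
-/

namespace Vale.Agent.P237H

open MeasureTheory Set Metric Vale.Agent.P237 Vale.Agent.P237R
open scoped RealInnerProductSpace NNReal

variable {n : ℕ}

open Vale.Agent.P226 (Jn Jn_pos Jn_succ_succ Jn_one)

lemma isProb_sphM (hn : 2 ≤ n) : IsProbabilityMeasure (sphM n) := by
  have := nontrivial_E (n := n) (by omega)
  refine ⟨?_⟩
  rw [sphM, Measure.smul_apply, smul_eq_mul, Measure.map_apply measurable_subtype_coe .univ,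
    preimage_univ, ENNReal.inv_mul_cancel]
  · simp only [ne_eq, Measure.measure_univ_eq_zero]
    exact Measure.toSphere_ne_zero _
  · exact measure_ne_top _ _

lemma sphM_ae_norm (hn : 2 ≤ n) : ∀ᵐ x ∂sphM n, ‖x‖ = 1 := by
  have := hn
  exact ae_sphM_of_ae_sphere (Filter.Eventually.of_forall fun θ => by simp)

lemma integrable_sphM (hn : 2 ≤ n) {f : E n → ℝ} (hf : Continuous f) : Integrable f (sphM n) := by
  have := nontrivial_E (n := n) (by omega)
  refine Integrable.smul_measure ?_ (ENNReal.inv_ne_top.2 ?_)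
  · rw [(MeasurableEmbedding.subtype_coe isClosed_sphere.measurableSet).integrable_map_iff]
    exact (hf.comp continuous_subtype_val).integrable_of_hasCompactSupport
      (HasCompactSupport.of_compactSpace _)
  · simp only [ne_eq, Measure.measure_univ_eq_zero]
    exact Measure.toSphere_ne_zero _

lemma sphM_eq_zero (hn : 2 ≤ n) {f : E n → ℝ} (hf : Continuous f) (h0 : ∀ x, 0 ≤ f x)
    (hi : ∫ x, f x ∂sphM n = 0) {x : E n} (hx : ‖x‖ = 1) : f x = 0 := by
  have := nontrivial_E (n := n) (by omega)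
  have hk := kap_pos n
  have hn0 : (0 : ℝ) < n := by exact_mod_cast (show 0 < n by omega)
  rw [integral_sphM, mul_eq_zero] at hi
  have hi' := hi.resolve_left (inv_ne_zero (by positivity))
  have hc : Continuous fun θ : sphere (0 : E n) 1 => f θ.1 := hf.comp continuous_subtype_val
  rw [integral_eq_zero_iff_of_nonneg (fun θ => h0 _)
    (hc.integrable_of_hasCompactSupport (HasCompactSupport.of_compactSpace _))] at hi'
  exact congrFun ((Continuous.ae_eq_iff_eq _ hc continuous_const).1 hi') ⟨x, by simpa using hx⟩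

lemma lipschitz_rproj : LipschitzWith 4 (rproj : E n → E n) := by
  refine LipschitzWith.of_dist_le_mul fun x y => ?_
  rw [dist_eq_norm, dist_eq_norm]
  set a := max (1 / 2 : ℝ) ‖x‖
  set b := max (1 / 2 : ℝ) ‖y‖
  have ha : 1 / 2 ≤ a := le_max_left _ _
  have hb : 1 / 2 ≤ b := le_max_left _ _
  have hab : |b - a| ≤ ‖x - y‖ := by
    have := abs_max_sub_max_le_abs ‖y‖ ‖x‖ (1 / 2)
    rw [max_comm ‖y‖, max_comm ‖x‖] at this
    exact this.trans ((abs_norm_sub_norm_le y x).trans_eq (norm_sub_rev y x))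
  have e : rproj x - rproj y = a⁻¹ • (x - y) + (a⁻¹ - b⁻¹) • y := by
    simp only [rproj, a, b, smul_sub, sub_smul]
    abel
  rw [e]
  refine (norm_add_le _ _).trans ?_
  rw [norm_smul, norm_smul, Real.norm_eq_abs, Real.norm_eq_abs, abs_inv,
    abs_of_pos (by linarith : 0 < a)]
  have h1 : a⁻¹ ≤ 2 := (inv_le_comm₀ (by linarith) two_pos).2 (by linarith)
  have h2 : |a⁻¹ - b⁻¹| * ‖y‖ ≤ a⁻¹ * |b - a| := by
    have h3 : a⁻¹ - b⁻¹ = a⁻¹ * b⁻¹ * (b - a) := by field_simp
    have h4 : b⁻¹ * ‖y‖ ≤ 1 := by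
      rw [inv_mul_le_iff₀ (by linarith), mul_one]; exact le_max_right _ _
    rw [h3, abs_mul, abs_of_pos (by positivity : 0 < a⁻¹ * b⁻¹)]
    calc a⁻¹ * b⁻¹ * |b - a| * ‖y‖ = a⁻¹ * |b - a| * (b⁻¹ * ‖y‖) := by ring
      _ ≤ a⁻¹ * |b - a| * 1 := mul_le_mul_of_nonneg_left h4 (by positivity)
      _ = _ := mul_one _
  have h5 : a⁻¹ * |b - a| ≤ 2 * ‖x - y‖ := mul_le_mul h1 hab (abs_nonneg _) (by norm_num)
  have h6 : a⁻¹ * ‖x - y‖ ≤ 2 * ‖x - y‖ := mul_le_mul_of_nonneg_right h1 (norm_nonneg _)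
  push_cast
  linarith

lemma rproj_smul {r : ℝ} (hr : 1 / 2 ≤ r) {θ : E n} (hθ : ‖θ‖ = 1) : rproj (r • θ) = θ := by
  have hr0 : 0 < r := by linarith
  rw [rproj, norm_smul, hθ, mul_one, Real.norm_eq_abs, abs_of_pos hr0, max_eq_right hr, smul_smul,
    inv_mul_cancel₀ hr0.ne', one_smul]

lemma bv_eq_basisFun (i : Fin n) : bv i = EuclideanSpace.basisFun (Fin n) ℝ i := by
  simp [bv]

lemma sum_bv (x : E n) : ∑ i, ⟪bv i, x⟫ • bv i = x := by
  simp only [bv_eq_basisFun]
  exact (EuclideanSpace.basisFun (Fin n) ℝ).sum_repr' x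

lemma clm_sum_bv (L : E n →L[ℝ] ℝ) (v : E n) : ∑ i, L (bv i) * ⟪bv i, v⟫ = L v := by
  conv_rhs => rw [← sum_bv v]
  simp [map_sum, mul_comm]

/-- Derivatives of a function homogeneous near the sphere. -/
lemma fderiv_homog {f : E n → ℝ} {b : ℕ}
    (hfh : ∀ (r : ℝ) (θ : E n), 1 / 2 ≤ r → ‖θ‖ = 1 → f (r • θ) = r ^ b * f θ)
    {r : ℝ} (hr : 1 ≤ r) {θ : E n} (hθ : ‖θ‖ = 1) :
    (∀ v, r * fderiv ℝ f (r • θ) v = r ^ b * fderiv ℝ f θ v) ∧
      (DifferentiableAt ℝ f (r • θ) → DifferentiableAt ℝ f θ) := by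
  have hr0 : r ≠ 0 := by linarith
  set iso : E n ≃L[ℝ] E n := ContinuousLinearEquiv.smulLeft (Units.mk0 r hr0)
  have hiso : ∀ y, iso y = r • y := fun y => rfl
  have hev : (f ∘ iso) =ᶠ[nhds θ] fun y => r ^ b * f y := by
    have ho : IsOpen {y : E n | 1 / 2 < ‖y‖} := isOpen_lt continuous_const continuous_norm
    filter_upwards [ho.mem_nhds (show 1 / 2 < ‖θ‖ by rw [hθ]; norm_num)] with y hy
    have hy' : (1 : ℝ) / 2 < ‖y‖ := hy
    have hy0 : y ≠ 0 := norm_pos_iff.1 (by linarith)
    have hη : ‖‖y‖⁻¹ • y‖ = 1 := by simp [norm_smul, hy0]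
    have e : y = ‖y‖ • (‖y‖⁻¹ • y) := by simp [hy0]
    simp only [Function.comp_apply, hiso]
    conv_lhs => rw [e, smul_smul, hfh _ _ (by nlinarith) hη]
    conv_rhs => rw [e, hfh _ _ hy'.le hη]
    ring
  refine ⟨fun v => ?_, fun hd => ?_⟩
  · have h1 := congrArg (fun L : E n →L[ℝ] ℝ => L v) (hev.fderiv_eq (𝕜 := ℝ))
    rw [iso.comp_right_fderiv, show (fun y => r ^ b * f y) = (r ^ b) • f from rfl,
      fderiv_const_smul_field] at h1
    simp only [ContinuousLinearMap.coe_comp, Function.comp_apply, ContinuousLinearEquiv.coe_coe,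
      hiso, map_smul, smul_eq_mul] at h1
    exact h1
  · rw [← hiso, ← iso.comp_right_differentiableAt_iff] at hd
    have h1 : DifferentiableAt ℝ (fun y => r ^ b * f y) θ := hev.differentiableAt_iff.1 hd
    have h2 := h1.const_mul (r ^ b)⁻¹
    simpa [← mul_assoc, inv_mul_cancel₀ (pow_ne_zero b hr0)] using h2

lemma unit_decomp {x : E n} (hx : x ≠ 0) :
    ‖‖x‖⁻¹ • x‖ = 1 ∧ ‖x‖ • (‖x‖⁻¹ • x) = x := by
  simp [norm_smul, hx]

/-- Almost every point of the sphere is a point of differentiability; Euler's relation. -/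
theorem sph_ae_diff (hn : 2 ≤ n) {f : E n → ℝ} {b : ℕ} {C : ℝ≥0} (hf : LipschitzWith C f)
    (hfh : ∀ (r : ℝ) (θ : E n), 1 / 2 ≤ r → ‖θ‖ = 1 → f (r • θ) = r ^ b * f θ) :
    ∀ᵐ θ ∂sphM n, DifferentiableAt ℝ f θ ∧ fderiv ℝ f θ θ = (b : ℝ) * f θ := by
  have h1 : ∀ᵐ θ ∂sphM n, DifferentiableAt ℝ f θ := by
    refine ae_sphM_of_shell (by omega) ?_
    filter_upwards [hf.ae_differentiableAt (μ := volume)] with x hx h1 _
    obtain ⟨hu, he⟩ := unit_decomp (norm_pos_iff.1 (by linarith : 0 < ‖x‖))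
    exact (fderiv_homog hfh h1.le hu).2 (by rwa [he])
  filter_upwards [h1, sphM_ae_norm hn] with θ hd hθ
  refine ⟨hd, ?_⟩
  have h2 : HasDerivAt (fun r : ℝ => f (r • θ)) (fderiv ℝ f θ θ) 1 := by
    have h3 : HasFDerivAt f (fderiv ℝ f θ) ((1 : ℝ) • θ) := by rw [one_smul]; exact hd.hasFDerivAt
    exact (h3.comp_hasDerivAt (1 : ℝ) ((hasDerivAt_id (1 : ℝ)).smul_const θ)).congr_deriv (by simp)
  have h4 : HasDerivAt (fun r : ℝ => f (r • θ)) ((b : ℝ) * f θ) 1 := by
    have h5 := (hasDerivAt_pow b (1 : ℝ)).mul_const (f θ)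
    rw [one_pow, mul_one] at h5
    refine h5.congr_of_eventuallyEq ?_
    filter_upwards [Ioi_mem_nhds (show (1 / 2 : ℝ) < 1 by norm_num)] with r hr
    exact hfh r θ (le_of_lt hr) hθ
  exact h2.unique h4

/-- On a level set of a function of degree zero the gradient vanishes almost everywhere. -/
theorem sph_level (hn : 2 ≤ n) {f : E n → ℝ} {C : ℝ≥0} (hf : LipschitzWith C f)
    (hfh : ∀ (r : ℝ) (θ : E n), 1 / 2 ≤ r → ‖θ‖ = 1 → f (r • θ) = f θ) (t : ℝ) :
    ∀ᵐ θ ∂sphM n, f θ = t → fderiv ℝ f θ = 0 := by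
  have hg : LipschitzWith C fun x => max (f x - t) 0 :=
    (LipschitzWith.of_dist_le_mul fun x y => by
      rw [dist_eq_norm, sub_sub_sub_cancel_right, ← dist_eq_norm]; exact hf.dist_le_mul x y).max_const 0
  have hh : LipschitzWith C fun x => max (t - f x) 0 :=
    (LipschitzWith.of_dist_le_mul fun x y => by
      rw [dist_eq_norm, sub_sub_sub_cancel_left, ← dist_eq_norm, dist_comm (f y)]
      exact hf.dist_le_mul x y).max_const 0
  filter_upwards [sph_ae_diff hn (b := 0) hg (fun r θ hr hθ => by simp [hfh r θ hr hθ]),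
    sph_ae_diff hn (b := 0) hh (fun r θ hr hθ => by simp [hfh r θ hr hθ])] with θ h1 h2 ht
  have m1 : IsLocalMin (fun x => max (f x - t) 0) θ :=
    Filter.Eventually.of_forall fun x => by simp [ht]
  have m2 : IsLocalMin (fun x => max (t - f x) 0) θ :=
    Filter.Eventually.of_forall fun x => by simp [ht]
  have e : f = fun x => (max (f x - t) 0 - max (t - f x) 0) + t := by
    funext x
    rcases le_total (f x) t with h | h
    · rw [max_eq_right (by linarith), max_eq_left (by linarith)]; ring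
    · rw [max_eq_left (by linarith), max_eq_right (by linarith)]; ring
  rw [e, fderiv_add_const, fderiv_fun_sub h1.1 h2.1, m1.fderiv_eq_zero, m2.fderiv_eq_zero, sub_zero]

lemma integrable_bdd_ball {h : E n → ℝ} (hm : AEStronglyMeasurable h volume) {B R : ℝ}
    (hb : ∀ x, |h x| ≤ B) (h0 : ∀ x, R < ‖x‖ → h x = 0) : Integrable h := by
  have h1 : IntegrableOn h (closedBall 0 R) :=
    Measure.integrableOn_of_bounded measure_closedBall_lt_top.ne hm
      (Filter.Eventually.of_forall fun x => by rw [Real.norm_eq_abs]; exact hb x)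
  exact h1.integrable_of_forall_notMem_eq_zero fun x hx => h0 x (by simpa using hx)

lemma integrable_continuous_ball {h : E n → ℝ} (hc : Continuous h) {R : ℝ}
    (h0 : ∀ x, R < ‖x‖ → h x = 0) : Integrable h :=
  hc.integrable_of_hasCompactSupport (HasCompactSupport.intro (isCompact_closedBall 0 R)
    fun x hx => h0 x (by simpa using hx))

/-- Integration by parts on the sphere for functions homogeneous near it. -/
theorem sph_ibp (hn : 2 ≤ n) {f : E n → ℝ} {b a : ℕ} {C : ℝ≥0} (hf : LipschitzWith C f)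
    (hfh : ∀ (r : ℝ) (θ : E n), 1 / 2 ≤ r → ‖θ‖ = 1 → f (r • θ) = r ^ b * f θ)
    {Φ : E n → E n} (hΦ : ContDiff ℝ 1 Φ)
    (hΦh : ∀ (r : ℝ) (x : E n), 0 < r → Φ (r • x) = r ^ a • Φ x) :
    ∫ θ, fderiv ℝ f θ (Φ θ) ∂sphM n
      = ((n : ℝ) + a + b - 1) * ∫ θ, f θ * ⟪θ, Φ θ⟫ ∂sphM n
        - ∫ θ, f θ * divg Φ θ ∂sphM n := by
  obtain ⟨m, rfl⟩ : ∃ m, n = m + 2 := ⟨n - 2, by omega⟩
  have hΦd : ∀ x, DifferentiableAt ℝ Φ x := fun x => hΦ.differentiable one_ne_zero x
  have hbd : ∀ x, DifferentiableAt ℝ (bump (n := m + 2)) x := fun x =>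
    contDiff_bump.differentiable one_ne_zero x
  let g : Fin (m + 2) → E (m + 2) → ℝ := fun i x => ⟪bv i, Φ x⟫ * bump x
  have hg : ∀ i, ContDiff ℝ 1 (g i) := fun i => (contDiff_const.inner ℝ hΦ).mul contDiff_bump
  have hgc : ∀ i, HasCompactSupport (g i) := fun i => hasCompactSupport_bump.mul_left
  have hgz : ∀ i x, (2 : ℝ) < ‖x‖ → g i x = 0 := fun i x hx => by
    simp [g, (bump_zero (Or.inr hx.le)).1]
  have hgd : ∀ i x, fderiv ℝ (g i) x (bv i) = bump x * ⟪bv i, fderiv ℝ Φ x (bv i)⟫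
      + ⟪bv i, Φ x⟫ * (2 * wb' (‖x‖ ^ 2) * ⟪x, bv i⟫) := by
    intro i x
    have h1 : DifferentiableAt ℝ (fun y => ⟪bv i, Φ y⟫) x :=
      (differentiableAt_const _).inner ℝ (hΦd x)
    have h2 := fderiv_inner_apply ℝ (differentiableAt_const (bv i)) (hΦd x) (bv i)
    rw [show g i = fun y => ⟪bv i, Φ y⟫ * bump y from rfl, fderiv_fun_mul h1 (hbd x)]
    simp only [add_apply, smul_apply, smul_eq_mul, h2, fderiv_bump, fderiv_fun_const, Pi.zero_apply,
      zero_apply, inner_zero_left, add_zero]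
    ring
  -- integration by parts, coordinate by coordinate
  have hparts : ∀ i, ∫ x, lineDeriv ℝ f x (bv i) * g i x
      = -∫ x, f x * fderiv ℝ (g i) x (bv i) := by
    intro i
    obtain ⟨D, hD⟩ : ∃ D, LipschitzWith D (g i) :=
      (hg i).lipschitzWith_of_hasCompactSupport (hgc i) one_ne_zero
    rw [hf.integral_lineDeriv_mul_eq hD (hgc i), ← integral_neg]
    refine integral_congr_ae (Filter.Eventually.of_forall fun x => ?_)
    simp only [((hg i).differentiable one_ne_zero x).lineDeriv_eq_fderiv, map_neg]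
    ring
  have hiL : ∀ i, Integrable fun x => lineDeriv ℝ f x (bv i) * g i x := fun i =>
    ((hg i).continuous.integrable_of_hasCompactSupport (hgc i)).bdd_mul
      (c := C * ‖bv (n := m + 2) i‖) (measurable_lineDeriv hf.continuous).aestronglyMeasurable
      (Filter.Eventually.of_forall fun x => norm_lineDeriv_le_of_lipschitz ℝ hf)
  have hiR : ∀ i, Integrable fun x => f x * fderiv ℝ (g i) x (bv i) := fun i => by
    refine integrable_continuous_ball (R := 2)
      (hf.continuous.mul (((hg i).continuous_fderiv one_ne_zero).clm_apply continuous_const))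
      fun x hx => ?_
    rw [hgd, (bump_zero (Or.inr hx.le)).1, (bump_zero (Or.inr hx.le)).2]
    ring
  have hsum := Finset.sum_congr rfl fun i (_ : i ∈ (Finset.univ : Finset (Fin (m + 2)))) => hparts i
  rw [Finset.sum_neg_distrib, ← integral_finsetSum _ (fun i _ => hiL i),
    ← integral_finsetSum _ (fun i _ => hiR i)] at hsum
  have eL : ∫ x, ∑ i, lineDeriv ℝ f x (bv i) * g i x
      = ∫ x, fderiv ℝ f x (Φ x) * bump x := by
    refine integral_congr_ae ?_
    filter_upwards [hf.ae_differentiableAt (μ := volume)] with x hx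
    simp only [hx.lineDeriv_eq_fderiv, g, ← mul_assoc]
    rw [← Finset.sum_mul, clm_sum_bv]
  have eR : ∫ x, ∑ i, f x * fderiv ℝ (g i) x (bv i)
      = (∫ x, f x * divg Φ x * bump x) + ∫ x, f x * ⟪x, Φ x⟫ * (2 * wb' (‖x‖ ^ 2)) := by
    have c1 : Continuous fun x => divg Φ x := by
      unfold divg
      exact continuous_finsetSum _ fun i _ =>
        continuous_const.inner ((hΦ.continuous_fderiv one_ne_zero).clm_apply continuous_const)
    have j1 : Integrable fun x => f x * divg Φ x * bump x :=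
      integrable_continuous_ball (R := 2)
        ((hf.continuous.mul c1).mul contDiff_bump.continuous)
        fun x hx => by show f x * divg Φ x * bump x = 0; rw [(bump_zero (Or.inr hx.le)).1, mul_zero]
    have j2 : Integrable fun x => f x * ⟪x, Φ x⟫ * (2 * wb' (‖x‖ ^ 2)) :=
      integrable_continuous_ball (R := 2)
        ((hf.continuous.mul (continuous_id.inner hΦ.continuous)).mul
          (continuous_const.mul (continuous_wb'.comp (continuous_norm.pow 2))))
        fun x hx => by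
          show f x * ⟪x, Φ x⟫ * (2 * wb' (‖x‖ ^ 2)) = 0
          rw [(bump_zero (Or.inr hx.le)).2]; ring
    rw [← integral_add j1 j2]
    refine integral_congr_ae (Filter.Eventually.of_forall fun x => ?_)
    have e1 : ∑ i, ⟪bv i, Φ x⟫ * ⟪x, bv i⟫ = ⟪x, Φ x⟫ := by
      conv_rhs => rw [← sum_bv (Φ x)]
      simp [inner_sum, real_inner_smul_right]
    simp only [hgd, mul_add, Finset.sum_add_distrib, divg, ← e1, Finset.sum_mul, Finset.mul_sum]
    congr 1
    · exact Finset.sum_congr rfl fun i _ => by ring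
    · exact Finset.sum_congr rfl fun i _ => by ring
  rw [eL, eR] at hsum
  -- polar coordinates in the shell
  set k := m + (a + b) with hk
  have key : ∀ (x : E (m + 2)), x ≠ 0 →
      fderiv ℝ f x (Φ x) * bump x
        = ‖x‖ ^ (a + b) / ‖x‖ * wb (‖x‖ ^ 2)
          * fderiv ℝ f (‖x‖⁻¹ • x) (Φ (‖x‖⁻¹ • x)) ∧
      f x * divg Φ x * bump x
        = ‖x‖ ^ (a + b) / ‖x‖ * wb (‖x‖ ^ 2) * (f (‖x‖⁻¹ • x) * divg Φ (‖x‖⁻¹ • x)) ∧
      f x * ⟪x, Φ x⟫ * (2 * wb' (‖x‖ ^ 2))
        = ‖x‖ ^ (a + b) * ‖x‖ * (2 * wb' (‖x‖ ^ 2))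
          * (f (‖x‖⁻¹ • x) * ⟪‖x‖⁻¹ • x, Φ (‖x‖⁻¹ • x)⟫) := by
    intro x hx
    obtain ⟨hu, he⟩ := unit_decomp hx
    by_cases hr : 1 ≤ ‖x‖
    · set r := ‖x‖
      set θ := r⁻¹ • x
      have hr0 : 0 < r := by linarith
      have d1 : ∀ v, fderiv ℝ f x v = r ^ b / r * fderiv ℝ f θ v := fun v => by
        have := (fderiv_homog hfh hr hu).1 v
        rw [he] at this
        field_simp
        linarith
      have f1 : f x = r ^ b * f θ := by
        have := hfh r θ (by linarith) hu
        rwa [he] at this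
      have p1 : Φ x = r ^ a • Φ θ := by
        have := hΦh r θ hr0
        rwa [he] at this
      have d2 : divg Φ x = r ^ a / r * divg Φ θ := by
        simp only [divg, Finset.mul_sum]
        refine Finset.sum_congr rfl fun i _ => ?_
        have h3 : HasFDerivAt (fun y => Φ (r • y))
            ((fderiv ℝ Φ x).comp (r • ContinuousLinearMap.id ℝ (E (m + 2)))) θ := by
          have h4 : HasFDerivAt Φ (fderiv ℝ Φ x) (r • θ) := by rw [he]; exact (hΦd x).hasFDerivAt
          exact h4.comp θ ((hasFDerivAt_id θ).const_smul r)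
        have h5 : HasFDerivAt (fun y => Φ (r • y)) (r ^ a • fderiv ℝ Φ θ) θ := by
          rw [show (fun y => Φ (r • y)) = fun y => r ^ a • Φ y from funext fun y => hΦh r y hr0]
          exact (hΦd θ).hasFDerivAt.fun_const_smul (r ^ a)
        have h6 := congrArg (fun L : E (m + 2) →L[ℝ] E (m + 2) => ⟪bv i, L (bv i)⟫) (h3.unique h5)
        simp only [ContinuousLinearMap.coe_comp, Function.comp_apply, smul_apply,
          ContinuousLinearMap.id_apply, map_smul, real_inner_smul_right] at h6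
        field_simp
        linarith
      have i1 : ⟪x, Φ x⟫ = r * r ^ a * ⟪θ, Φ θ⟫ := by
        conv_lhs => rw [p1, ← he]
        rw [real_inner_smul_left, real_inner_smul_right]
        ring
      refine ⟨?_, ?_, ?_⟩
      · rw [d1, p1, map_smul, smul_eq_mul, bump, pow_add]; ring
      · rw [f1, d2, bump, pow_add]; ring
      · rw [f1, i1, pow_add]; ring
    · have hb := bump_zero (Or.inl (le_of_lt (lt_of_not_ge hr)))
      refine ⟨?_, ?_, ?_⟩
      · rw [hb.1, show wb (‖x‖ ^ 2) = 0 from hb.1]; ring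
      · rw [hb.1, show wb (‖x‖ ^ 2) = 0 from hb.1]; ring
      · rw [hb.2]; ring
  rw [polar_split (by omega) _ (fun θ => fderiv ℝ f θ (Φ θ))
      (fun t => t ^ (a + b) / t * wb (t ^ 2)) fun x hx => (key x hx).1,
    polar_split (by omega) _ (fun θ => f θ * divg Φ θ) (fun t => t ^ (a + b) / t * wb (t ^ 2))
      fun x hx => (key x hx).2.1,
    polar_split (by omega) _ (fun θ => f θ * ⟪θ, Φ θ⟫)
      (fun t => t ^ (a + b) * t * (2 * wb' (t ^ 2))) fun x hx => (key x hx).2.2] at hsum
  have I1 : ∫ t in Ioi (0 : ℝ), t ^ (m + 2 - 1) * (t ^ (a + b) / t * wb (t ^ 2)) = bumpMom k := by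
    refine setIntegral_congr_fun measurableSet_Ioi fun t (ht : 0 < t) => ?_
    simp only [hk, pow_add, show m + 2 - 1 = m + 1 by omega, pow_one]
    field_simp
  have I2 : ∫ t in Ioi (0 : ℝ), t ^ (m + 2 - 1) * (t ^ (a + b) * t * (2 * wb' (t ^ 2)))
      = -((k : ℝ) + 1) * bumpMom k := by
    rw [← bumpMom_deriv k]
    refine setIntegral_congr_fun measurableSet_Ioi fun t _ => ?_
    simp only [hk, pow_add, show m + 2 - 1 = m + 1 by omega, pow_one]
    ring
  rw [I1, I2] at hsum
  have hpos : (0 : ℝ) < ((m + 2 : ℕ) : ℝ) * kap (m + 2) * bumpMom k := by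
    have := kap_pos (m + 2); have := bumpMom_pos k; positivity
  refine mul_left_cancel₀ hpos.ne' ?_
  rw [hk] at hsum ⊢
  push_cast at hsum ⊢
  linear_combination hsum

lemma lipschitz_mul_bump {g : E n → ℝ} {D : ℝ≥0} (hg : LipschitzWith D g) :
    ∃ D', LipschitzWith D' fun x => g x * bump x := by
  obtain ⟨L, hL⟩ : ∃ L, LipschitzWith L (bump (n := n)) :=
    contDiff_bump.lipschitzWith_of_hasCompactSupport hasCompactSupport_bump one_ne_zero
  obtain ⟨P, hP⟩ := hasCompactSupport_bump.exists_bound_of_continuous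
    (contDiff_bump (n := n)).continuous
  set G := |g 0| + 2 * D with hG
  have hP0 : 0 ≤ P := (norm_nonneg _).trans (hP 0)
  have hG0 : 0 ≤ G := by positivity
  have hb : ∀ y : E n, ‖y‖ ≤ 2 → |g y| ≤ G := fun y hy => by
    have h1 := hg.dist_le_mul y 0
    rw [Real.dist_eq, dist_zero_right] at h1
    have h2 := mul_le_mul_of_nonneg_left hy D.coe_nonneg
    have h3 := abs_add_le (g y - g 0) (g 0)
    rw [sub_add_cancel] at h3
    rw [hG]; linarith
  refine ⟨⟨P * D + G * L, by positivity⟩, LipschitzWith.of_dist_le_mul fun x y => ?_⟩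
  change |g x * bump x - g y * bump y| ≤ (P * D + G * L) * dist x y
  have h1 := hg.dist_le_mul x y
  have h2 := hL.dist_le_mul x y
  rw [Real.dist_eq] at h1 h2
  have h3 := hP x
  rw [Real.norm_eq_abs] at h3
  rcases le_total ‖y‖ 2 with hy | hy
  · calc |g x * bump x - g y * bump y|
        = |bump x * (g x - g y) + g y * (bump x - bump y)| := by ring_nf
      _ ≤ |bump x| * |g x - g y| + |g y| * |bump x - bump y| := by
          rw [← abs_mul, ← abs_mul]; exact abs_add_le _ _
      _ ≤ P * (D * dist x y) + G * (L * dist x y) :=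
          add_le_add (mul_le_mul h3 h1 (abs_nonneg _) hP0) (mul_le_mul (hb y hy) h2 (abs_nonneg _) hG0)
      _ = _ := by ring
  · rw [(bump_zero (Or.inr hy)).1, mul_zero, sub_zero]
    rw [(bump_zero (Or.inr hy)).1, sub_zero] at h2
    rcases le_total ‖x‖ 2 with hx | hx
    · rw [abs_mul]
      refine (mul_le_mul (hb x hx) h2 (abs_nonneg _) hG0).trans ?_
      have : 0 ≤ P * D * dist x y := by positivity
      linarith
    · rw [(bump_zero (Or.inr hx)).1, mul_zero, abs_zero]; positivity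

/-- A convex function has negative Dirichlet pairing with a nonnegative cut-off. -/
lemma convex_pairing {q h : E n → ℝ} {C D : ℝ≥0} (hq : LipschitzWith C q)
    (hqc : ConvexOn ℝ univ q) (hh : LipschitzWith D h) (hh0 : ∀ x, 0 ≤ h x)
    (hhz : ∀ x, 2 < ‖x‖ → h x = 0) (v : E n) :
    ∫ x, lineDeriv ℝ q x v * lineDeriv ℝ h x v ≤ 0 := by
  set F : ℝ → E n → ℝ := fun s x =>
    (s⁻¹ • (q (x + s • v) - q x)) * (s⁻¹ • (h (x + s • v) - h x))
  have hneg : ∀ s : ℝ, ∫ x, F s x ≤ 0 := by
    intro s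
    have hc : ∀ {u : E n → ℝ}, Continuous u → ∀ w : E n, Continuous fun x => u (x + w) :=
      fun {u} hu w => hu.comp (continuous_add_const w)
    have i1 : Integrable fun x => q (x + s • v) * h (x + s • v) :=
      (integrable_continuous_ball (hq.continuous.mul hh.continuous)
        fun x hx => by show q x * h x = 0; rw [hhz x hx, mul_zero]).comp_add_right (s • v)
    have i2 : Integrable fun x => q (x + s • v) * h x :=
      integrable_continuous_ball ((hc hq.continuous _).mul hh.continuous)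
        fun x hx => by show q _ * h x = 0; rw [hhz x hx, mul_zero]
    have i3 : Integrable fun x => q (x - s • v) * h x :=
      integrable_continuous_ball ((hq.continuous.comp (continuous_id.sub continuous_const)).mul
        hh.continuous) fun x hx => by show q _ * h x = 0; rw [hhz x hx, mul_zero]
    have i4 : Integrable fun x => q x * h x :=
      integrable_continuous_ball (hq.continuous.mul hh.continuous)
        fun x hx => by show q x * h x = 0; rw [hhz x hx, mul_zero]
    have i5 : Integrable fun x => q x * h (x + s • v) := by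
      simpa using i3.comp_add_right (s • v)
    have i6 : Integrable fun x => q (x + s • v) * h (x + s • v) - q (x + s • v) * h x := i1.sub i2
    have i7 : Integrable fun x => q x * h (x + s • v) - q x * h x := i5.sub i4
    have i8 : Integrable fun x => q x * h x - q (x + s • v) * h x := i4.sub i2
    have i9 : Integrable fun x => q (x - s • v) * h x - q x * h x := i3.sub i4
    have e : ∫ x, F s x = s⁻¹ * s⁻¹ *
        ∫ x, h x * (2 * q x - q (x + s • v) - q (x - s • v)) := by
      rw [← integral_const_mul]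
      have e1 : ∀ x, F s x = s⁻¹ * s⁻¹ *
          ((q (x + s • v) * h (x + s • v) - q (x + s • v) * h x)
            - (q x * h (x + s • v) - q x * h x)) := fun x => by
        simp only [F, smul_eq_mul]; ring
      have e2 : ∀ x, h x * (2 * q x - q (x + s • v) - q (x - s • v))
          = (q x * h x - q (x + s • v) * h x) - (q (x - s • v) * h x - q x * h x) := fun x => by
        ring
      simp only [e1, e2, integral_const_mul]
      rw [integral_sub i6 i7, integral_sub i1 i2, integral_sub i5 i4, integral_sub i8 i9,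
        integral_sub i4 i2, integral_sub i3 i4]
      have t1 : ∫ x, q (x + s • v) * h (x + s • v) = ∫ x, q x * h x :=
        integral_add_right_eq_self (fun x => q x * h x) (s • v)
      have t2 : ∫ x, q x * h (x + s • v) = ∫ x, q (x - s • v) * h x := by
        rw [← integral_add_right_eq_self (fun x => q (x - s • v) * h x) (s • v)]
        simp
      rw [t1, t2]
    rw [e]
    refine mul_nonpos_of_nonneg_of_nonpos (mul_self_nonneg _) (integral_nonpos fun x => ?_)
    refine mul_nonpos_of_nonneg_of_nonpos (hh0 x) ?_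
    have := hqc.2 (mem_univ (x + s • v)) (mem_univ (x - s • v)) (by norm_num : (0 : ℝ) ≤ 1 / 2)
      (by norm_num : (0 : ℝ) ≤ 1 / 2) (by norm_num)
    rw [show (1 / 2 : ℝ) • (x + s • v) + (1 / 2 : ℝ) • (x - s • v) = x by module, smul_eq_mul,
      smul_eq_mul] at this
    linarith
  have hlim : Filter.Tendsto (fun s => ∫ x, F s x) (nhdsWithin 0 (Ioi 0))
      (nhds (∫ x, lineDeriv ℝ q x v * lineDeriv ℝ h x v)) := by
    refine tendsto_integral_filter_of_dominated_convergence
      ((closedBall (0 : E n) (2 + ‖v‖)).indicator fun _ => (C * ‖v‖) * (D * ‖v‖)) ?_ ?_ ?_ ?_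
    · filter_upwards with s
      have := hq.continuous
      have := hh.continuous
      exact Continuous.aestronglyMeasurable (by fun_prop)
    · filter_upwards [Ioc_mem_nhdsGT zero_lt_one] with s hs
      filter_upwards with x
      have hl : ∀ {K : ℝ≥0} {u : E n → ℝ}, LipschitzWith K u →
          ‖s⁻¹ • (u (x + s • v) - u x)‖ ≤ K * ‖v‖ := fun {K u} hu => by
        rw [norm_smul, Real.norm_eq_abs, abs_inv, abs_of_pos hs.1, inv_mul_le_iff₀ hs.1]
        refine (hu.norm_sub_le _ _).trans_eq ?_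
        rw [add_sub_cancel_left, norm_smul, Real.norm_eq_abs, abs_of_pos hs.1]
        ring
      by_cases hx : x ∈ closedBall (0 : E n) (2 + ‖v‖)
      · rw [indicator_of_mem hx, norm_mul]
        exact mul_le_mul (hl hq) (hl hh) (norm_nonneg _) (by positivity)
      · rw [indicator_of_notMem hx]
        rw [mem_closedBall, dist_zero_right, not_le] at hx
        have h1 : h x = 0 := hhz x (by linarith [norm_nonneg v])
        have h2 : h (x + s • v) = 0 := hhz _ (by
          have := norm_sub_norm_le x (-(s • v))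
          rw [norm_neg, sub_neg_eq_add, norm_smul, Real.norm_eq_abs, abs_of_pos hs.1] at this
          nlinarith [mul_le_of_le_one_left (norm_nonneg v) hs.2])
        simp [F, h1, h2]
    · exact (integrableOn_const measure_closedBall_lt_top.ne).integrable_indicator
        measurableSet_closedBall
    · filter_upwards [hq.ae_lineDifferentiableAt (μ := volume) v,
        hh.ae_lineDifferentiableAt (μ := volume) v] with x h1 h2
      exact h1.hasLineDerivAt.tendsto_slope_zero_right.mul h2.hasLineDerivAt.tendsto_slope_zero_right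
  exact le_of_tendsto' hlim hneg

/-- A nonnegative cut-off lowers the Dirichlet form of a convex function. -/
theorem sph_convex_grad (hn : 2 ≤ n) {q g : E n → ℝ} {C D : ℝ≥0} (hq : LipschitzWith C q)
    (hqc : ConvexOn ℝ univ q) (hqh : ∀ (r : ℝ) (x : E n), 0 ≤ r → q (r • x) = r * q x)
    (hg : LipschitzWith D g)
    (hgh : ∀ (r : ℝ) (θ : E n), 1 / 2 ≤ r → ‖θ‖ = 1 → g (r • θ) = g θ) (hg0 : ∀ x, 0 ≤ g x) :
    ∑ i : Fin n, ∫ θ, fderiv ℝ q θ (bv i) * fderiv ℝ g θ (bv i) ∂sphM n
      ≤ ((n : ℝ) - 1) * ∫ θ, g θ * q θ ∂sphM n := by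
  obtain ⟨m, rfl⟩ : ∃ m, n = m + 2 := ⟨n - 2, by omega⟩
  have := isProb_sphM hn
  obtain ⟨D', hD'⟩ := lipschitz_mul_bump hg
  set h : E (m + 2) → ℝ := fun x => g x * bump x with hh
  have hhz : ∀ x : E (m + 2), 2 < ‖x‖ → h x = 0 := fun x hx => by
    simp [hh, (bump_zero (Or.inr hx.le)).1]
  have hneg : ∀ i, ∫ x, lineDeriv ℝ q x (bv i) * lineDeriv ℝ h x (bv i) ≤ 0 := fun i =>
    convex_pairing hq hqc hD' (fun x => mul_nonneg (hg0 x) (bump_nonneg x)) hhz _
  have hint : ∀ i, Integrable fun x => lineDeriv ℝ q x (bv i) * lineDeriv ℝ h x (bv i) := fun i =>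
    integrable_bdd_ball (R := 2) ((measurable_lineDeriv hq.continuous).mul
        (measurable_lineDeriv hD'.continuous)).aestronglyMeasurable
      (B := (C * ‖bv (n := m + 2) i‖) * (D' * ‖bv (n := m + 2) i‖))
      (fun x => by
        rw [← Real.norm_eq_abs, norm_mul]
        exact mul_le_mul (norm_lineDeriv_le_of_lipschitz ℝ hq) (norm_lineDeriv_le_of_lipschitz ℝ hD')
          (norm_nonneg _) (by positivity))
      (fun x hx => by
        have : h =ᶠ[nhds x] fun _ => (0 : ℝ) := by
          filter_upwards [(isOpen_lt continuous_const continuous_norm).mem_nhds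
            (show (2 : ℝ) < ‖x‖ from hx)] with y hy
          exact hhz y hy
        rw [this.lineDeriv_eq]
        simp [lineDeriv])
  have hdeg : ∀ (r : ℝ) (θ : E (m + 2)), 1 / 2 ≤ r → ‖θ‖ = 1 → q (r • θ) = r ^ 1 * q θ :=
    fun r θ hr _ => by rw [pow_one, hqh r θ (by linarith)]
  have hdeg0 : ∀ (r : ℝ) (θ : E (m + 2)), 1 / 2 ≤ r → ‖θ‖ = 1 → g (r • θ) = r ^ 0 * g θ :=
    fun r θ hr hθ => by rw [pow_zero, one_mul, hgh r θ hr hθ]
  set S : E (m + 2) → ℝ := fun x => ∑ i, fderiv ℝ q x (bv i) * fderiv ℝ g x (bv i) with hS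
  have heq : ∀ᵐ x : E (m + 2), ∑ i, lineDeriv ℝ q x (bv i) * lineDeriv ℝ h x (bv i)
      = bump x * S x + g x * q x * (2 * wb' (‖x‖ ^ 2)) := by
    filter_upwards [hq.ae_differentiableAt (μ := volume), hg.ae_differentiableAt (μ := volume)]
      with x hxq hxg
    have hb : DifferentiableAt ℝ (bump (n := m + 2)) x :=
      contDiff_bump.differentiable one_ne_zero x
    have hd : DifferentiableAt ℝ h x := hxg.mul hb
    have euler : fderiv ℝ q x x = q x := by
      have h2 : HasDerivAt (fun r : ℝ => q (r • x)) (fderiv ℝ q x x) 1 := by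
        have h3 : HasFDerivAt q (fderiv ℝ q x) ((1 : ℝ) • x) := by
          rw [one_smul]; exact hxq.hasFDerivAt
        exact (h3.comp_hasDerivAt (1 : ℝ) ((hasDerivAt_id (1 : ℝ)).smul_const x)).congr_deriv (by simp)
      have h4 : HasDerivAt (fun r : ℝ => q (r • x)) (q x) 1 := by
        have h5 := (hasDerivAt_id (1 : ℝ)).mul_const (q x)
        rw [one_mul] at h5
        refine h5.congr_of_eventuallyEq ?_
        filter_upwards [Ioi_mem_nhds (show (0 : ℝ) < 1 by norm_num)] with r hr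
        exact hqh r x (le_of_lt hr)
      exact h2.unique h4
    have e1 : ∀ i, fderiv ℝ h x (bv i)
        = g x * (2 * wb' (‖x‖ ^ 2) * ⟪bv i, x⟫) + bump x * fderiv ℝ g x (bv i) := fun i => by
      rw [hh, fderiv_fun_mul hxg hb]
      simp only [add_apply, smul_apply, smul_eq_mul, fderiv_bump, real_inner_comm x]
    simp only [hxq.lineDeriv_eq_fderiv, hd.lineDeriv_eq_fderiv, e1, hS, Finset.mul_sum, mul_add,
      Finset.sum_add_distrib]
    rw [add_comm]
    congr 1
    · exact Finset.sum_congr rfl fun i _ => by ring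
    · rw [← euler, ← clm_sum_bv (fderiv ℝ q x) x, Finset.mul_sum, Finset.sum_mul]
      exact Finset.sum_congr rfl fun i _ => by ring
  have hint2 : Integrable fun x : E (m + 2) => g x * q x * (2 * wb' (‖x‖ ^ 2)) :=
    integrable_continuous_ball (R := 2) ((hg.continuous.mul hq.continuous).mul
      (continuous_const.mul (continuous_wb'.comp (continuous_norm.pow 2))))
      fun x hx => by
        show g x * q x * (2 * wb' (‖x‖ ^ 2)) = 0
        rw [(bump_zero (Or.inr hx.le)).2]; ring
  have hint1 : Integrable fun x => bump x * S x := by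
    refine ((integrable_finsetSum Finset.univ fun i _ => hint i).sub hint2).congr ?_
    filter_upwards [heq] with x hx
    simp only [Pi.sub_apply]
    rw [hx]; ring
  have htot := Finset.sum_nonpos fun i (_ : i ∈ (Finset.univ : Finset (Fin (m + 2)))) => hneg i
  rw [← integral_finsetSum _ (fun i _ => hint i), integral_congr_ae heq,
    integral_add hint1 hint2] at htot
  rw [polar_split (by omega) _ S (fun t => wb (t ^ 2) / t) (fun x hx => ?_),
    polar_split (by omega) _ (fun θ => g θ * q θ) (fun t => t * (2 * wb' (t ^ 2))) (fun x hx => ?_)]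
    at htot
  rotate_left
  · by_cases hr : 1 ≤ ‖x‖
    · obtain ⟨hu, he⟩ := unit_decomp hx
      have hgx : g x = g (‖x‖⁻¹ • x) := by
        have := hgh ‖x‖ _ (by linarith) hu
        rwa [he] at this
      have hqx : q x = ‖x‖ * q (‖x‖⁻¹ • x) := by
        have := hqh ‖x‖ (‖x‖⁻¹ • x) (norm_nonneg x)
        rwa [he] at this
      rw [hgx, hqx]; ring
    · rw [(bump_zero (Or.inl (le_of_lt (lt_of_not_ge hr)))).2]; ring
  · by_cases hr : 1 ≤ ‖x‖
    · obtain ⟨hu, he⟩ := unit_decomp hx
      simp only [hS, Finset.mul_sum]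
      refine Finset.sum_congr rfl fun i _ => ?_
      have h1 := (fderiv_homog hdeg hr hu).1 (bv i)
      have h2 := (fderiv_homog hdeg0 hr hu).1 (bv i)
      rw [he] at h1 h2
      rw [pow_one] at h1
      rw [pow_zero, one_mul] at h2
      have hr0 : ‖x‖ ≠ 0 := norm_ne_zero_iff.2 hx
      rw [← mul_left_cancel₀ hr0 h1, ← h2, bump]
      field_simp
    · have := bump_zero (Or.inl (le_of_lt (lt_of_not_ge hr)))
      rw [this.1, show wb (‖x‖ ^ 2) = 0 from this.1]; simp
  have I1 : ∫ t in Ioi (0 : ℝ), t ^ (m + 2 - 1) * (wb (t ^ 2) / t) = bumpMom m := by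
    refine setIntegral_congr_fun measurableSet_Ioi fun t (ht : 0 < t) => ?_
    simp only [show m + 2 - 1 = m + 1 by omega, pow_succ]
    field_simp
  have I2 : ∫ t in Ioi (0 : ℝ), t ^ (m + 2 - 1) * (t * (2 * wb' (t ^ 2)))
      = -((m : ℝ) + 1) * bumpMom m := by
    rw [← bumpMom_deriv m]
    refine setIntegral_congr_fun measurableSet_Ioi fun t _ => ?_
    simp only [show m + 2 - 1 = m + 1 by omega, pow_succ]
    ring
  rw [I1, I2] at htot
  rw [← integral_finsetSum _ fun i _ => ?_]
  swap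
  · refine Integrable.of_bound ((measurable_fderiv_apply_const ℝ q (bv i)).mul
      (measurable_fderiv_apply_const ℝ g (bv i))).aestronglyMeasurable
      ((C * ‖bv (n := m + 2) i‖) * (D * ‖bv (n := m + 2) i‖)) (Filter.Eventually.of_forall fun x => ?_)
    simp only [norm_mul]
    exact mul_le_mul ((ContinuousLinearMap.le_opNorm _ _).trans
        (mul_le_mul_of_nonneg_right (norm_fderiv_le_of_lipschitz ℝ hq) (norm_nonneg _)))
      ((ContinuousLinearMap.le_opNorm _ _).trans
        (mul_le_mul_of_nonneg_right (norm_fderiv_le_of_lipschitz ℝ hg) (norm_nonneg _)))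
      (norm_nonneg _) (by positivity)
  have hpos : (0 : ℝ) < ((m + 2 : ℕ) : ℝ) * kap (m + 2) * bumpMom m := by
    have := kap_pos (m + 2); have := bumpMom_pos m; positivity
  refine le_of_mul_le_mul_left ?_ hpos
  push_cast at htot ⊢
  linarith

/-- Volume of the unit ball of a gauge. -/
theorem volume_gauge (hn : 2 ≤ n) {q : E n → ℝ} (hq : Continuous q)
    (hqh : ∀ (r : ℝ) (x : E n), 0 ≤ r → q (r • x) = r * q x) (hpos : ∀ x, x ≠ 0 → 0 < q x) :
    (volume {x | q x ≤ 1}).toReal = kap n * ∫ θ, (q θ ^ n)⁻¹ ∂sphM n := by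
  obtain ⟨m, rfl⟩ : ∃ m, n = m + 1 := ⟨n - 1, by omega⟩
  have := nontrivial_E (n := m + 1) (by omega)
  have hd : Module.finrank ℝ (E (m + 1)) - 1 = m := by simp
  have hsub : MeasurableEmbedding (Subtype.val : ({(0 : E (m + 1))}ᶜ : Set _) → E (m + 1)) :=
    MeasurableEmbedding.subtype_coe (measurableSet_singleton _).compl
  have hS : MeasurableSet {x : E (m + 1) | q x ≤ 1} := (isClosed_le hq continuous_const).measurableSet
  set T : Set (sphere (0 : E (m + 1)) 1 × Ioi (0 : ℝ)) := {p | p.2.1 * q p.1.1 ≤ 1}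
  have hT : MeasurableSet T :=
    (isClosed_le ((continuous_subtype_val.comp continuous_snd).mul
      (hq.comp (continuous_subtype_val.comp continuous_fst))) continuous_const).measurableSet
  have hqpos : ∀ θ : sphere (0 : E (m + 1)) 1, 0 < q θ.1 := fun θ =>
    hpos _ (ne_of_apply_ne Norm.norm (by simp))
  have hvol : volume {x : E (m + 1) | q x ≤ 1}
      = ∫⁻ θ, ENNReal.ofReal ((q θ.1 ^ (m + 1))⁻¹ / (m + 1))
          ∂(volume : Measure (E (m + 1))).toSphere := by
    have h1 : volume {x : E (m + 1) | q x ≤ 1}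
        = ((volume : Measure (E (m + 1))).comap (↑))
            (Subtype.val ⁻¹' {x : E (m + 1) | q x ≤ 1} : Set ({(0 : E (m + 1))}ᶜ : Set _)) := by
      rw [hsub.comap_apply, Subtype.image_preimage_coe, inter_comm, ← sdiff_eq,
        measure_sdiff_null (measure_singleton _)]
    have h2 : (Subtype.val ⁻¹' {x : E (m + 1) | q x ≤ 1} : Set ({(0 : E (m + 1))}ᶜ : Set _))
        = homeomorphUnitSphereProd (E (m + 1)) ⁻¹' T := by
      ext x
      have h3 : q x.1 = ‖x.1‖ * q (‖x.1‖⁻¹ • x.1) := by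
        have := hqh ‖x.1‖ (‖x.1‖⁻¹ • x.1) (norm_nonneg _)
        rwa [(unit_decomp x.2).2] at this
      simp only [T, mem_preimage, mem_ofPred_eq, homeomorphUnitSphereProd_apply_fst_coe,
        homeomorphUnitSphereProd_apply_snd_coe]
      rw [h3]
    rw [h1, h2, (volume : Measure (E (m + 1))).measurePreserving_homeomorphUnitSphereProd.measure_preimage
      hT.nullMeasurableSet, Measure.prod_apply hT, hd]
    refine lintegral_congr fun θ => ?_
    set x0 : Ioi (0 : ℝ) := ⟨(q θ.1)⁻¹, mem_Ioi.2 (inv_pos.2 (hqpos θ))⟩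
    have h4 : (Prod.mk θ ⁻¹' T) = Iio x0 ∪ {x0} := by
      rw [union_singleton, Iio_insert]
      ext t
      simp only [T, mem_preimage, mem_ofPred_eq, mem_Iic, ← Subtype.coe_le_coe, x0]
      rw [← one_div, le_div_iff₀ (hqpos θ)]
    have h5 : Measure.volumeIoiPow m ({x0} : Set (Ioi (0 : ℝ))) = 0 := by
      rw [Measure.volumeIoiPow, withDensity_apply _ (measurableSet_singleton _)]
      refine setLIntegral_measure_zero _ _ ?_
      rw [comap_subtype_coe_apply measurableSet_Ioi]
      simp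
    rw [h4, measure_union (by simp) (measurableSet_singleton _), h5, add_zero,
      Measure.volumeIoiPow_apply_Iio]
    simp [x0, inv_pow]
  have hc : Continuous fun θ : sphere (0 : E (m + 1)) 1 => (q θ.1 ^ (m + 1))⁻¹ / ((m : ℝ) + 1) :=
    ((hq.comp continuous_subtype_val).pow _ |>.inv₀ fun θ => (pow_pos (hqpos θ) _).ne').div_const _
  have hi := hc.integrable_of_hasCompactSupport
    (μ := (volume : Measure (E (m + 1))).toSphere) (HasCompactSupport.of_compactSpace _)
  have hnn : ∀ θ : sphere (0 : E (m + 1)) 1, 0 ≤ (q θ.1 ^ (m + 1))⁻¹ / ((m : ℝ) + 1) := fun θ => by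
    have := hqpos θ; positivity
  rw [hvol, ← ofReal_integral_eq_lintegral_ofReal hi (Filter.Eventually.of_forall hnn),
    ENNReal.toReal_ofReal (integral_nonneg hnn), integral_div, integral_sphM]
  have := kap_pos (m + 1)
  push_cast
  field_simp

theorem sph_inner_inner (hn : 2 ≤ n) (v w : E n) :
    ∫ θ, ⟪v, θ⟫ * ⟪w, θ⟫ ∂sphM n = ⟪v, w⟫ / n := by
  have := isProb_sphM hn
  have h := sph_ibp hn (f := fun x => ⟪v, x⟫) (b := 1) (a := 0) (innerSL ℝ v).lipschitz
    (fun r θ _ _ => by rw [pow_one, real_inner_smul_right]) (Φ := fun _ => w) contDiff_const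
    (fun r x _ => by rw [pow_zero, one_smul])
  have h1 : ∀ θ : E n, fderiv ℝ (fun x => ⟪v, x⟫) θ w = ⟪v, w⟫ := fun θ => by
    rw [show (fun x => ⟪v, x⟫) = ⇑(innerSL ℝ v) from rfl, ContinuousLinearMap.fderiv]
    rfl
  have h2 : ∀ θ : E n, divg (fun _ : E n => w) θ = 0 := fun θ => by simp [divg]
  simp only [h1, h2, mul_zero, integral_zero, sub_zero, integral_const, measureReal_def,
    measure_univ, ENNReal.toReal_one, one_smul] at h
  have hn0 : (n : ℝ) ≠ 0 := by exact_mod_cast (show n ≠ 0 by omega)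
  rw [eq_div_iff hn0, h]
  simp only [real_inner_comm w]
  push_cast
  ring

theorem sph_abs_inner (hn : 2 ≤ n) (v : E n) :
    ∫ θ, |⟪v, θ⟫| ∂sphM n = absMom n * ‖v‖ := by
  obtain ⟨k, rfl⟩ : ∃ k, n = k + 1 + 1 := ⟨n - 2, by omega⟩
  set F : E (k + 1 + 1) → ℝ := fun x => |⟪v, x⟫| * Real.exp (-‖x‖ ^ 2 / 2)
  have h1 : ∫ x, F x = (((k + 1 + 1 : ℕ) : ℝ) * kap (k + 1 + 1) *
      ∫ θ, |⟪v, θ⟫| ∂sphM (k + 1 + 1)) * Jn (k + 2) := by
    rw [polar_split (by omega) F (fun θ => |⟪v, θ⟫|) (fun t => t * Real.exp (-t ^ 2 / 2))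
      (fun x hx => ?_)]
    · congr 1
      unfold Jn
      refine setIntegral_congr_fun measurableSet_Ioi fun t _ => ?_
      simp only [show k + 1 + 1 - 1 = k + 1 by omega, pow_succ]
      ring
    · simp only [F, real_inner_smul_right, abs_mul, abs_inv, abs_norm]
      field_simp [norm_ne_zero_iff.2 hx]
  obtain ⟨R, hR⟩ := exists_align v
  have h2 : ∫ x, F x = ‖v‖ * 2 * (((k + 1 : ℕ) : ℝ) * kap (k + 1) * Jn k) := by
    set G : E (k + 1 + 1) → ℝ := fun y => ‖v‖ * (|y 0| * Real.exp (-‖y‖ ^ 2 / 2))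
    have e : ∀ x, F x = G (R x) := fun x => by
      have h3 : ⟪v, x⟫ = ‖v‖ * (R x) 0 := by
        rw [← R.inner_map_map v x, hR, real_inner_smul_left]
        simp [e0, EuclideanSpace.inner_single_left]
      simp only [F, G, h3, abs_mul, abs_norm, R.norm_map]
      ring
    simp only [e]
    rw [R.measurePreserving.integral_comp R.toHomeomorph.measurableEmbedding G,
      ← (measurePreserving_econs (k + 1)).integral_comp (measurableEmbedding_econs _) G]
    have e2 : ∀ p : ℝ × E (k + 1), G (econs p.1 p.2)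
        = (‖v‖ * (|p.1| * Real.exp (-p.1 ^ 2 / 2))) * Real.exp (-‖p.2‖ ^ 2 / 2) := fun p => by
      simp only [G, econs_apply_zero, norm_econs_sq]
      rw [show -(p.1 ^ 2 + ‖p.2‖ ^ 2) / 2 = -p.1 ^ 2 / 2 + -‖p.2‖ ^ 2 / 2 by ring, Real.exp_add]
      ring
    simp only [e2]
    rw [integral_prod_mul (fun t : ℝ => ‖v‖ * (|t| * Real.exp (-t ^ 2 / 2)))
      (fun y : E (k + 1) => Real.exp (-‖y‖ ^ 2 / 2)), integral_const_mul]
    have e3 : ∫ t : ℝ, |t| * Real.exp (-t ^ 2 / 2) = 2 := by
      have := integral_comp_abs (f := fun t : ℝ => t * Real.exp (-t ^ 2 / 2))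
      simp only [sq_abs] at this
      rw [this]
      have hJ := Jn_one
      simp only [Jn, pow_one] at hJ
      rw [hJ]; ring
    have e4 : ∫ y : E (k + 1), Real.exp (-‖y‖ ^ 2 / 2) = ((k + 1 : ℕ) : ℝ) * kap (k + 1) * Jn k := by
      have h4 := kap_mul_Jn (m := k + 1) (by omega)
      rw [show k + 1 - 1 = k by omega] at h4
      rw [h4]
      have hg := GaussianFourier.integral_rexp_neg_mul_sq_norm (V := E (k + 1)) (b := 1 / 2)
        (by norm_num)
      rw [finrank_euclideanSpace_fin, show Real.pi / (1 / 2) = 2 * Real.pi by ring] at hg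
      rw [← hg]
      refine integral_congr_ae (Filter.Eventually.of_forall fun y => ?_)
      ring_nf
    rw [e3, e4]
  rw [h2, Jn_succ_succ] at h1
  have hJ := Jn_pos k
  have hk1 := kap_pos (k + 1 + 1)
  rw [absMom, MM, show k + 1 + 1 - 1 = k + 1 by omega]
  push_cast at h1 ⊢
  have h1' : (((k : ℝ) + 1) * Jn k) * ((((k : ℝ) + 1 + 1) * kap (k + 1 + 1)) *
      (∫ θ, |⟪v, θ⟫| ∂sphM (k + 1 + 1))) = (((k : ℝ) + 1) * Jn k) * (‖v‖ * 2 * kap (k + 1)) := by
    linear_combination -h1
  have h5 := mul_left_cancel₀ (by positivity) h1'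
  field_simp
  linear_combination h5

lemma MM_pos (hn : 2 ≤ n) : 0 < MM n := by
  have := hn
  have h1 := kap_pos (n - 1)
  have h2 := kap_pos n
  rw [MM]
  positivity

lemma absMom_pos (hn : 2 ≤ n) : 0 < absMom n :=
  div_pos (MM_pos hn) (by exact_mod_cast (show 0 < n by omega))

lemma MM_two : MM 2 = 4 / Real.pi := by
  rw [MM, show 2 - 1 = 1 from rfl, kap_one, kap_two]
  norm_num

lemma MM_mul_succ (hn : 1 ≤ n) : MM n * MM (n + 1) = 2 * (n + 1) / Real.pi := by
  obtain ⟨k, rfl⟩ : ∃ k, n = k + 1 := ⟨n - 1, by omega⟩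
  have h := kap_add_two k
  have h1 := kap_pos (k + 1)
  have h2 := kap_pos (k + 2)
  have h3 := kap_pos k
  simp only [MM, show k + 1 - 1 = k by omega, show k + 1 + 1 - 1 = k + 1 by omega,
    show k + 1 + 1 = k + 2 by omega]
  push_cast
  field_simp
  linear_combination -h

end Vale.Agent.P237H
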