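import Vale.Agent.P237H.Basic
import Vale.Agent.P226.Radial

/-!
# Polar coordinates, ball volumes, and the radial bump used on the sphere
-/

namespace Vale.Agent.P237H

open MeasureTheory Set Metric Vale.Agent.P237 Vale.Agent.P237R
open Vale.Agent.P226 (Jn Jn_pos Jn_succ_succ Jn_zero Jn_one)
open scoped RealInnerProductSpace NNReal ENNReal

variable {n : ℕ}

lemma nontrivial_E (hn : 1 ≤ n) : Nontrivial (E n) :=
  Module.nontrivial_of_finrank_pos (R := ℝ) (by simp; omega)

lemma toSphere_univ_eq :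
    (volume : Measure (E n)).toSphere univ = ENNReal.ofReal (n * kap n) := by
  rw [Measure.toSphere_apply_univ, finrank_euclideanSpace_fin, ENNReal.ofReal_mul (by positivity),
    ENNReal.ofReal_natCast, kap, ENNReal.ofReal_toReal measure_closedBall_lt_top.ne]
  rcases Nat.eq_zero_or_pos n with h | h
  · subst h; simp
  · have := nontrivial_E (n := n) h
    rw [Measure.addHaar_closedBall_eq_addHaar_ball]

lemma integral_sphM (u : E n → ℝ) :
    ∫ x, u x ∂sphM n
      = ((n : ℝ) * kap n)⁻¹ * ∫ θ : sphere (0 : E n) 1, u θ.1 ∂(volume : Measure (E n)).toSphere := by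
  have := kap_pos n
  rw [sphM, integral_smul_measure, toSphere_univ_eq, ENNReal.toReal_inv,
    ENNReal.toReal_ofReal (by positivity), smul_eq_mul,
    (MeasurableEmbedding.subtype_coe isClosed_sphere.measurableSet).integral_map]

lemma ae_sphM_of_ae_sphere {p : E n → Prop}
    (h : ∀ᵐ θ ∂(volume : Measure (E n)).toSphere, p (θ : sphere (0 : E n) 1).1) :
    ∀ᵐ x ∂sphM n, p x :=
  Measure.ae_smul_measure
    (((MeasurableEmbedding.subtype_coe isClosed_sphere.measurableSet).ae_map_iff).2 h) _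

/-- Polar coordinates for a product of an angular and a radial function. -/
theorem polar_split (hn : 1 ≤ n) (F u : E n → ℝ) (φ : ℝ → ℝ)
    (hF : ∀ x, x ≠ 0 → F x = φ ‖x‖ * u (‖x‖⁻¹ • x)) :
    ∫ x, F x = ((n : ℝ) * kap n * ∫ θ, u θ ∂sphM n)
      * ∫ t in Ioi (0 : ℝ), t ^ (n - 1) * φ t := by
  have := nontrivial_E hn
  have hk := kap_pos n
  have hn0 : (0 : ℝ) < n := by exact_mod_cast hn
  have hd : Module.finrank ℝ (E n) = n := finrank_euclideanSpace_fin
  set g : sphere (0 : E n) 1 × Ioi (0 : ℝ) → ℝ := fun p => u p.1.1 * φ p.2.1 with hg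
  calc ∫ x, F x
      = ∫ x : ({(0 : E n)}ᶜ : Set (E n)), F x.1 ∂((volume : Measure (E n)).comap (↑)) := by
        rw [integral_subtype_comap (measurableSet_singleton _).compl F, restrict_compl_singleton]
    _ = ∫ p, g p ∂((volume : Measure (E n)).toSphere.prod
          (Measure.volumeIoiPow (Module.finrank ℝ (E n) - 1))) := by
        rw [← (volume : Measure (E n)).measurePreserving_homeomorphUnitSphereProd.integral_comp
          (Homeomorph.measurableEmbedding _) g]
        congr 1; funext x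
        simp only [hg, homeomorphUnitSphereProd_apply_fst_coe,
          homeomorphUnitSphereProd_apply_snd_coe]
        rw [hF x.1 x.2, mul_comm]
    _ = (∫ θ : sphere (0 : E n) 1, u θ.1 ∂(volume : Measure (E n)).toSphere) *
          ∫ t : Ioi (0 : ℝ), φ t.1 ∂(Measure.volumeIoiPow (Module.finrank ℝ (E n) - 1)) :=
        integral_prod_mul (fun θ : sphere (0 : E n) 1 => u θ.1) (fun t : Ioi (0 : ℝ) => φ t.1)
    _ = _ := by
        rw [integral_sphM, ← mul_assoc ((n : ℝ) * kap n), mul_inv_cancel₀ (by positivity), one_mul]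
        congr 1
        rw [hd]
        simp only [Measure.volumeIoiPow, ENNReal.ofReal]
        rw [integral_withDensity_eq_integral_smul
          ((measurable_subtype_coe.pow_const _).real_toNNReal),
          integral_subtype_comap measurableSet_Ioi fun a => Real.toNNReal (a ^ (n - 1)) • φ a]
        refine setIntegral_congr_fun measurableSet_Ioi fun x hx => ?_
        rw [NNReal.smul_def, Real.coe_toNNReal _ (pow_nonneg (le_of_lt hx) _), smul_eq_mul]

/-- A property of directions holds almost everywhere if it does so in a shell. -/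
theorem ae_sphM_of_shell (hn : 1 ≤ n) {p : E n → Prop}
    (h : ∀ᵐ x : E n, 1 < ‖x‖ → ‖x‖ < 2 → p (‖x‖⁻¹ • x)) : ∀ᵐ θ ∂sphM n, p θ := by
  have := nontrivial_E hn
  refine ae_sphM_of_ae_sphere ?_
  have hsub : MeasurableEmbedding (Subtype.val : ({(0 : E n)}ᶜ : Set (E n)) → E n) :=
    MeasurableEmbedding.subtype_coe (measurableSet_singleton _).compl
  have h1 : ∀ᵐ x : ({(0 : E n)}ᶜ : Set (E n)) ∂((volume : Measure (E n)).comap (↑)),
      1 < ‖x.1‖ → ‖x.1‖ < 2 → p (‖x.1‖⁻¹ • x.1) := by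
    rw [← hsub.ae_map_iff (p := fun x : E n => 1 < ‖x‖ → ‖x‖ < 2 → p (‖x‖⁻¹ • x)),
      map_comap_subtype_coe (measurableSet_singleton _).compl]
    exact ae_restrict_of_ae h
  have h2 : ∀ᵐ q : sphere (0 : E n) 1 × Ioi (0 : ℝ) ∂((volume : Measure (E n)).toSphere.prod
      (Measure.volumeIoiPow (Module.finrank ℝ (E n) - 1))), 1 < q.2.1 → q.2.1 < 2 → p q.1.1 := by
    rw [← (volume : Measure (E n)).measurePreserving_homeomorphUnitSphereProd.map_eq,
      (Homeomorph.measurableEmbedding _).ae_map_iff]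
    filter_upwards [h1] with x hx
    simpa using hx
  filter_upwards [Measure.ae_ae_of_ae_prod h2] with θ hθ
  by_contra hp
  have hbad : Measure.volumeIoiPow (Module.finrank ℝ (E n) - 1)
      (Iio ⟨2, mem_Ioi.2 two_pos⟩ \ Iio ⟨1, mem_Ioi.2 one_pos⟩) = 0 := by
    have h1' : ∀ᵐ t : Ioi (0 : ℝ) ∂Measure.volumeIoiPow (Module.finrank ℝ (E n) - 1),
        ¬(1 < t.1 ∧ t.1 < 2) := by
      filter_upwards [hθ] with t ht
      exact fun hc => hp (ht hc.1 hc.2)
    have h0 : Measure.volumeIoiPow (Module.finrank ℝ (E n) - 1)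
        ({⟨1, mem_Ioi.2 one_pos⟩} : Set (Ioi (0 : ℝ))) = 0 := by
      rw [Measure.volumeIoiPow, withDensity_apply _ (measurableSet_singleton _)]
      refine setLIntegral_measure_zero _ _ ?_
      rw [comap_subtype_coe_apply measurableSet_Ioi]
      simp
    refine measure_mono_null (fun t ht => ?_) (measure_union_null (ae_iff.1 h1') h0)
    simp only [mem_sdiff, mem_Iio, not_lt, ← Subtype.coe_le_coe, ← Subtype.coe_lt_coe] at ht
    rcases eq_or_lt_of_le ht.2 with h | h
    · exact Or.inr (Subtype.ext h.symm)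
    · exact Or.inl (not_not.2 ⟨h, ht.1⟩)
  rw [measure_sdiff (Iio_subset_Iio (by simp [← Subtype.coe_le_coe]))
    measurableSet_Iio.nullMeasurableSet (by simp [Measure.volumeIoiPow_apply_Iio]),
    Measure.volumeIoiPow_apply_Iio, Measure.volumeIoiPow_apply_Iio, ← ENNReal.ofReal_sub _
      (by positivity), ENNReal.ofReal_eq_zero] at hbad
  simp only [one_pow] at hbad
  have hlt : (1 : ℝ) < (2 : ℝ) ^ (Module.finrank ℝ (E n) - 1 + 1) :=
    one_lt_pow₀ (by norm_num) (by omega)
  have hpos : (0 : ℝ) < ((Module.finrank ℝ (E n) - 1 : ℕ) : ℝ) + 1 := by positivity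
  rw [div_sub_div_same, div_le_iff₀ hpos] at hbad
  linarith

/-- The radial profile of the bump supported in the shell between `1` and `2`. -/
noncomputable def wb (s : ℝ) : ℝ := max 0 ((s - 1) * (4 - s)) ^ 2

/-- The derivative of the profile. -/
noncomputable def wb' (s : ℝ) : ℝ := 2 * max 0 ((s - 1) * (4 - s)) * (5 - 2 * s)

lemma hasDerivAt_maxSq (u : ℝ) : HasDerivAt (fun v : ℝ => max 0 v ^ 2) (2 * max 0 u) u := by
  rcases lt_trichotomy u 0 with h | h | h
  · refine ((hasDerivAt_const u (0 : ℝ)).congr_of_eventuallyEq ?_).congr_deriv ?_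
    · filter_upwards [gt_mem_nhds h] with v hv
      simp [max_eq_left hv.le]
    · simp [max_eq_left h.le]
  · subst h
    rw [hasDerivAt_iff_isLittleO]
    simp only [max_self, mul_zero, smul_zero, sub_zero, zero_pow two_ne_zero]
    rw [Asymptotics.isLittleO_iff]
    intro c hc
    filter_upwards [Metric.ball_mem_nhds (0 : ℝ) hc] with v hv
    simp only [mem_ball, dist_zero_right, Real.norm_eq_abs] at hv
    have h1 : |max 0 v| ≤ |v| := by
      rcases le_total 0 v with h | h
      · rw [max_eq_right h]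
      · rw [max_eq_left h]; simp
    rw [Real.norm_eq_abs, Real.norm_eq_abs, abs_pow]
    nlinarith [abs_nonneg v, abs_nonneg (max 0 v)]
  · refine ((hasDerivAt_pow 2 u).congr_of_eventuallyEq ?_).congr_deriv ?_
    · filter_upwards [lt_mem_nhds h] with v hv
      simp [max_eq_right hv.le]
    · simp [max_eq_right h.le]

lemma hasDerivAt_wb (s : ℝ) : HasDerivAt wb (wb' s) s := by
  have h1 := ((hasDerivAt_id s).sub_const 1).mul ((hasDerivAt_id s).const_sub 4)
  have h2 := (hasDerivAt_maxSq ((s - 1) * (4 - s))).comp s h1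
  refine h2.congr_deriv ?_
  simp only [wb', id_eq]
  ring

lemma continuous_wb : Continuous wb := by unfold wb; fun_prop

lemma continuous_wb' : Continuous wb' := by unfold wb'; fun_prop

lemma wb_zero {r : ℝ} (hr : 0 ≤ r) (h : r ≤ 1 ∨ 2 ≤ r) : wb (r ^ 2) = 0 ∧ wb' (r ^ 2) = 0 := by
  have : (r ^ 2 - 1) * (4 - r ^ 2) ≤ 0 := by
    rcases h with h | h
    · exact mul_nonpos_of_nonpos_of_nonneg (by nlinarith) (by nlinarith)
    · exact mul_nonpos_of_nonneg_of_nonpos (by nlinarith) (by nlinarith)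
  simp [wb, wb', max_eq_left this]

/-- The radial bump. -/
noncomputable def bump (x : E n) : ℝ := wb (‖x‖ ^ 2)

lemma bump_nonneg (x : E n) : 0 ≤ bump x := sq_nonneg _

lemma bump_zero {x : E n} (h : ‖x‖ ≤ 1 ∨ 2 ≤ ‖x‖) : bump x = 0 ∧ wb' (‖x‖ ^ 2) = 0 :=
  wb_zero (norm_nonneg x) h

lemma contDiff_bump : ContDiff ℝ 1 (bump (n := n)) := by
  have h : ContDiff ℝ 1 wb := by
    rw [contDiff_one_iff_deriv]
    exact ⟨fun s => (hasDerivAt_wb s).differentiableAt, by
      rw [show deriv wb = wb' from funext fun s => (hasDerivAt_wb s).deriv]; exact continuous_wb'⟩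
  exact h.comp (contDiff_norm_sq ℝ)

lemma fderiv_bump (x v : E n) : fderiv ℝ bump x v = 2 * wb' (‖x‖ ^ 2) * ⟪x, v⟫ := by
  have h2 : HasFDerivAt (bump (n := n)) (wb' (‖x‖ ^ 2) • ((2 : ℝ) • innerSL ℝ x)) x := by
    refine ((hasDerivAt_wb _).comp_hasFDerivAt x (hasStrictFDerivAt_norm_sq x).hasFDerivAt).congr_fderiv ?_
    simp [two_smul]
  rw [h2.fderiv]
  simp only [smul_apply, innerSL_apply_apply, smul_eq_mul]
  ring

lemma hasCompactSupport_bump : HasCompactSupport (bump (n := n)) :=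
  HasCompactSupport.intro (isCompact_closedBall 0 2) fun x hx => by
    rw [mem_closedBall, dist_zero_right, not_le] at hx
    exact (bump_zero (Or.inr hx.le)).1

/-- The radial moments of the bump. -/
noncomputable def bumpMom (m : ℕ) : ℝ := ∫ t in Ioi (0 : ℝ), t ^ m * wb (t ^ 2)

lemma integral_Ioi_eq_shell {G : ℝ → ℝ} (hG : ∀ t, 0 < t → (t ≤ 1 ∨ 2 ≤ t) → G t = 0) :
    ∫ t in Ioi (0 : ℝ), G t = ∫ t in (1 : ℝ)..2, G t := by
  rw [intervalIntegral.integral_of_le (by norm_num)]
  refine setIntegral_eq_of_subset_of_forall_sdiff_eq_zero measurableSet_Ioi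
    (fun t ht => lt_trans zero_lt_one ht.1) fun t ht => hG t ht.1 ?_
  have := ht.2
  simp only [mem_Ioc, not_and_or, not_lt, not_le] at this
  exact this.imp id le_of_lt

lemma bumpMom_pos (m : ℕ) : 0 < bumpMom m := by
  rw [bumpMom, integral_Ioi_eq_shell fun t ht h => by rw [(wb_zero ht.le h).1, mul_zero]]
  refine intervalIntegral.intervalIntegral_pos_of_pos_on
    (((continuous_pow m).mul (continuous_wb.comp (continuous_pow 2))).intervalIntegrable _ _)
    (fun t ht => ?_) (by norm_num)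
  have h1 : 0 < (t ^ 2 - 1) * (4 - t ^ 2) := mul_pos (by nlinarith [ht.1]) (by nlinarith [ht.1, ht.2])
  have h0 : 0 < t := by linarith [ht.1]
  change 0 < t ^ m * wb (t ^ 2)
  rw [wb, max_eq_right h1.le]
  positivity

lemma bumpMom_deriv (m : ℕ) :
    ∫ t in Ioi (0 : ℝ), t ^ (m + 2) * (2 * wb' (t ^ 2)) = -(m + 1) * bumpMom m := by
  rw [bumpMom, integral_Ioi_eq_shell fun t ht h => by rw [(wb_zero ht.le h).2, mul_zero, mul_zero],
    integral_Ioi_eq_shell fun t ht h => by rw [(wb_zero ht.le h).1, mul_zero]]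
  have h1 : IntervalIntegrable (fun t => ((m : ℝ) + 1) * (t ^ m * wb (t ^ 2))) volume 1 2 :=
    ((((continuous_pow m).mul (continuous_wb.comp (continuous_pow 2)))).const_mul _).intervalIntegrable _ _
  have h2 : IntervalIntegrable (fun t => t ^ (m + 2) * (2 * wb' (t ^ 2))) volume 1 2 :=
    ((continuous_pow _).mul ((continuous_wb'.comp (continuous_pow 2)).const_mul _)).intervalIntegrable _ _
  have h3 := intervalIntegral.integral_eq_sub_of_hasDerivAt
    (f := fun t => t ^ (m + 1) * wb (t ^ 2))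
    (f' := fun t => ((m : ℝ) + 1) * (t ^ m * wb (t ^ 2)) + t ^ (m + 2) * (2 * wb' (t ^ 2)))
    (a := 1) (b := 2) (fun t _ => by
      have := (hasDerivAt_pow (m + 1) t).mul ((hasDerivAt_wb (t ^ 2)).comp t (hasDerivAt_pow 2 t))
      refine this.congr_deriv ?_
      simp only [Function.comp_apply, Nat.add_sub_cancel]
      push_cast
      ring) (h1.add h2)
  rw [intervalIntegral.integral_add h1 h2, intervalIntegral.integral_const_mul,
    (wb_zero (by norm_num) (Or.inr le_rfl) : wb ((2 : ℝ) ^ 2) = 0 ∧ _).1,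
    (wb_zero (by norm_num) (Or.inl le_rfl) : wb ((1 : ℝ) ^ 2) = 0 ∧ _).1] at h3
  linarith

/-- Gaussian integral in polar coordinates. -/
lemma kap_mul_Jn {m : ℕ} (hm : 1 ≤ m) :
    (m : ℝ) * kap m * Jn (m - 1) = (2 * Real.pi) ^ ((m : ℝ) / 2) := by
  have hg := GaussianFourier.integral_rexp_neg_mul_sq_norm (V := E m) (b := 1 / 2) (by norm_num)
  have := nontrivial_E hm
  rw [finrank_euclideanSpace_fin, show Real.pi / (1 / 2) = 2 * Real.pi by ring] at hg
  rw [← hg, polar_split hm _ (fun _ => 1) (fun t => Real.exp (-t ^ 2 / 2))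
    (fun x _ => by rw [mul_one]; ring_nf)]
  rw [integral_sphM]
  simp only [integral_const, smul_eq_mul, mul_one, measureReal_def, toSphere_univ_eq]
  rw [ENNReal.toReal_ofReal (by have := kap_pos m; positivity),
    inv_mul_cancel₀ (by have := kap_pos m; positivity), mul_one, Jn]

lemma kap_zero : kap 0 = 1 := by
  have h1 : closedBall (0 : E 0) 1 = (WithLp.ofLp : E 0 → Fin 0 → ℝ) ⁻¹' univ := by
    ext x; simp [Subsingleton.elim x 0]
  rw [kap, h1, (PiLp.volume_preserving_ofLp (Fin 0)).measure_preimage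
    MeasurableSet.univ.nullMeasurableSet, volume_pi, Measure.pi_univ]
  simp

lemma kap_one : kap 1 = 2 := by
  have h := kap_mul_Jn (m := 1) le_rfl
  rw [Nat.sub_self, Jn_zero, Nat.cast_one, one_mul, ← Real.sqrt_eq_rpow] at h
  have h2 : Real.sqrt (2 * Real.pi) = 2 * Real.sqrt (Real.pi / 2) := by
    rw [show 2 * Real.pi = 2 ^ 2 * (Real.pi / 2) by ring, Real.sqrt_mul (by norm_num),
      Real.sqrt_sq (by norm_num)]
  rw [h2] at h
  exact mul_right_cancel₀ (by positivity) h

lemma kap_two : kap 2 = Real.pi := by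
  have h := kap_mul_Jn (m := 2) (by norm_num)
  rw [show (2 : ℕ) - 1 = 1 from rfl, Jn_one, mul_one, Nat.cast_ofNat,
    show (2 : ℝ) / 2 = 1 by norm_num, Real.rpow_one] at h
  linarith

lemma kap_add_two (m : ℕ) : ((m : ℝ) + 2) * kap (m + 2) = 2 * Real.pi * kap m := by
  rcases Nat.eq_zero_or_pos m with h | h
  · subst h; simp [kap_two, kap_zero]
  obtain ⟨k, rfl⟩ : ∃ k, m = k + 1 := ⟨m - 1, by omega⟩
  have h1 := kap_mul_Jn (m := k + 1) (by omega)
  have h2 := kap_mul_Jn (m := k + 1 + 2) (by omega)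
  rw [show k + 1 + 2 - 1 = k + 2 by omega, Jn_succ_succ] at h2
  rw [show k + 1 - 1 = k by omega] at h1
  have hk : (((k + 1 + 2 : ℕ) : ℝ)) / 2 = ((k + 1 : ℕ) : ℝ) / 2 + 1 := by push_cast; ring
  rw [hk, Real.rpow_add (by positivity), Real.rpow_one, ← h1] at h2
  have := Jn_pos k
  push_cast at h2 ⊢
  have key : ((k : ℝ) + 1) * Jn k * (((k : ℝ) + 1 + 2) * kap (k + 1 + 2) - 2 * Real.pi * kap (k + 1)) = 0 := by
    linear_combination h2
  rcases mul_eq_zero.1 key with h0 | h0
  · exact absurd h0 (by positivity)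
  · linarith

end Vale.Agent.P237H
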